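import Mathlib

/-! The Prékopa–Leindler inequality and the multiplicative Brunn–Minkowski inequality. -/

namespace Vale.Agent.P230

open MeasureTheory Set Filter Topology
open scoped ENNReal Pointwise

lemma vol_affine_image (a c : ℝ) (ha : 0 ≤ a) (K : Set ℝ) :
    volume ((fun x => a * x + c) '' K) = ENNReal.ofReal a * volume K := by
  have h : (fun x => a * x + c) '' K = (fun x => x + c) '' (a • K) := by
    rw [← image_smul, image_image]; rfl
  rw [h, image_add_right, measure_preimage_add_right, Measure.addHaar_smul_of_nonneg _ ha]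
  simp

lemma bm1 {a b : ℝ} (ha : 0 < a) (hb : 0 < b) {A B C : Set ℝ} (hA : MeasurableSet A)
    (hB : MeasurableSet B) (hAn : A.Nonempty) (hBn : B.Nonempty)
    (hC : ∀ x ∈ A, ∀ y ∈ B, a * x + b * y ∈ C) :
    ENNReal.ofReal a * volume A + ENNReal.ofReal b * volume B ≤ volume C := by
  have key : ∀ K L : Set ℝ, IsCompact K → IsCompact L → K ⊆ A → L ⊆ B →
      K.Nonempty → L.Nonempty →
      ENNReal.ofReal a * volume K + ENNReal.ofReal b * volume L ≤ volume C := by
    intro K L hK hL hKA hLB hKn hLn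
    set M := sSup K
    set m := sInf L
    have hM : M ∈ K := hK.sSup_mem hKn
    have hm : m ∈ L := hL.sInf_mem hLn
    set s := (fun x => a * x + b * m) '' K with hs
    set t := (fun y => b * y + a * M) '' L with ht
    have hs1 : s ⊆ Iic (a * M + b * m) := by
      rintro _ ⟨x, hx, rfl⟩
      have : x ≤ M := le_csSup hK.bddAbove hx
      simp only [mem_Iic]
      nlinarith
    have ht1 : t ⊆ Ici (a * M + b * m) := by
      rintro _ ⟨y, hy, rfl⟩
      have : m ≤ y := csInf_le hL.bddBelow hy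
      simp only [mem_Ici]
      nlinarith
    have hd : volume (s ∩ t) = 0 := by
      refine measure_mono_null (fun z hz => ?_) (Real.volume_singleton (a := a * M + b * m))
      exact le_antisymm (hs1 hz.1) (ht1 hz.2)
    have hsub : s ∪ t ⊆ C := by
      rintro z (⟨x, hx, rfl⟩ | ⟨y, hy, rfl⟩)
      · exact hC x (hKA hx) m (hLB hm)
      · dsimp only
        rw [add_comm (b * y)]
        exact hC M (hKA hM) y (hLB hy)
    have htm : MeasurableSet t := (hL.image (by fun_prop)).measurableSet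
    calc ENNReal.ofReal a * volume K + ENNReal.ofReal b * volume L
        = volume s + volume t := by rw [hs, ht, vol_affine_image _ _ ha.le, vol_affine_image _ _ hb.le]
      _ = volume (s ∪ t) + volume (s ∩ t) := (measure_union_add_inter s htm).symm
      _ ≤ volume C := by rw [hd, add_zero]; exact measure_mono hsub
  obtain ⟨x0, hx0⟩ := hAn
  obtain ⟨y0, hy0⟩ := hBn
  rw [hA.measure_eq_iSup_isCompact, hB.measure_eq_iSup_isCompact]
  simp_rw [ENNReal.mul_iSup]
  refine ENNReal.biSup_add_biSup_le' (p := fun K => K ⊆ A) (q := fun L => L ⊆ B)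
    ⟨{x0}, by simpa using hx0⟩ ⟨{y0}, by simpa using hy0⟩ ?_
  intro K hKA L hLB
  by_cases hKc : IsCompact K
  · by_cases hLc : IsCompact L
    · simp only [iSup_pos hKc, iSup_pos hLc]
      refine le_trans ?_ (key (K ∪ {x0}) (L ∪ {y0}) (hKc.union isCompact_singleton)
        (hLc.union isCompact_singleton) (union_subset hKA (by simpa using hx0))
        (union_subset hLB (by simpa using hy0)) ⟨x0, Or.inr rfl⟩ ⟨y0, Or.inr rfl⟩)
      exact add_le_add (mul_le_mul_right (measure_mono subset_union_left) _)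
        (mul_le_mul_right (measure_mono subset_union_left) _)
    · simp only [iSup_pos hKc, iSup_neg hLc]
      refine le_trans ?_ (key (K ∪ {x0}) {y0} (hKc.union isCompact_singleton)
        isCompact_singleton (union_subset hKA (by simpa using hx0))
        (by simpa using hy0) ⟨x0, Or.inr rfl⟩ ⟨y0, rfl⟩)
      exact add_le_add (mul_le_mul_right (measure_mono subset_union_left) _) zero_le
  · simp only [iSup_neg hKc]
    by_cases hLc : IsCompact L
    · simp only [iSup_pos hLc]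
      refine le_trans ?_ (key {x0} (L ∪ {y0}) isCompact_singleton
        (hLc.union isCompact_singleton) (by simpa using hx0)
        (union_subset hLB (by simpa using hy0)) ⟨x0, rfl⟩ ⟨y0, Or.inr rfl⟩)
      exact add_le_add zero_le (mul_le_mul_right (measure_mono subset_union_left) _)
    · simp [iSup_neg hLc]

lemma geom_le_arith {a b : ℝ} (ha : 0 < a) (hb : 0 < b) (hab : a + b = 1) (S T : ℝ≥0∞) :
    S ^ a * T ^ b ≤ ENNReal.ofReal a * S + ENNReal.ofReal b * T := by
  have hpq : Real.HolderConjugate (1 / a) (1 / b) := Real.holderConjugate_one_div ha hb hab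
  have := ENNReal.young_inequality (S ^ a) (T ^ b) hpq
  rw [← ENNReal.rpow_mul, ← ENNReal.rpow_mul, mul_one_div_cancel ha.ne',
    mul_one_div_cancel hb.ne', ENNReal.rpow_one, ENNReal.rpow_one] at this
  refine this.trans_eq ?_
  rw [one_div a, one_div b, div_eq_mul_inv, div_eq_mul_inv, ENNReal.ofReal_inv_of_pos ha,
    ENNReal.ofReal_inv_of_pos hb, inv_inv, inv_inv, mul_comm S, mul_comm T]

lemma rpow_self_split {a b : ℝ} (ha : 0 ≤ a) (hb : 0 ≤ b) (hab : a + b = 1) (t : ℝ≥0∞) :
    t ^ a * t ^ b = t := by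
  rw [← ENNReal.rpow_add_of_nonneg _ _ ha hb, hab, ENNReal.rpow_one]

/-- One dimension, both functions having essential supremum one. -/
lemma pl1_unit {a b : ℝ} (ha : 0 < a) (hb : 0 < b) (hab : a + b = 1)
    {f g h : ℝ → ℝ≥0∞} (hf : Measurable f) (hg : Measurable g) (hh : Measurable h)
    (hf1 : ∀ x, f x ≤ 1) (hg1 : ∀ x, g x ≤ 1)
    (hfs : ∀ t : ℝ≥0∞, t < 1 → ∃ x, t < f x) (hgs : ∀ t : ℝ≥0∞, t < 1 → ∃ x, t < g x)
    (H : ∀ x y, f x ^ a * g y ^ b ≤ h (a * x + b * y)) :
    ENNReal.ofReal a * (∫⁻ x, f x) + ENNReal.ofReal b * (∫⁻ x, g x) ≤ ∫⁻ x, h x := by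
  have cake : ∀ {u : ℝ → ℝ≥0∞}, Measurable u → (∀ x, u x ≤ 1) →
      ∫⁻ x, u x = ∫⁻ t in Ioi (0:ℝ), volume {x | ENNReal.ofReal t < u x} := by
    intro u hu hu1
    have hne : ∀ x, u x ≠ ∞ := fun x => ne_top_of_le_ne_top ENNReal.one_ne_top (hu1 x)
    calc ∫⁻ x, u x = ∫⁻ x, ENNReal.ofReal ((u x).toReal) := by
          refine lintegral_congr fun x => (ENNReal.ofReal_toReal (hne x)).symm
      _ = _ := by
          rw [lintegral_eq_lintegral_meas_lt _ (Eventually.of_forall fun x => ENNReal.toReal_nonneg)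
            hu.ennreal_toReal.aemeasurable]
          refine setLIntegral_congr_fun measurableSet_Ioi fun t ht => ?_
          congr 1
          ext x
          exact (ENNReal.ofReal_lt_iff_lt_toReal (le_of_lt ht) (hne x)).symm
  set h1 : ℝ → ℝ≥0∞ := fun x => min (h x) 1 with hh1
  have mh1 : Measurable h1 := hh.min measurable_const
  refine le_trans ?_ (lintegral_mono (show h1 ≤ h from fun x => min_le_left _ _))
  rw [cake hf hf1, cake hg hg1, cake mh1 (fun x => min_le_right _ _),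
    ← lintegral_const_mul' _ _ ENNReal.ofReal_ne_top, ← lintegral_const_mul' _ _ ENNReal.ofReal_ne_top]
  refine (le_lintegral_add _ _).trans ?_
  refine setLIntegral_mono' measurableSet_Ioi fun t ht => ?_
  by_cases ht1 : ENNReal.ofReal t < 1
  · refine bm1 ha hb (measurableSet_lt measurable_const hf) (measurableSet_lt measurable_const hg)
      (hfs _ ht1) (hgs _ ht1) ?_
    intro x hx y hy
    refine lt_min ?_ ht1
    refine lt_of_lt_of_le ?_ (H x y)
    calc ENNReal.ofReal t = ENNReal.ofReal t ^ a * ENNReal.ofReal t ^ b :=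
          (rpow_self_split ha.le hb.le hab _).symm
      _ < f x ^ a * g y ^ b :=
          ENNReal.mul_lt_mul (ENNReal.rpow_lt_rpow hx ha) (ENNReal.rpow_lt_rpow hy hb)
  · have e1 : {x | ENNReal.ofReal t < f x} = ∅ :=
      eq_empty_iff_forall_notMem.2 fun x hx => ht1 (lt_of_lt_of_le hx (hf1 x))
    have e2 : {x | ENNReal.ofReal t < g x} = ∅ :=
      eq_empty_iff_forall_notMem.2 fun x hx => ht1 (lt_of_lt_of_le hx (hg1 x))
    simp [e1, e2]

lemma pl1_bdd {a b : ℝ} (ha : 0 < a) (hb : 0 < b) (hab : a + b = 1)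
    {f g h : ℝ → ℝ≥0∞} (hf : Measurable f) (hg : Measurable g) (hh : Measurable h)
    (hfb : ⨆ x, f x ≠ ∞) (hgb : ⨆ x, g x ≠ ∞)
    (H : ∀ x y, f x ^ a * g y ^ b ≤ h (a * x + b * y)) :
    (∫⁻ x, f x) ^ a * (∫⁻ x, g x) ^ b ≤ ∫⁻ x, h x := by
  set S := ⨆ x, f x with hS
  set T := ⨆ x, g x with hT
  by_cases hS0 : S = 0
  · have : ∀ x, f x = 0 := fun x => le_antisymm (hS0 ▸ le_iSup f x) zero_le
    simp [this, ENNReal.zero_rpow_of_pos ha]
  by_cases hT0 : T = 0
  · have : ∀ x, g x = 0 := fun x => le_antisymm (hT0 ▸ le_iSup g x) zero_le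
    simp [this, ENNReal.zero_rpow_of_pos hb]
  set Z := S ^ a * T ^ b with hZ
  have hSa0 : S ^ a ≠ 0 := by simp [ENNReal.rpow_eq_zero_iff, hS0, ha.le]
  have hTb0 : T ^ b ≠ 0 := by simp [ENNReal.rpow_eq_zero_iff, hT0, hb.le]
  have hSat : S ^ a ≠ ∞ := ENNReal.rpow_ne_top_of_nonneg ha.le hfb
  have hTbt : T ^ b ≠ ∞ := ENNReal.rpow_ne_top_of_nonneg hb.le hgb
  have hsup : ∀ {u : ℝ → ℝ≥0∞} {U : ℝ≥0∞}, U = (⨆ x, u x) → U ≠ 0 → U ≠ ∞ → ∀ t : ℝ≥0∞,
      t < 1 → ∃ x, t < U⁻¹ * u x := by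
    intro u U hU h0 htop t ht
    have : t * U < U := by
      calc t * U < 1 * U := ENNReal.mul_lt_mul_left h0 htop ht
        _ = U := one_mul U
    conv at this => rhs; rw [hU]
    obtain ⟨x, hx⟩ := lt_iSup_iff.1 this
    refine ⟨x, ?_⟩
    rw [mul_comm, ← div_eq_mul_inv]
    exact (ENNReal.lt_div_iff_mul_lt (Or.inl h0) (Or.inl htop)).2 hx
  have := pl1_unit ha hb hab (f := fun x => S⁻¹ * f x) (g := fun x => T⁻¹ * g x)
    (h := fun x => Z⁻¹ * h x) (hf.const_mul _) (hg.const_mul _) (hh.const_mul _)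
    (fun x => by
      calc S⁻¹ * f x ≤ S⁻¹ * S := mul_le_mul_right (le_iSup f x) _
        _ = 1 := ENNReal.inv_mul_cancel hS0 hfb)
    (fun x => by
      calc T⁻¹ * g x ≤ T⁻¹ * T := mul_le_mul_right (le_iSup g x) _
        _ = 1 := ENNReal.inv_mul_cancel hT0 hgb)
    (hsup hS hS0 hfb) (hsup hT hT0 hgb)
    (fun x y => by
      rw [ENNReal.mul_rpow_of_nonneg _ _ ha.le, ENNReal.mul_rpow_of_nonneg _ _ hb.le,
        ENNReal.inv_rpow, ENNReal.inv_rpow, mul_mul_mul_comm, hZ,
        ← ENNReal.mul_inv (Or.inl hSa0) (Or.inl hSat)]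
      exact mul_le_mul_right (H x y) _)
  rw [lintegral_const_mul _ hf, lintegral_const_mul _ hg, lintegral_const_mul _ hh] at this
  have h2 := (geom_le_arith ha hb hab _ _).trans this
  rw [ENNReal.mul_rpow_of_nonneg _ _ ha.le, ENNReal.mul_rpow_of_nonneg _ _ hb.le,
    ENNReal.inv_rpow, ENNReal.inv_rpow, mul_mul_mul_comm, hZ,
    ← ENNReal.mul_inv (Or.inl hSa0) (Or.inl hSat)] at h2
  refine (ENNReal.mul_le_mul_iff_right ?_ ?_).1 h2
  · exact ENNReal.inv_ne_zero.2 (ENNReal.mul_ne_top hSat hTbt)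
  · exact ENNReal.inv_ne_top.2 (mul_ne_zero hSa0 hTb0)

theorem pl1 {a b : ℝ} (ha : 0 < a) (hb : 0 < b) (hab : a + b = 1)
    {f g h : ℝ → ℝ≥0∞} (hf : Measurable f) (hg : Measurable g) (hh : Measurable h)
    (H : ∀ x y, f x ^ a * g y ^ b ≤ h (a * x + b * y)) :
    (∫⁻ x, f x) ^ a * (∫⁻ x, g x) ^ b ≤ ∫⁻ x, h x := by
  have hb' : ∀ (u : ℝ → ℝ≥0∞) (M : ℕ), (⨆ x, min (u x) (M:ℝ≥0∞)) ≠ ∞ := fun u M =>
    ne_top_of_le_ne_top (ENNReal.natCast_ne_top M) (iSup_le fun x => min_le_right _ _)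
  have step : ∀ M : ℕ, (∫⁻ x, min (f x) M) ^ a * (∫⁻ x, min (g x) M) ^ b ≤ ∫⁻ x, h x := by
    intro M
    refine pl1_bdd ha hb hab (hf.min measurable_const) (hg.min measurable_const) hh
      (hb' f M) (hb' g M) fun x y => le_trans ?_ (H x y)
    exact mul_le_mul' (ENNReal.rpow_le_rpow (min_le_left _ _) ha.le)
      (ENNReal.rpow_le_rpow (min_le_left _ _) hb.le)
  have sup : ∀ {u : ℝ → ℝ≥0∞}, Measurable u →
      ∫⁻ x, u x = ⨆ M : ℕ, ∫⁻ x, min (u x) (M:ℝ≥0∞) := by
    intro u hu
    rw [← lintegral_iSup (fun M => hu.min measurable_const)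
      (fun i j hij x => min_le_min le_rfl (Nat.cast_le.2 hij))]
    refine lintegral_congr fun x => le_antisymm ?_ (iSup_le fun M => min_le_left _ _)
    by_cases hx : u x = ∞
    · rw [hx]; simp [ENNReal.iSup_natCast]
    · obtain ⟨M, hM⟩ := ENNReal.exists_nat_gt hx
      exact le_iSup_of_le M (by rw [min_eq_left hM.le])
  rw [sup hf, sup hg]
  have r1 : (⨆ M : ℕ, ∫⁻ x, min (f x) M) ^ a = ⨆ M : ℕ, (∫⁻ x, min (f x) M) ^ a :=
    (ENNReal.monotone_rpow_of_nonneg ha.le).map_iSup_of_continuousAt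
      (ENNReal.continuous_rpow_const.continuousAt) (by simp [ENNReal.zero_rpow_of_pos ha])
  have r2 : (⨆ M : ℕ, ∫⁻ x, min (g x) M) ^ b = ⨆ M : ℕ, (∫⁻ x, min (g x) M) ^ b :=
    (ENNReal.monotone_rpow_of_nonneg hb.le).map_iSup_of_continuousAt
      (ENNReal.continuous_rpow_const.continuousAt) (by simp [ENNReal.zero_rpow_of_pos hb])
  rw [r1, r2, ENNReal.iSup_mul]
  refine iSup_le fun i => ?_
  rw [ENNReal.mul_iSup]
  refine iSup_le fun j => le_trans ?_ (step (max i j))
  refine mul_le_mul' (ENNReal.rpow_le_rpow ?_ ha.le) (ENNReal.rpow_le_rpow ?_ hb.le)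
  · exact lintegral_mono fun x => min_le_min le_rfl (Nat.cast_le.2 (le_max_left _ _))
  · exact lintegral_mono fun x => min_le_min le_rfl (Nat.cast_le.2 (le_max_right _ _))

theorem plD {a b : ℝ} (ha : 0 < a) (hb : 0 < b) (hab : a + b = 1) :
    ∀ (d : ℕ) {f g h : (Fin d → ℝ) → ℝ≥0∞}, Measurable f → Measurable g → Measurable h →
    (∀ x y, f x ^ a * g y ^ b ≤ h (a • x + b • y)) →
    (∫⁻ x, f x) ^ a * (∫⁻ x, g x) ^ b ≤ ∫⁻ x, h x := by
  intro d
  induction d with
  | zero =>
    intro f g h hf hg hh H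
    have hu : (volume : Measure (Fin 0 → ℝ)) univ = 1 := by
      rw [volume_pi, Measure.pi_empty_univ]
    rw [lintegral_unique, lintegral_unique, lintegral_unique]
    simp only [hu, mul_one]
    refine (H _ _).trans_eq ?_
    congr 1
    exact Subsingleton.elim _ _
  | succ d ih =>
    intro f g h hf hg hh H
    let em := (MeasurableEquiv.piFinSuccAbove (fun _ : Fin (d+1) => ℝ) 0).symm
    have hmp : MeasurePreserving em volume volume :=
      (volume_preserving_piFinSuccAbove (fun _ : Fin (d+1) => ℝ) 0).symm _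
    have hem : ∀ (s : ℝ) (u : Fin d → ℝ), em (s, u) = Fin.cons s u := by
      intro s u
      simp [em, MeasurableEquiv.piFinSuccAbove]
      rfl
    have hcons : Measurable fun p : ℝ × (Fin d → ℝ) => (Fin.cons p.1 p.2 : Fin (d+1) → ℝ) := by
      have : (fun p : ℝ × (Fin d → ℝ) => (Fin.cons p.1 p.2 : Fin (d+1) → ℝ)) = em := by
        funext p; rw [← hem]
      rw [this]; exact em.measurable
    have split : ∀ {u : (Fin (d+1) → ℝ) → ℝ≥0∞}, Measurable u →
        ∫⁻ x, u x = ∫⁻ s, ∫⁻ v, u (Fin.cons s v) := by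
      intro u hu
      rw [← hmp.lintegral_comp hu, Measure.volume_eq_prod,
        lintegral_prod (fun p => u (em p)) (hu.comp em.measurable).aemeasurable]
      simp only [hem]
    have msec : ∀ {u : (Fin (d+1) → ℝ) → ℝ≥0∞}, Measurable u →
        Measurable fun s => ∫⁻ v, u (Fin.cons s v) := fun {u} hu =>
      Measurable.lintegral_prod_right' (f := fun p => u (Fin.cons p.1 p.2)) (hu.comp hcons)
    rw [split hf, split hg, split hh]
    refine pl1 ha hb hab (msec hf) (msec hg) (msec hh) fun s t => ?_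
    refine ih (f := fun v => f (Fin.cons s v)) (g := fun v => g (Fin.cons t v))
      (h := fun v => h (Fin.cons (a * s + b * t) v))
      (hf.comp (hcons.comp measurable_prodMk_left)) (hg.comp (hcons.comp measurable_prodMk_left))
      (hh.comp (hcons.comp measurable_prodMk_left)) fun u v => ?_
    refine (H _ _).trans_eq ?_
    congr 1
    funext i
    refine Fin.cases ?_ ?_ i <;> simp

/-- Multiplicative Brunn–Minkowski inequality. -/
theorem brunn_minkowski_mul {a b : ℝ} (ha : 0 < a) (hb : 0 < b) (hab : a + b = 1) {d : ℕ}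
    {A B C : Set (Fin d → ℝ)} (hA : MeasurableSet A) (hB : MeasurableSet B) (hC : MeasurableSet C)
    (hsub : ∀ x ∈ A, ∀ y ∈ B, a • x + b • y ∈ C) :
    volume A ^ a * volume B ^ b ≤ volume C := by
  have := plD ha hb hab d (f := A.indicator 1) (g := B.indicator 1) (h := C.indicator 1)
    (measurable_one.indicator hA) (measurable_one.indicator hB) (measurable_one.indicator hC) ?_
  · rwa [lintegral_indicator_one hA, lintegral_indicator_one hB, lintegral_indicator_one hC] at this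
  intro x y
  by_cases h1 : x ∈ A <;> by_cases h2 : y ∈ B <;>
    simp [h1, h2, hsub x, ENNReal.zero_rpow_of_pos ha, ENNReal.zero_rpow_of_pos hb]

/-- Quasi-concave form of the Brunn–Minkowski inequality. -/
theorem brunn_minkowski_min {a b : ℝ} (ha : 0 < a) (hb : 0 < b) (hab : a + b = 1) {d : ℕ}
    {A B C : Set (Fin d → ℝ)} (hA : MeasurableSet A) (hB : MeasurableSet B) (hC : MeasurableSet C)
    (hsub : ∀ x ∈ A, ∀ y ∈ B, a • x + b • y ∈ C) :
    min (volume A) (volume B) ≤ volume C :=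
  calc min (volume A) (volume B)
      = min (volume A) (volume B) ^ a * min (volume A) (volume B) ^ b :=
        (rpow_self_split ha.le hb.le hab _).symm
    _ ≤ volume A ^ a * volume B ^ b :=
        mul_le_mul' (ENNReal.rpow_le_rpow (min_le_left _ _) ha.le)
          (ENNReal.rpow_le_rpow (min_le_right _ _) hb.le)
    _ ≤ volume C := brunn_minkowski_mul ha hb hab hA hB hC hsub

end Vale.Agent.P230
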