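import Mathlib

/-! Sections of convex bodies, sub-bodies of prescribed volume, symmetric cores. -/

namespace Vale.Agent.P230

open MeasureTheory Set
open scoped Pointwise ENNReal

variable {α β : Type*}

/-- The section of `K` at the height `w`. -/
def sec (K : Set (α × β)) (w : β) : Set α := {x | (x, w) ∈ K}

lemma mem_sec {K : Set (α × β)} {w : β} {x : α} : x ∈ sec K w ↔ (x, w) ∈ K := Iff.rfl

variable {d k : ℕ}

lemma sec_convex {K : Set ((Fin d → ℝ) × (Fin k → ℝ))} (hK : Convex ℝ K) (w : Fin k → ℝ) :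
    Convex ℝ (sec K w) := by
  intro x hx y hy a b ha hb hab
  rw [mem_sec] at hx hy ⊢
  have := hK hx hy ha hb hab
  simpa [← add_smul, hab] using this

lemma sec_compact {K : Set ((Fin d → ℝ) × (Fin k → ℝ))} (hK : IsCompact K) (w : Fin k → ℝ) :
    IsCompact (sec K w) := by
  have h : sec K w = Prod.fst '' (K ∩ (univ ×ˢ {w})) := by
    ext x
    simp only [mem_sec, mem_image, mem_inter_iff, Set.mem_prod, mem_univ, true_and,
      mem_singleton_iff]
    exact ⟨fun h => ⟨(x, w), ⟨h, rfl⟩, rfl⟩, fun ⟨q, ⟨hq, hq2⟩, hq1⟩ => by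
      rw [← hq1, ← hq2]; exact hq⟩
  rw [h]
  exact (hK.inter_right (isClosed_univ.prod isClosed_singleton)).image continuous_fst

lemma sec_subset_ball {K : Set ((Fin d → ℝ) × (Fin k → ℝ))} {R : ℝ}
    (hR : K ⊆ Metric.closedBall 0 R) (w : Fin k → ℝ) : sec K w ⊆ Metric.closedBall 0 R := by
  intro x hx
  have := hR hx
  rw [Metric.mem_closedBall, dist_zero_right] at this ⊢
  exact (norm_fst_le (x, w)).trans this

lemma exists_sub_body (hd : 0 < d) {A : Set (Fin d → ℝ)} (hc : Convex ℝ A) (hA : IsCompact A) {V : ℝ}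
    (hV : 0 < V) (hVA : V ≤ volume.real A) :
    ∃ B ⊆ A, Convex ℝ B ∧ IsCompact B ∧ volume.real B = V := by
  obtain ⟨a, ha⟩ : A.Nonempty := by
    refine nonempty_of_measure_ne_zero (μ := volume) fun h => ?_
    rw [measureReal_def, h] at hVA
    simp at hVA
    linarith
  have hA0 : 0 < volume.real A := hV.trans_le hVA
  set r := (V / volume.real A) ^ ((1:ℝ) / d) with hr
  have hq : 0 ≤ V / volume.real A := by positivity
  have hr0 : 0 ≤ r := Real.rpow_nonneg hq _
  have hr1 : r ≤ 1 := Real.rpow_le_one hq ((div_le_one hA0).2 hVA) (by positivity)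
  refine ⟨(fun x => x + (1 - r) • a) '' (r • A), ?_, ?_, ?_, ?_⟩
  · rintro _ ⟨_, ⟨x, hx, rfl⟩, rfl⟩
    exact hc hx ha hr0 (by linarith) (by ring)
  · exact (hc.smul r).translate ((1 - r) • a) |>.linear_image LinearMap.id |> fun h => by
      simpa [add_comm, Set.image_image] using h
  · exact (hA.smul r).image (by fun_prop)
  · rw [measureReal_def, image_add_right, measure_preimage_add_right,
      Measure.addHaar_smul_of_nonneg _ hr0, ENNReal.toReal_mul,
      ENNReal.toReal_ofReal (by positivity), Module.finrank_fin_fun, ← measureReal_def, hr,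
      ← Real.rpow_natCast, ← Real.rpow_mul hq, one_div, inv_mul_cancel₀ (by positivity),
      Real.rpow_one, div_mul_cancel₀ _ hA0.ne']

/-- A centrally symmetric convex body inside a translate, with at least `2⁻ᵈ` of the volume. -/
lemma symmetric_core {A : Set (Fin d → ℝ)} (hc : Convex ℝ A) (hA : IsCompact A)
    (hpos : 0 < volume.real A) :
    ∃ c : Fin d → ℝ, ∃ Y : Set (Fin d → ℝ), Convex ℝ Y ∧ IsCompact Y ∧ (∀ y ∈ Y, -y ∈ Y) ∧
      (∀ y ∈ Y, y + c ∈ A) ∧ (1/2:ℝ) ^ d * volume.real A ≤ volume.real Y ∧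
      volume.real Y ≤ volume.real A := by
  have hAfin : volume A ≠ ∞ := hA.measure_lt_top.ne
  set f : (Fin d → ℝ) → ℝ≥0∞ := fun c => ∫⁻ x, A.indicator 1 x * A.indicator 1 (c - x) with hf
  have hm : Measurable (A.indicator (1 : (Fin d → ℝ) → ℝ≥0∞)) :=
    measurable_one.indicator hA.measurableSet
  have htot : ∫⁻ c, f c = volume A * volume A := by
    rw [hf]
    rw [lintegral_lintegral_swap (by fun_prop)]
    have : ∀ x, ∫⁻ c, A.indicator 1 x * A.indicator 1 (c - x) =
        A.indicator (1 : (Fin d → ℝ) → ℝ≥0∞) x * volume A := by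
      intro x
      rw [lintegral_const_mul _ (by fun_prop), lintegral_sub_right_eq_self (A.indicator 1) x,
        lintegral_indicator_one hA.measurableSet]
    rw [lintegral_congr this, lintegral_mul_const _ hm, lintegral_indicator_one hA.measurableSet]
  obtain ⟨c, hcv⟩ : ∃ c, ENNReal.ofReal ((1/2:ℝ) ^ d) * volume A ≤ f c := by
    by_contra hno
    push Not at hno
    set b := ENNReal.ofReal ((1/2:ℝ) ^ d) * volume A
    set T : Set (Fin d → ℝ) := (2:ℝ) • A
    have hTm : MeasurableSet T := (hA.smul _).measurableSet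
    have hsupp : ∀ c, c ∉ T → f c = 0 := by
      intro c hc'
      rw [hf]
      refine lintegral_eq_zero_of_ae_eq_zero (Filter.Eventually.of_forall fun x => ?_)
      by_cases h1 : x ∈ A
      · by_cases h2 : c - x ∈ A
        · exfalso
          refine hc' ⟨(1/2:ℝ) • x + (1/2:ℝ) • (c - x),
            hc h1 h2 (by norm_num) (by norm_num) (by norm_num), ?_⟩
          simp [smul_smul]
        · simp [h2]
      · simp [h1]
    have hT : volume T = ENNReal.ofReal ((2:ℝ) ^ d) * volume A := by
      rw [Measure.addHaar_smul_of_nonneg _ (by norm_num : (0:ℝ) ≤ 2), Module.finrank_fin_fun]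
    have hA0 : volume A ≠ 0 := by
      intro h; rw [measureReal_def, h] at hpos; simp at hpos
    have hT0 : volume T ≠ 0 := by
      rw [hT]
      exact mul_ne_zero (by simp) hA0
    have h1 : ∫⁻ c, f c = ∫⁻ c in T, f c := by
      rw [← lintegral_indicator hTm]
      refine lintegral_congr fun c => ?_
      by_cases h : c ∈ T
      · rw [indicator_of_mem h]
      · rw [indicator_of_notMem h, hsupp c h]
    have h2 : ∫⁻ c in T, f c < ∫⁻ _c in T, b :=
      setLIntegral_strict_mono hTm hT0 measurable_const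
        (by rw [← h1, htot]; exact ENNReal.mul_ne_top hAfin hAfin)
        (Filter.Eventually.of_forall fun c _ => hno c)
    rw [← h1, htot, setLIntegral_const, hT] at h2
    refine h2.ne ?_
    simp only [b]
    calc volume A * volume A
        = ENNReal.ofReal ((1/2:ℝ) ^ d * (2:ℝ) ^ d) * (volume A * volume A) := by
          rw [← mul_pow]; norm_num
      _ = _ := by rw [ENNReal.ofReal_mul (by positivity)]; ring
  refine ⟨(1/2:ℝ) • c, (fun y => y + (1/2:ℝ) • c) ⁻¹' (A ∩ (fun x => c - x) ⁻¹' A),
    ?_, ?_, ?_, ?_, ?_, ?_⟩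
  · intro y1 h1 y2 h2 a b ha hb hab
    simp only [mem_preimage, mem_inter_iff] at h1 h2 ⊢
    have e1 : a • y1 + b • y2 + (1/2:ℝ) • c =
        a • (y1 + (1/2:ℝ) • c) + b • (y2 + (1/2:ℝ) • c) := by
      rw [smul_add, smul_add, add_add_add_comm, ← add_smul, hab, one_smul]
    have e2 : c - (a • y1 + b • y2 + (1/2:ℝ) • c) =
        a • (c - (y1 + (1/2:ℝ) • c)) + b • (c - (y2 + (1/2:ℝ) • c)) := by
      rw [e1, smul_sub a c, smul_sub b c, sub_add_sub_comm, ← add_smul, hab, one_smul]
    exact ⟨e1 ▸ hc h1.1 h2.1 ha hb hab, by rw [e2]; exact hc h1.2 h2.2 ha hb hab⟩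
  · have hI : IsCompact (A ∩ (fun x => c - x) ⁻¹' A) :=
      hA.inter_right (hA.isClosed.preimage (by fun_prop))
    have e : (fun y => y + (1/2:ℝ) • c) ⁻¹' (A ∩ (fun x => c - x) ⁻¹' A) =
        (fun y => y + -((1/2:ℝ) • c)) '' (A ∩ (fun x => c - x) ⁻¹' A) := by
      rw [image_add_right, neg_neg]
    rw [e]
    exact hI.image (by fun_prop)
  · intro y hy
    simp only [mem_preimage, mem_inter_iff] at hy ⊢
    have e : c - (y + (1/2:ℝ) • c) = -y + (1/2:ℝ) • c := by
      funext i; simp; ring
    have e' : c - (-y + (1/2:ℝ) • c) = y + (1/2:ℝ) • c := by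
      funext i; simp; ring
    rw [e] at hy
    exact ⟨hy.2, by rw [e']; exact hy.1⟩
  · exact fun y hy => hy.1
  · have e : f c = volume (A ∩ (fun x => c - x) ⁻¹' A) := by
      rw [← lintegral_indicator_one (hA.measurableSet.inter
        (hA.measurableSet.preimage (by fun_prop)))]
      refine lintegral_congr fun x => ?_
      by_cases h1 : x ∈ A <;> by_cases h2 : c - x ∈ A <;> simp [h1, h2]
    rw [e] at hcv
    rw [measureReal_def, measureReal_def, measure_preimage_add_right]
    have := ENNReal.toReal_mono (ne_top_of_le_ne_top hAfin (measure_mono inter_subset_left)) hcv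
    rwa [ENNReal.toReal_mul, ENNReal.toReal_ofReal (by positivity)] at this
  · rw [measureReal_def, measureReal_def, measure_preimage_add_right]
    exact ENNReal.toReal_mono hAfin (measure_mono inter_subset_left)

end Vale.Agent.P230
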