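import Mathlib

/-! The matrix of the lattice cut out by one congruence. -/

namespace Vale.Agent.P230

open Finset Matrix

variable {d k : ℕ} {p : ℕ} [Fact p.Prime]

/-- For a nonzero form `h` and shifts `t`, the lattice of points `(g / L, s z)` with
`h g = ∑ z t` (mod `p`) is given by a matrix of determinant `p * (1/L)^d * s^k`. -/
theorem exists_lattice_matrix (h : Fin d → ZMod p) (hh : h ≠ 0) (t : Fin k → ZMod p)
    (L : ℝ) (s : ℝ) :
    ∃ A : Matrix (Fin d ⊕ Fin k) (Fin d ⊕ Fin k) ℝ,
      A.det = p * (1 / L) ^ d * s ^ k ∧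
      ∀ (g : Fin d → ℤ) (z : Fin k → ℤ),
        ∑ j, h j * (g j : ZMod p) = ∑ l, (z l : ZMod p) * t l →
        ∃ x : Fin d ⊕ Fin k → ℤ, A *ᵥ (fun i => (x i : ℝ)) =
          Sum.elim (fun i => (g i : ℝ) / L) (fun l => s * z l) := by
  classical
  obtain ⟨i0, hi0⟩ := Function.ne_iff.1 hh
  have hi0' : h i0 ≠ 0 := hi0
  let v : Fin d ⊕ Fin k → ℤ := Sum.elim
    (fun i => if i = i0 then (p:ℤ) else (((-(h i) / h i0).val : ℕ) : ℤ))
    (fun l => (((t l / h i0).val : ℕ) : ℤ))
  let v' : Fin d ⊕ Fin k → ℝ := fun i => (v i : ℝ)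
  let Dg : Fin d ⊕ Fin k → ℝ := Sum.elim (fun _ => 1 / L) (fun _ => s)
  refine ⟨diagonal Dg * (1 : Matrix (Fin d ⊕ Fin k) (Fin d ⊕ Fin k) ℝ).updateRow (Sum.inl i0) v',
    ?_, fun g z hgz => ?_⟩
  · rw [det_mul, det_diagonal]
    have hu : ((1 : Matrix (Fin d ⊕ Fin k) (Fin d ⊕ Fin k) ℝ).updateRow (Sum.inl i0) v').det
        = (p:ℝ) := by
      have e : v' = ∑ i, v' i • (1 : Matrix (Fin d ⊕ Fin k) (Fin d ⊕ Fin k) ℝ) i := by
        funext j
        simp [Finset.sum_apply, Matrix.one_apply]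
      conv_lhs => rw [e]
      rw [det_updateRow_sum, det_one, smul_eq_mul, mul_one]
      simp [v', v]
    rw [hu, Fintype.prod_sum_type]
    simp [Dg]
    ring
  · set rest : ℤ := ∑ i ∈ univ.erase i0, v (Sum.inl i) * g i + ∑ l, v (Sum.inr l) * z l with hrest
    have hdvd : (p:ℤ) ∣ g i0 - rest := by
      rw [← ZMod.intCast_zmod_eq_zero_iff_dvd, Int.cast_sub, sub_eq_zero, hrest]
      push_cast
      refine mul_left_cancel₀ hi0' ?_
      rw [mul_add, mul_sum, mul_sum]
      have e1 : ∀ i ∈ univ.erase i0, h i0 * ((v (Sum.inl i) : ZMod p) * (g i : ZMod p)) =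
          -(h i * (g i : ZMod p)) := by
        intro i hi
        simp only [v, Sum.elim_inl, if_neg (mem_erase.1 hi).1, Int.cast_natCast,
          ZMod.natCast_zmod_val]
        field_simp
      have e2 : ∀ l, h i0 * ((v (Sum.inr l) : ZMod p) * (z l : ZMod p)) =
          (z l : ZMod p) * t l := by
        intro l
        simp only [v, Sum.elim_inr, Int.cast_natCast, ZMod.natCast_zmod_val]
        field_simp
      rw [sum_congr rfl e1, sum_congr rfl fun l _ => e2 l, sum_neg_distrib, ← hgz,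
        ← add_sum_erase _ (fun j => h j * (g j : ZMod p)) (mem_univ i0)]
      ring
    obtain ⟨x0, hx0⟩ := hdvd
    refine ⟨Sum.elim (fun i => if i = i0 then x0 else g i) z, funext fun i => ?_⟩
    rw [← mulVec_mulVec, mulVec_diagonal]
    set X : Fin d ⊕ Fin k → ℝ :=
      fun i => ((Sum.elim (fun i => if i = i0 then x0 else g i) z i : ℤ) : ℝ) with hX
    by_cases hi : i = Sum.inl i0
    · subst hi
      have hrow : ((1 : Matrix (Fin d ⊕ Fin k) (Fin d ⊕ Fin k) ℝ).updateRow (Sum.inl i0) v' *ᵥ X)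
          (Sum.inl i0) = (g i0 : ℝ) := by
        simp only [mulVec, dotProduct, updateRow_self]
        have hz : ∑ i, v i * (Sum.elim (fun i => if i = i0 then x0 else g i) z) i = g i0 := by
          rw [Fintype.sum_sum_type, ← add_sum_erase _ _ (mem_univ i0)]
          simp only [Sum.elim_inl, Sum.elim_inr]
          rw [sum_congr rfl fun i hi => by rw [if_neg (mem_erase.1 hi).1]]
          have : v (Sum.inl i0) = (p:ℤ) := by simp [v]
          rw [this, if_pos trivial, add_assoc, ← hrest]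
          omega
        simp only [v', hX]
        exact_mod_cast hz
      rw [hrow]
      simp [Dg]; ring
    · have hrow : ((1 : Matrix (Fin d ⊕ Fin k) (Fin d ⊕ Fin k) ℝ).updateRow (Sum.inl i0) v' *ᵥ X)
          i = X i := by
        simp [mulVec, dotProduct, updateRow_ne hi, Matrix.one_apply]
      rw [hrow, hX]
      cases i with
      | inl i =>
        have : i ≠ i0 := fun e => hi (by rw [e])
        simp [Dg, this]; ring
      | inr l => simp [Dg]

end Vale.Agent.P230
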