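import Mathlib

/-! The layering lemma: independent shifts square the uncovered proportion. -/

namespace Vale.Agent.P230

open Finset

variable {k : ℕ} {F : Type*} [AddCommGroup F] [Fintype F] [DecidableEq F]

/-- The indices of a subset of the first `i` coordinates. -/
def lowCube (k i : ℕ) : Finset (Finset (Fin k)) :=
  (univ : Finset (Fin k)).powerset.filter fun S => ∀ l ∈ S, (l : ℕ) < i

/-- The shift of an index by `M` in the coordinates of `S`. -/
def shiftIdx (M : ℤ) (w : Fin k → ℤ) (S : Finset (Fin k)) : Fin k → ℤ :=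
  fun l => w l - if l ∈ S then M else 0

/-- The residues uncovered by all layers indexed by the first `i` coordinates. -/
def layered (U0 : (Fin k → ℤ) → Finset F) (M : ℤ) (i : ℕ) (t : Fin k → F) (w : Fin k → ℤ) :
    Finset F :=
  univ.filter fun y => ∀ S ∈ lowCube k i, y - ∑ l ∈ S, t l ∈ U0 (shiftIdx M w S)

/-- The number of layers that are active. -/
def activeCount (act : (Fin k → ℤ) → Prop) [DecidablePred act] (M : ℤ) (i : ℕ)
    (w : Fin k → ℤ) : ℕ :=
  ((lowCube k i).filter fun S => act (shiftIdx M w S)).card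

lemma sum_card_inter_shift (A A' : Finset F) :
    ∑ τ : F, (A.filter fun y => y - τ ∈ A').card = A.card * A'.card := by
  simp_rw [card_filter]
  rw [sum_comm, card_eq_sum_ones A, sum_mul]
  refine sum_congr rfl fun y _ => ?_
  rw [one_mul]
  calc ∑ τ : F, (if y - τ ∈ A' then 1 else 0) = ∑ τ : F, (if τ ∈ A' then 1 else 0) :=
        Fintype.sum_equiv (Equiv.subLeft y) _ _ fun τ => rfl
    _ = A'.card := by simp

lemma lowCube_zero : lowCube k 0 = {∅} := by
  ext S
  simp only [lowCube, mem_filter, mem_powerset, mem_singleton]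
  refine ⟨fun h => eq_empty_of_forall_notMem fun l hl => by simpa using h.2 l hl, ?_⟩
  rintro rfl; simp

lemma lowCube_succ {i : ℕ} (hi : i < k) :
    lowCube k (i+1) = lowCube k i ∪ (lowCube k i).image (insert (⟨i, hi⟩ : Fin k)) := by
  ext S
  simp only [lowCube, mem_filter, mem_powerset, mem_union, mem_image, subset_univ, true_and]
  constructor
  · intro h
    by_cases hmem : (⟨i, hi⟩ : Fin k) ∈ S
    · refine Or.inr ⟨S.erase ⟨i, hi⟩, fun l hl => ?_, insert_erase hmem⟩
      rw [mem_erase] at hl
      have := h l hl.2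
      have h2 : (l : ℕ) ≠ i := fun e => hl.1 (Fin.ext e)
      omega
    · refine Or.inl fun l hl => ?_
      have := h l hl
      have h2 : (l : ℕ) ≠ i := fun e => hmem (by
        have : l = ⟨i, hi⟩ := Fin.ext e
        rwa [← this])
      omega
  · rintro (h | ⟨S', h, rfl⟩) l hl
    · have := h l hl; omega
    · rcases mem_insert.1 hl with rfl | hl
      · simp
      · have := h l hl; omega

lemma notMem_of_lowCube {i : ℕ} (hi : i < k) {S : Finset (Fin k)} (hS : S ∈ lowCube k i) :
    (⟨i, hi⟩ : Fin k) ∉ S := fun h => lt_irrefl i ((mem_filter.1 hS).2 _ h)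

lemma shiftIdx_insert (M : ℤ) (w : Fin k → ℤ) {S : Finset (Fin k)} {e : Fin k} (he : e ∉ S) :
    shiftIdx M w (insert e S) = shiftIdx M (shiftIdx M w {e}) S := by
  funext l
  simp only [shiftIdx, mem_insert, mem_singleton]
  by_cases h : l = e
  · subst h; simp [he]
  · simp [h]

theorem layering (U0 : (Fin k → ℤ) → Finset F) (act : (Fin k → ℤ) → Prop) [DecidablePred act]
    (M : ℤ) (I : Finset (Fin k → ℤ))
    (hI : ∀ i w, activeCount act M i w ≠ 0 → w ∈ I) {Mc η : ℝ} (hMc : (I.card : ℝ) ≤ Mc)
    (hMc1 : 1 ≤ Mc) (hη : 0 < η) (hU0 : ∀ w, act w → ((U0 w).card : ℝ) ≤ η * Fintype.card F) :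
    ∀ i ≤ k, ∃ t : Fin k → F, ∀ w, ((layered U0 M i t w).card : ℝ) ≤
      Fintype.card F * Mc ^ (2 ^ i - 1) * η ^ activeCount act M i w := by
  intro i
  induction i with
  | zero =>
    intro _
    refine ⟨fun _ => 0, fun w => ?_⟩
    have hsh : shiftIdx M w ∅ = w := by funext l; simp [shiftIdx]
    have hsub : layered U0 M 0 (fun _ => 0) w ⊆ U0 w := by
      intro y hy
      simp only [layered, mem_filter, lowCube_zero, mem_singleton, forall_eq, sum_empty,
        sub_zero, hsh] at hy
      exact hy.2
    simp only [pow_zero, Nat.sub_self, mul_one]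
    by_cases h : act w
    · have : activeCount act M 0 w = 1 := by
        simp [activeCount, lowCube_zero, filter_singleton, hsh, h]
      rw [this, pow_one, mul_comm]
      exact le_trans (Nat.cast_le.2 (card_le_card hsub)) (hU0 w h)
    · have : activeCount act M 0 w = 0 := by
        simp [activeCount, lowCube_zero, filter_singleton, hsh, h]
      rw [this, pow_zero, mul_one]
      show ((layered U0 M 0 (fun _ => 0) w).card : ℝ) ≤ ((Fintype.card F : ℕ) : ℝ)
      exact Nat.cast_le.2 (card_le_univ _)
  | succ i ih =>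
    intro hi
    have hi' : i < k := hi
    obtain ⟨t, ht⟩ := ih (Nat.le_of_succ_le hi)
    set e : Fin k := ⟨i, hi'⟩
    set q : ℝ := ((Fintype.card F : ℕ) : ℝ) with hq
    have hq0 : 0 < q := by rw [hq]; exact_mod_cast Fintype.card_pos
    have hcnt : ∀ w, activeCount act M (i+1) w =
        activeCount act M i w + activeCount act M i (shiftIdx M w {e}) := by
      intro w
      rw [activeCount, lowCube_succ hi', filter_union, card_union_of_disjoint]
      · congr 1
        rw [filter_image, card_image_of_injOn, activeCount]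
        · congr 1
          refine filter_congr fun S hS => ?_
          rw [shiftIdx_insert M w (notMem_of_lowCube hi' hS)]
        · intro S hS S' hS' h
          simp only [coe_filter, Set.mem_ofPred_eq] at hS hS'
          rw [← erase_insert (notMem_of_lowCube hi' hS.1),
            ← erase_insert (notMem_of_lowCube hi' hS'.1)]
          exact congrArg (fun T : Finset (Fin k) => T.erase ⟨i, hi'⟩) h
      · rw [disjoint_left]
        intro S hS hS'
        obtain ⟨S', hS', rfl⟩ := mem_image.1 (mem_filter.1 hS').1
        exact notMem_of_lowCube hi' (mem_filter.1 hS).1 (mem_insert_self _ _)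
    set P : (Fin k → ℤ) → F → ℕ := fun w τ =>
      ((layered U0 M i t w).filter fun y => y - τ ∈ layered U0 M i t (shiftIdx M w {e})).card
    set e' := 2 ^ i - 1
    have hsum : ∑ τ : F, ∑ w ∈ I, (P w τ : ℝ) / η ^ activeCount act M (i+1) w ≤
        q * (q * Mc ^ (2 * e' + 1)) := by
      rw [sum_comm]
      calc ∑ w ∈ I, ∑ τ : F, (P w τ : ℝ) / η ^ activeCount act M (i+1) w
          ≤ ∑ _w ∈ I, q * q * Mc ^ (2 * e') := by
            refine sum_le_sum fun w _ => ?_
            rw [← sum_div, ← Nat.cast_sum, sum_card_inter_shift, div_le_iff₀ (pow_pos hη _),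
              hcnt, pow_add, two_mul, pow_add]
            push_cast
            calc _ ≤ (q * Mc ^ e' * η ^ activeCount act M i w) *
                  (q * Mc ^ e' * η ^ activeCount act M i (shiftIdx M w {e})) :=
                  mul_le_mul (ht w) (ht _) (by positivity) (by positivity)
              _ = _ := by ring
        _ ≤ Mc * (q * q * Mc ^ (2 * e')) := by
            rw [sum_const, nsmul_eq_mul]
            exact mul_le_mul_of_nonneg_right hMc (by positivity)
        _ = _ := by ring
    obtain ⟨τ, -, hτ⟩ := exists_le_of_sum_le (univ_nonempty (α := F)) (g := fun _ : F =>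
        q * Mc ^ (2 * e' + 1)) (f := fun τ => ∑ w ∈ I, (P w τ : ℝ) / η ^ activeCount act M (i+1) w)
        (hsum.trans_eq (by rw [sum_const, card_univ, nsmul_eq_mul]))
    refine ⟨Function.update t e τ, fun w => ?_⟩
    have hexp : 2 * e' + 1 = 2 ^ (i+1) - 1 := by
      have : 1 ≤ 2 ^ i := Nat.one_le_two_pow
      rw [pow_succ]; omega
    rw [← hexp]
    by_cases hw : w ∈ I
    · have h1 : (P w τ : ℝ) / η ^ activeCount act M (i+1) w ≤ q * Mc ^ (2 * e' + 1) :=
        le_trans (single_le_sum (f := fun w => (P w τ : ℝ) / η ^ activeCount act M (i+1) w)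
          (fun w _ => by positivity) hw) hτ
      rw [div_le_iff₀ (pow_pos hη _)] at h1
      refine le_trans (Nat.cast_le.2 (card_le_card fun y hy => ?_)) h1
      simp only [layered, mem_filter, mem_univ, true_and] at hy
      have hup : ∀ S ∈ lowCube k i, ∑ l ∈ S, Function.update t e τ l = ∑ l ∈ S, t l := by
        intro S hS
        refine sum_congr rfl fun l hl => Function.update_of_ne ?_ _ _
        rintro rfl
        exact notMem_of_lowCube hi' hS hl
      simp only [layered, mem_filter, mem_univ, true_and]
      constructor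
      · intro S hS
        have := hy S (by rw [lowCube_succ hi']; exact mem_union_left _ hS)
        rwa [hup S hS] at this
      · intro S hS
        have := hy (insert e S)
          (by rw [lowCube_succ hi']; exact mem_union_right _ (mem_image_of_mem _ hS))
        rw [sum_insert (notMem_of_lowCube hi' hS), Function.update_self, hup S hS,
          shiftIdx_insert M w (notMem_of_lowCube hi' hS), ← sub_sub] at this
        exact this
    · have h0 : activeCount act M (i+1) w = 0 := by
        by_contra h; exact hw (hI _ _ h)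
      rw [h0, pow_zero, mul_one]
      calc ((layered U0 M (i+1) (Function.update t e τ) w).card : ℝ) ≤ q :=
            Nat.cast_le.2 (card_le_univ _)
        _ ≤ _ := le_mul_of_one_le_right hq0.le (one_le_pow₀ hMc1)

/-- Near vertices: many subsets give a point of the cube close to the origin. -/
theorem vertex_count {k j : ℕ} (hk : k = 4 * j) (hj : 0 < j) (u : Fin k → ℝ)
    (hu : ∀ i, 0 ≤ u i ∧ u i ≤ 1) :
    (k.choose j : ℝ) / (2 * (k : ℝ) + 1) ≤
      ((univ : Finset (Fin k)).powerset.filter fun S : Finset (Fin k) =>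
        ∑ i, (2 * (u i - if i ∈ S then 1 else 0)) ^ 2 ≤ (k : ℝ) + (1/2:ℝ)).card := by
  classical
  set pref : Finset (Fin k) := univ.filter fun i => 1/2 < u i with hpref
  set a : Fin k → ℝ := fun i => if i ∈ pref then 1 - u i else u i with ha
  have ha0 : ∀ i, 0 ≤ a i ∧ a i ≤ 1/2 := by
    intro i
    simp only [ha, hpref, mem_filter, mem_univ, true_and]
    have := hu i
    split_ifs with h <;> constructor <;> linarith
  set T : Finset (Fin k) → Finset (Fin k) := fun S => univ.filter fun i => ¬ (i ∈ S ↔ i ∈ pref)
  have hT : ∀ S i, (2 * (u i - if i ∈ T S then 1 else 0)) ^ 2 =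
      4 * if i ∈ S then (1 - a i) ^ 2 else a i ^ 2 := by
    intro S i
    simp only [T, ha, mem_filter, mem_univ, true_and]
    by_cases h1 : i ∈ S <;> by_cases h2 : i ∈ pref <;> simp [h1, h2] <;> ring
  set Z : Finset (Fin k) → ℝ := fun S => ∑ i, 4 * if i ∈ S then (1 - a i) ^ 2 else a i ^ 2
  set P := (univ : Finset (Fin k)).powersetCard j with hP
  have hPc : P.card = k.choose j := by simp [hP]
  have hsub : ∀ i : Fin k, ((P.filter fun S => i ∈ S).card : ℝ) = (k.choose j : ℝ) / 4 := by
    intro i
    have hconst : ∀ i' : Fin k, (P.filter fun S => i' ∈ S).card =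
        (P.filter fun S => i ∈ S).card := by
      intro i'
      refine card_nbij' (fun S => S.map (Equiv.swap i i').toEmbedding)
        (fun S => S.map (Equiv.swap i i').toEmbedding) ?_ ?_ ?_ ?_
      · intro S hS
        simp only [hP, coe_filter, Set.mem_ofPred_eq, mem_powersetCard, subset_univ, true_and,
          card_map, mem_map_equiv, Equiv.symm_swap, Equiv.swap_apply_left,
          Equiv.swap_apply_right] at hS ⊢
        exact ⟨hS.1, hS.2⟩
      · intro S hS
        simp only [hP, coe_filter, Set.mem_ofPred_eq, mem_powersetCard, subset_univ, true_and,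
          card_map, mem_map_equiv, Equiv.symm_swap, Equiv.swap_apply_left,
          Equiv.swap_apply_right] at hS ⊢
        exact ⟨hS.1, hS.2⟩
      · intro S _; ext x; simp
      · intro S _; ext x; simp
    have h1 : ∑ i' : Fin k, (P.filter fun S => i' ∈ S).card = j * P.card := by
      simp_rw [card_filter]
      rw [sum_comm, mul_comm, ← smul_eq_mul, ← sum_const]
      refine sum_congr rfl fun S hS => ?_
      rw [← card_filter]
      rw [filter_univ_mem]
      exact (mem_powersetCard.1 hS).2
    rw [sum_congr rfl fun i' _ => hconst i', sum_const, card_univ, Fintype.card_fin, hPc,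
      smul_eq_mul] at h1
    have hk' : (k:ℝ) = 4 * j := by exact_mod_cast hk
    have h2 : (4:ℝ) * j * ((P.filter fun S => i ∈ S).card : ℝ) = j * (k.choose j : ℝ) := by
      rw [← hk']; exact_mod_cast h1
    have hj' : (0:ℝ) < j := by exact_mod_cast hj
    field_simp at h2 ⊢
    linarith
  have hmean : ∑ S ∈ P, Z S ≤ (k:ℝ) * (k.choose j : ℝ) := by
    simp only [Z]
    rw [sum_comm]
    have : ∀ i : Fin k, ∑ S ∈ P, 4 * (if i ∈ S then (1 - a i) ^ 2 else a i ^ 2) ≤
        (k.choose j : ℝ) := by
      intro i
      rw [← mul_sum, sum_ite, sum_const, sum_const, nsmul_eq_mul, nsmul_eq_mul]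
      have h1 := card_filter_add_card_filter_not (s := P) (fun S => i ∈ S)
      have h1' : ((P.filter fun S => i ∈ S).card : ℝ) + ((P.filter fun S => i ∉ S).card : ℝ) =
          (k.choose j : ℝ) := by rw [← hPc]; exact_mod_cast h1
      rw [show ((P.filter fun S => i ∉ S).card : ℝ) = (k.choose j : ℝ) * (3/4) by
        rw [hsub i] at h1'; linarith, hsub i]
      have hC : (0:ℝ) ≤ k.choose j := Nat.cast_nonneg _
      have h4 : (1 - a i) ^ 2 + 3 * a i ^ 2 ≤ 1 := by nlinarith [ha0 i]
      nlinarith
    refine (sum_le_sum fun i _ => this i).trans_eq ?_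
    simp
  set good := P.filter fun S => Z S ≤ (k:ℝ) + 1/2 with hgood
  have hgoodc : (k.choose j : ℝ) / (2 * (k:ℝ) + 1) ≤ good.card := by
    have h1 : ((P.filter fun S => ¬ Z S ≤ (k:ℝ) + 1/2).card : ℝ) * ((k:ℝ) + 1/2) ≤
        ∑ S ∈ P, Z S := by
      rw [← nsmul_eq_mul, ← sum_const]
      refine le_trans (sum_le_sum fun S hS => ?_) (sum_le_sum_of_subset_of_nonneg
        (filter_subset _ _) fun S _ _ => ?_)
      · exact le_of_lt (not_le.1 (mem_filter.1 hS).2)
      · exact sum_nonneg fun i _ => mul_nonneg (by norm_num) (by split_ifs <;> positivity)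
    have h2 := card_filter_add_card_filter_not (s := P) (fun S => Z S ≤ (k:ℝ) + 1/2)
    have h2' : (good.card : ℝ) + ((P.filter fun S => ¬ Z S ≤ (k:ℝ) + 1/2).card : ℝ) =
        (k.choose j : ℝ) := by rw [← hPc]; exact_mod_cast h2
    rw [div_le_iff₀ (by positivity)]
    have := h1.trans hmean
    nlinarith
  refine hgoodc.trans (Nat.cast_le.2 (card_le_card_of_injOn T ?_ ?_))
  · intro S hS
    simp only [hgood, coe_filter, Set.mem_ofPred_eq] at hS
    simp only [coe_filter, Set.mem_ofPred_eq, mem_powerset, subset_univ, true_and]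
    calc ∑ i, (2 * (u i - if i ∈ T S then 1 else 0)) ^ 2 = Z S :=
          sum_congr rfl fun i _ => hT S i
      _ ≤ _ := hS.2
  · intro S _ S' _ h
    ext i
    have := congrArg (fun X : Finset (Fin k) => i ∈ X) h
    simp only [T, mem_filter, mem_univ, true_and, eq_iff_iff] at this
    tauto

end Vale.Agent.P230
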