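import Mathlib

/-! Finite counting lemmas: tuples, residues, points of a box in a subspace. -/

namespace Vale.Agent.P230

open Finset

lemma card_le_of_restrict {ι β : Type*} [Fintype ι] [DecidableEq ι] [DecidableEq β]
    (S : Finset (ι → β)) (B : Finset β) (hS : ∀ f ∈ S, ∀ i, f i ∈ B) (U : Finset ι) (K : ℕ)
    (hK : ∀ f₀ ∈ S, (S.filter fun f => ∀ i ∉ U, f i = f₀ i).card ≤ K) :
    S.card ≤ B.card ^ (Fintype.card ι - U.card) * K := by
  classical
  let r : (ι → β) → ({i // i ∉ U} → β) := fun f i => f i.1
  have h1 : S.card ≤ K * (S.image r).card := by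
    refine card_le_mul_card_image _ _ fun g hg => ?_
    obtain ⟨f₀, hf₀, rfl⟩ := Finset.mem_image.1 hg
    refine le_trans (card_le_card fun f hf => ?_) (hK f₀ hf₀)
    rw [mem_filter] at hf ⊢
    exact ⟨hf.1, fun i hi => congrFun hf.2 ⟨i, hi⟩⟩
  have h2 : (S.image r).card ≤ B.card ^ (Fintype.card ι - U.card) := by
    refine le_trans (card_le_card (t := Fintype.piFinset fun _ : {i // i ∉ U} => B) ?_) ?_
    · intro g hg
      obtain ⟨f, hf, rfl⟩ := Finset.mem_image.1 hg
      exact Fintype.mem_piFinset.2 fun i => hS f hf i.1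
    · rw [Fintype.card_piFinset, prod_const, card_univ, Fintype.card_subtype_compl,
        Fintype.card_coe]
  calc S.card ≤ K * (S.image r).card := h1
    _ ≤ K * B.card ^ (Fintype.card ι - U.card) := Nat.mul_le_mul_left _ h2
    _ = _ := Nat.mul_comm _ _

/-- Number of solutions of a primitive linear congruence. -/
lemma card_congr_solutions {ι κ : Type*} [Fintype ι] [Fintype κ] {A : ℕ} [NeZero A]
    [DecidableEq ι] [DecidableEq κ]
    (a u : ι → ZMod A) (hu : ∑ i, u i * a i = 1) :
    (univ.filter fun R : ι → κ → ZMod A => ∀ j, ∑ i, a i * R i j = 0).card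
      * A ^ Fintype.card κ = A ^ (Fintype.card ι * Fintype.card κ) := by
  classical
  let φ : (ι → κ → ZMod A) →+ (κ → ZMod A) :=
    { toFun := fun R j => ∑ i, a i * R i j
      map_zero' := by funext j; simp
      map_add' := fun R R' => by funext j; simp [mul_add, sum_add_distrib] }
  have hsur : Function.Surjective φ := by
    intro c
    refine ⟨fun i j => u i * c j, funext fun j => ?_⟩
    show ∑ i, a i * (u i * c j) = c j
    rw [show ∑ i, a i * (u i * c j) = (∑ i, u i * a i) * c j by
      rw [sum_mul]; exact sum_congr rfl fun i _ => by ring, hu, one_mul]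
  have hrange : Nat.card φ.range = A ^ Fintype.card κ := by
    rw [AddMonoidHom.range_eq_top.2 hsur, AddSubgroup.card_top]
    simp [Nat.card_eq_fintype_card]
  have hker : Nat.card φ.ker =
      (univ.filter fun R : ι → κ → ZMod A => ∀ j, ∑ i, a i * R i j = 0).card := by
    rw [Nat.card_eq_fintype_card]
    refine Fintype.card_of_subtype _ fun R => ?_
    simp [AddMonoidHom.mem_ker, φ, funext_iff]
  have := AddSubgroup.card_mul_index φ.ker
  rw [AddSubgroup.index_ker, hrange, hker] at this
  rw [this, Nat.card_eq_fintype_card]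
  simp [← pow_mul, Nat.mul_comm]

/-- Tuples from `B` satisfying a primitive congruence modulo `A`, when `B` is
equidistributed up to the factor `ρ` in residue classes. -/
lemma card_congr_tuples {ι κ : Type*} [Fintype ι] [Fintype κ] [DecidableEq ι] [DecidableEq κ]
    {A : ℕ} [NeZero A] (B : Finset (κ → ℤ)) (ρ : ℝ)
    (hres : ∀ r : κ → ZMod A, ((B.filter fun g => ∀ j, (g j : ZMod A) = r j).card : ℝ) ≤
      ρ * B.card / (A:ℝ) ^ Fintype.card κ)
    (a u : ι → ZMod A) (hu : ∑ i, u i * a i = 1) :
    (((Fintype.piFinset fun _ : ι => B).filter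
        fun f => ∀ j, ∑ i, a i * (f i j : ZMod A) = 0).card : ℝ) ≤
      (ρ * B.card) ^ Fintype.card ι / (A:ℝ) ^ Fintype.card κ := by
  classical
  set S := (Fintype.piFinset fun _ : ι => B).filter
    fun f => ∀ j, ∑ i, a i * (f i j : ZMod A) = 0
  set sol := univ.filter fun R : ι → κ → ZMod A => ∀ j, ∑ i, a i * R i j = 0
  have hmap : ∀ f ∈ S, (fun i j => (f i j : ZMod A)) ∈ sol := fun f hf => by
    simp only [sol, mem_filter, mem_univ, true_and]
    exact (mem_filter.1 hf).2
  rw [card_eq_sum_card_fiberwise hmap]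
  push_cast
  have hA : (0:ℝ) < (A:ℝ) := by exact_mod_cast NeZero.pos A
  calc (∑ R ∈ sol, ((S.filter fun f => (fun i j => (f i j : ZMod A)) = R).card : ℝ))
      ≤ ∑ _R ∈ sol, (ρ * B.card / (A:ℝ) ^ Fintype.card κ) ^ Fintype.card ι := by
        refine sum_le_sum fun R _ => ?_
        calc ((S.filter fun f => (fun i j => (f i j : ZMod A)) = R).card : ℝ)
            ≤ ((Fintype.piFinset fun i : ι =>
                B.filter fun g => ∀ j, (g j : ZMod A) = R i j).card : ℝ) := by
              refine Nat.cast_le.2 (card_le_card fun f hf => ?_)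
              simp only [mem_filter, S, Fintype.mem_piFinset] at hf ⊢
              exact fun i => ⟨hf.1.1 i, fun j => congrFun (congrFun hf.2 i) j⟩
          _ = ∏ i, ((B.filter fun g => ∀ j, (g j : ZMod A) = R i j).card : ℝ) := by
              rw [Fintype.card_piFinset]; push_cast; rfl
          _ ≤ ∏ _i : ι, ρ * B.card / (A:ℝ) ^ Fintype.card κ :=
              prod_le_prod (fun i _ => Nat.cast_nonneg _) fun i _ => hres (R i)
          _ = _ := by rw [prod_const, card_univ]
    _ = (ρ * B.card) ^ Fintype.card ι / (A:ℝ) ^ Fintype.card κ := by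
        rw [sum_const, nsmul_eq_mul]
        have h := card_congr_solutions (κ := κ) a u hu
        have h' : (sol.card : ℝ) * (A:ℝ) ^ Fintype.card κ =
            (A:ℝ) ^ (Fintype.card ι * Fintype.card κ) := by exact_mod_cast h
        rw [div_pow, ← pow_mul, Nat.mul_comm (Fintype.card κ)]
        rw [eq_div_iff (by positivity)]
        field_simp
        linear_combination (ρ * (B.card:ℝ)) ^ Fintype.card ι * h'

/-- The box of integer points. -/
noncomputable def zbox (κ : Type*) [Fintype κ] [DecidableEq κ] (n : ℕ) : Finset (κ → ℤ) :=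
  Fintype.piFinset fun _ => Icc (-(n:ℤ)) n

lemma mem_zbox {κ : Type*} [Fintype κ] [DecidableEq κ] {n : ℕ} {g : κ → ℤ} :
    g ∈ zbox κ n ↔ ∀ j, |g j| ≤ n := by
  simp [zbox, Fintype.mem_piFinset, abs_le]

/-- Points of a box lying in a coset of a subspace after reduction. -/
lemma card_box_subspace {F : Type*} [Field F] [DecidableEq F] {κ : Type*} [Fintype κ]
    [DecidableEq κ] (n φ : ℕ)
    (hφ : ∀ r : F, ((Icc (-(n:ℤ)) n).filter fun x : ℤ => (x : F) = r).card ≤ φ) :
    ∀ (m : ℕ) (W : Submodule F (κ → F)), Module.finrank F W ≤ m → ∀ (c : κ → F)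
      (S : Finset (κ → ℤ)), (∀ g ∈ S, g ∈ zbox κ n ∧ (fun j => (g j : F)) - c ∈ W) →
      S.card ≤ (2 * n + 1) ^ m * φ ^ Fintype.card κ := by
  intro m
  induction m with
  | zero =>
    intro W hW c S hS
    have hW0 : W = ⊥ := Submodule.finrank_eq_zero.1 (Nat.le_zero.1 hW)
    calc S.card ≤ (Fintype.piFinset fun j : κ =>
          (Icc (-(n:ℤ)) n).filter fun x : ℤ => (x : F) = c j).card := by
          refine card_le_card fun g hg => ?_
          obtain ⟨h1, h2⟩ := hS g hg
          rw [hW0, Submodule.mem_bot, sub_eq_zero] at h2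
          rw [Fintype.mem_piFinset]
          exact fun j => mem_filter.2 ⟨Fintype.mem_piFinset.1 h1 j, congrFun h2 j⟩
      _ ≤ φ ^ Fintype.card κ := by
          rw [Fintype.card_piFinset]
          refine (prod_le_prod' fun j _ => hφ (c j)).trans_eq ?_
          rw [prod_const, card_univ]
      _ = _ := by simp
  | succ m ih =>
    intro W hW c S hS
    by_cases hlow : Module.finrank F W ≤ m
    · exact (ih W hlow c S hS).trans
        (Nat.mul_le_mul_right _ (Nat.pow_le_pow_right (by omega) (Nat.le_succ m)))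
    have hne : W ≠ ⊥ := fun h => hlow (by rw [h, finrank_bot]; exact Nat.zero_le _)
    obtain ⟨w, hwW, hw0⟩ := Submodule.exists_mem_ne_zero_of_ne_bot hne
    obtain ⟨i, hi⟩ := Function.ne_iff.1 hw0
    let W' : Submodule F (κ → F) := W ⊓ LinearMap.ker (LinearMap.proj i)
    have hlt : W' < W := lt_of_le_of_ne inf_le_left fun h => hi (by
      have : w ∈ W' := h.symm ▸ hwW
      simpa [W'] using this.2)
    have hW' : Module.finrank F W' ≤ m := by
      have := Submodule.finrank_lt_finrank_of_lt hlt
      omega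
    have h1 : S.card ≤ ((2*n+1)^m * φ ^ Fintype.card κ) * (S.image fun g => g i).card := by
      refine card_le_mul_card_image _ _ fun x hx => ?_
      obtain ⟨g₀, hg₀, rfl⟩ := Finset.mem_image.1 hx
      refine ih W' hW' (fun j => (g₀ j : F)) _ fun g hg => ?_
      rw [mem_filter] at hg
      refine ⟨(hS g hg.1).1, ?_, ?_⟩
      · have := W.sub_mem (hS g hg.1).2 (hS g₀ hg₀).2
        simpa using this
      · simp [hg.2]
    have h2 : (S.image fun g => g i).card ≤ 2 * n + 1 := by
      refine le_trans (card_le_card (t := Icc (-(n:ℤ)) n) ?_) ?_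
      · intro x hx
        obtain ⟨g, hg, rfl⟩ := Finset.mem_image.1 hx
        exact Fintype.mem_piFinset.1 (hS g hg).1 i
      · rw [Int.card_Icc]; omega
    calc S.card ≤ _ := h1
      _ ≤ ((2*n+1)^m * φ ^ Fintype.card κ) * (2*n+1) := Nat.mul_le_mul_left _ h2
      _ = _ := by ring

/-- At most `2n/P + 1` integers of `[-n, n]` in a residue class modulo `P`. -/
lemma card_Icc_residue (n P : ℕ) (hP : 0 < P) (r : ZMod P) :
    ((Icc (-(n:ℤ)) n).filter fun x : ℤ => (x : ZMod P) = r).card ≤ 2 * n / P + 1 := by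
  have : NeZero P := ⟨hP.ne'⟩
  calc _ ≤ (range (2 * n / P + 1)).card := by
        refine card_le_card_of_injOn (fun x : ℤ => ((x + n).toNat / P)) ?_ ?_
        · intro x hx
          simp only [coe_filter, mem_Icc, Set.mem_setOf_eq] at hx
          simp only [coe_range, Set.mem_Iio]
          exact Nat.lt_succ_of_le (Nat.div_le_div_right (by omega))
        · intro x hx y hy hxy
          simp only [coe_filter, mem_Icc, Set.mem_setOf_eq] at hx hy
          have hc : ((x + n).toNat : ℤ) = x + n := Int.toNat_of_nonneg (by omega)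
          have hd : ((y + n).toNat : ℤ) = y + n := Int.toNat_of_nonneg (by omega)
          have hmod : (x + n).toNat % P = (y + n).toNat % P := by
            rw [← ZMod.natCast_eq_natCast_iff']
            have e1 : (((x + n).toNat : ℕ) : ZMod P) = (x : ZMod P) + n := by
              rw [← Int.cast_natCast (R := ZMod P), hc]; push_cast; rfl
            have e2 : (((y + n).toNat : ℕ) : ZMod P) = (y : ZMod P) + n := by
              rw [← Int.cast_natCast (R := ZMod P), hd]; push_cast; rfl
            rw [e1, e2, hx.2, hy.2]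
          have hq : (x + n).toNat / P = (y + n).toNat / P := hxy
          have hx1 := Nat.div_add_mod (x + n).toNat P
          have hy1 := Nat.div_add_mod (y + n).toNat P
          have : (x + n).toNat = (y + n).toNat := by rw [← hx1, ← hy1, hq, hmod]
          omega
    _ = _ := card_range _

/-- For integers below `n` in absolute value, the cast to `ℚ` is injective. -/
lemma card_Icc_rat (n : ℕ) (r : ℚ) :
    ((Icc (-(n:ℤ)) n).filter fun x : ℤ => (x : ℚ) = r).card ≤ 1 := by
  refine card_le_one.2 fun x hx y hy => ?_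
  rw [mem_filter] at hx hy
  exact_mod_cast hx.2.trans hy.2.symm

/-- A divisor of a large number: one in `(q, q²]`, or a prime above `q²`. -/
lemma exists_good_divisor {q A : ℕ} (hq0 : 0 < q) (hA : q * q < A) :
    (∃ D, D ∣ A ∧ q < D ∧ D ≤ q * q) ∨ (∃ P, P.Prime ∧ P ∣ A ∧ q * q < P) := by
  classical
  have hex : ∃ D, D ∣ A ∧ q < D := ⟨A, dvd_rfl, by nlinarith⟩
  obtain ⟨hD1, hD2⟩ := Nat.find_spec hex
  set D := Nat.find hex with hD
  by_cases hle : D ≤ q * q
  · exact Or.inl ⟨D, hD1, hD2, hle⟩
  push Not at hle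
  right
  have hD1' : D ≠ 1 := by omega
  have hP := Nat.minFac_prime hD1'
  have hPd := Nat.minFac_dvd D
  by_cases hPq : q < D.minFac
  · have : D ≤ D.minFac := Nat.find_min' hex ⟨hPd.trans hD1, hPq⟩
    have heq : D.minFac = D := le_antisymm (Nat.minFac_le (by omega)) this
    exact ⟨D, heq ▸ hP, hD1, hle⟩
  · exfalso
    push Not at hPq
    have hq : D / D.minFac < D := Nat.div_lt_self (by omega) hP.one_lt
    have h2 : ¬ (D / D.minFac ∣ A ∧ q < D / D.minFac) := Nat.find_min hex hq
    have h3 : D / D.minFac ∣ A := (Nat.div_dvd_of_dvd hPd).trans hD1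
    have h4 : D / D.minFac ≤ q := by
      by_contra h; exact h2 ⟨h3, by omega⟩
    have h5 := Nat.div_mul_cancel hPd
    nlinarith

end Vale.Agent.P230
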