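import Mathlib

/-! A trilinear convolution inequality with a constant less than one
(a weak form of the sharp Young inequality), on `ℝ^d` with constant `c^d`. -/

namespace Vale.Agent.P230

open MeasureTheory Set ProbabilityTheory
open scoped ENNReal

/-- The affinity of two densities. -/
noncomputable def aff (P Q : ℝ → ℝ≥0∞) : ℝ≥0∞ :=
  ∫⁻ x, P x ^ (1/2 : ℝ) * Q x ^ (1/2 : ℝ)

lemma sqrt_close {a b η : ℝ} (ha : 0 ≤ a) (ha1 : a ≤ 1) (hb : 0 ≤ b) (hb1 : b ≤ 1)
    (hη : η ≤ 1) (h : 1 - η ≤ Real.sqrt (a * b) + Real.sqrt ((1 - a) * (1 - b))) :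
    (a - b) ^ 2 ≤ 1 - (1 - η) ^ 2 := by
  have h2 := pow_le_pow_left₀ (by linarith) h 2
  have e1 := Real.sq_sqrt (show (0:ℝ) ≤ a * b from mul_nonneg ha hb)
  have e2 := Real.sq_sqrt (show (0:ℝ) ≤ (1 - a) * (1 - b) from
    mul_nonneg (by linarith) (by linarith))
  set u := Real.sqrt (a * b)
  set v := Real.sqrt ((1 - a) * (1 - b))
  have huv : 2 * (u * v) ≤ a * (1 - a) + b * (1 - b) := by
    have hu : 0 ≤ u := Real.sqrt_nonneg _
    have hv : 0 ≤ v := Real.sqrt_nonneg _
    have h0 : 0 ≤ a * (1 - a) + b * (1 - b) :=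
      add_nonneg (mul_nonneg ha (by linarith)) (mul_nonneg hb (by linarith))
    refine (sq_le_sq₀ (by positivity) h0).1 ?_
    have : (2 * (u * v)) ^ 2 = 4 * (u ^ 2) * (v ^ 2) := by ring
    rw [this, e1, e2]
    nlinarith [sq_nonneg (a * (1 - a) - b * (1 - b))]
  nlinarith [h2, e1, e2, huv]

lemma aff_le_one {P Q : ℝ → ℝ≥0∞} (hP : Measurable P) (hQ : Measurable Q)
    (hP1 : ∫⁻ x, P x = 1) (hQ1 : ∫⁻ x, Q x = 1) : aff P Q ≤ 1 := by
  have := ENNReal.lintegral_mul_norm_pow_le (μ := volume) hP.aemeasurable hQ.aemeasurable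
    (p := 1/2) (q := 1/2) (by norm_num) (by norm_num) (by norm_num)
  simpa [aff, hP1, hQ1] using this

lemma isProb_withDensity {P : ℝ → ℝ≥0∞} (hP1 : ∫⁻ x, P x = 1) :
    IsProbabilityMeasure (volume.withDensity P) :=
  ⟨by simpa using hP1⟩

lemma aff_cdf {P Q : ℝ → ℝ≥0∞} (hP : Measurable P) (hQ : Measurable Q)
    (hP1 : ∫⁻ x, P x = 1) (hQ1 : ∫⁻ x, Q x = 1)
    (h : ENNReal.ofReal (199/200) ≤ aff P Q) (t : ℝ) :
    |cdf (volume.withDensity P) t - cdf (volume.withDensity Q) t| ≤ 1/10 := by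
  have := isProb_withDensity hP1
  have := isProb_withDensity hQ1
  have hmI : MeasurableSet (Iic t) := measurableSet_Iic
  have key : aff P Q ≤ (volume.withDensity P (Iic t)) ^ (1/2:ℝ) *
        (volume.withDensity Q (Iic t)) ^ (1/2:ℝ)
      + (volume.withDensity P (Iic t)ᶜ) ^ (1/2:ℝ) *
        (volume.withDensity Q (Iic t)ᶜ) ^ (1/2:ℝ) := by
    rw [aff, ← lintegral_add_compl _ hmI]
    rw [withDensity_apply _ hmI, withDensity_apply _ hmI, withDensity_apply _ hmI.compl,
      withDensity_apply _ hmI.compl]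
    exact add_le_add
      (ENNReal.lintegral_mul_norm_pow_le hP.aemeasurable hQ.aemeasurable
        (by norm_num) (by norm_num) (by norm_num))
      (ENNReal.lintegral_mul_norm_pow_le hP.aemeasurable hQ.aemeasurable
        (by norm_num) (by norm_num) (by norm_num))
  rw [cdf_eq_real, cdf_eq_real]
  set μ := volume.withDensity P
  set ν := volume.withDensity Q
  have ha0 : 0 ≤ μ.real (Iic t) := measureReal_nonneg
  have hb0 : 0 ≤ ν.real (Iic t) := measureReal_nonneg
  have ha1 : μ.real (Iic t) ≤ 1 := measureReal_le_one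
  have hb1 : ν.real (Iic t) ≤ 1 := measureReal_le_one
  have hfin : ∀ (m : Measure ℝ) [IsProbabilityMeasure m] (s : Set ℝ),
      m s ^ (1/2:ℝ) ≠ ∞ := fun m _ s =>
    ENNReal.rpow_ne_top_of_nonneg (by norm_num) (measure_ne_top m s)
  have h' := h.trans key
  have h2 := ENNReal.toReal_mono (by
    exact ENNReal.add_ne_top.2 ⟨ENNReal.mul_ne_top (hfin μ _) (hfin ν _),
      ENNReal.mul_ne_top (hfin μ _) (hfin ν _)⟩) h'
  rw [ENNReal.toReal_ofReal (by norm_num), ENNReal.toReal_add
      (ENNReal.mul_ne_top (hfin μ _) (hfin ν _)) (ENNReal.mul_ne_top (hfin μ _) (hfin ν _)),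
    ENNReal.toReal_mul, ENNReal.toReal_mul, ← ENNReal.toReal_rpow, ← ENNReal.toReal_rpow,
    ← ENNReal.toReal_rpow, ← ENNReal.toReal_rpow] at h2
  simp only [← measureReal_def] at h2
  rw [probReal_compl_eq_one_sub hmI, probReal_compl_eq_one_sub hmI] at h2
  rw [← Real.sqrt_eq_rpow, ← Real.sqrt_eq_rpow, ← Real.sqrt_eq_rpow, ← Real.sqrt_eq_rpow,
    ← Real.sqrt_mul ha0, ← Real.sqrt_mul (by linarith : (0:ℝ) ≤ 1 - μ.real (Iic t))] at h2
  have := sqrt_close ha0 ha1 hb0 hb1 (η := 1/200) (by norm_num) (by linarith)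
  have : |μ.real (Iic t) - ν.real (Iic t)| ^ 2 ≤ (1/10:ℝ) ^ 2 := by
    rw [sq_abs]; linarith
  exact (sq_le_sq₀ (abs_nonneg _) (by norm_num)).1 this

lemma lintegral_shift_one {H : ℝ → ℝ≥0∞} (hH1 : ∫⁻ x, H x = 1) (y : ℝ) :
    ∫⁻ x, H (x + y) = 1 := by
  rw [lintegral_add_right_eq_self (fun x => H x) y]; exact hH1

lemma cdf_shift {H : ℝ → ℝ≥0∞} (hH : Measurable H) (hH1 : ∫⁻ x, H x = 1) (y t : ℝ) :
    cdf (volume.withDensity fun x => H (x + y)) t = cdf (volume.withDensity H) (t + y) := by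
  have := isProb_withDensity hH1
  have := isProb_withDensity (lintegral_shift_one hH1 y)
  rw [cdf_eq_real, cdf_eq_real, measureReal_def, measureReal_def,
    withDensity_apply _ measurableSet_Iic, withDensity_apply _ measurableSet_Iic,
    ← lintegral_indicator measurableSet_Iic, ← lintegral_indicator measurableSet_Iic]
  congr 1
  rw [← lintegral_add_right_eq_self ((Iic (t + y)).indicator H) y]
  refine lintegral_congr fun x => ?_
  by_cases hx : x ≤ t
  · rw [indicator_of_mem (show x ∈ Iic t from hx),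
      indicator_of_mem (show x + y ∈ Iic (t + y) by simpa using hx)]
  · rw [indicator_of_notMem (show x ∉ Iic t from hx),
      indicator_of_notMem (show x + y ∉ Iic (t + y) by simpa using hx)]

lemma continuous_cdf_withDensity {P : ℝ → ℝ≥0∞} (hP1 : ∫⁻ x, P x = 1) :
    Continuous (cdf (volume.withDensity P)) := by
  have := isProb_withDensity hP1
  set μ := volume.withDensity P
  refine continuous_iff_continuousAt.2 fun x => ?_
  have hmono := (cdf μ).mono
  rw [hmono.continuousAt_iff_leftLim_eq_rightLim, (cdf μ).rightLim_eq]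
  have h0 : (cdf μ).measure {x} = 0 := by
    rw [measure_cdf]
    exact withDensity_absolutelyContinuous volume P (Real.volume_singleton)
  rw [StieltjesFunction.measure_singleton, ENNReal.ofReal_eq_zero] at h0
  exact le_antisymm (hmono.leftLim_le le_rfl) (by linarith)

lemma exists_cdf_eq {P : ℝ → ℝ≥0∞} (hP1 : ∫⁻ x, P x = 1) {a : ℝ} (h0 : 0 < a) (h1 : a < 1) :
    ∃ q, cdf (volume.withDensity P) q = a := by
  set μ := volume.withDensity P
  obtain ⟨l, hl⟩ := ((tendsto_cdf_atBot μ).eventually_lt_const h0).exists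
  obtain ⟨r, hr⟩ := ((tendsto_cdf_atTop μ).eventually_const_lt h1).exists
  exact (isConnected_univ.image _ (continuous_cdf_withDensity hP1).continuousOn).isPreconnected
    |>.ordConnected.out ⟨l, trivial, rfl⟩ ⟨r, trivial, rfl⟩ ⟨hl.le, hr.le⟩ |>.imp fun _ h => h.2

lemma measurable_aff_shift {G H : ℝ → ℝ≥0∞} (hG : Measurable G) (hH : Measurable H) :
    Measurable fun x => aff G (fun y => H (x + y)) := by
  unfold aff
  exact Measurable.lintegral_prod_right'
    (f := fun p : ℝ × ℝ => G p.2 ^ (1/2:ℝ) * H (p.1 + p.2) ^ (1/2:ℝ)) (by fun_prop)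

theorem young1_normalized {F G H : ℝ → ℝ≥0∞} (hF : Measurable F) (hG : Measurable G)
    (hH : Measurable H) (hF1 : ∫⁻ x, F x = 1) (hG1 : ∫⁻ x, G x = 1) (hH1 : ∫⁻ x, H x = 1) :
    ∫⁻ x, ∫⁻ y, (F x * G y * H (x + y)) ^ (2/3:ℝ) ≤
      ENNReal.ofReal ((1999/2000 : ℝ) ^ (2/3:ℝ)) := by
  have := isProb_withDensity hF1
  have := isProb_withDensity hG1
  have := isProb_withDensity hH1
  by_contra hcon
  rw [not_le, ← ENNReal.ofReal_rpow_of_nonneg (by norm_num) (by norm_num)] at hcon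
  let T : ℝ × ℝ → ℝ≥0∞ := fun p => (F p.1 * G p.2 * H (p.1 + p.2)) ^ (2/3:ℝ)
  have hT : ∫⁻ x, ∫⁻ y, (F x * G y * H (x + y)) ^ (2/3:ℝ) = ∫⁻ p, T p ∂(volume.prod volume) :=
    (lintegral_prod T (by fun_prop)).symm
  rw [hT] at hcon
  -- first pair
  have b12 : ∫⁻ p, T p ∂(volume.prod volume) ≤
      (∫⁻ y, G y * aff F (fun x => H (x + y))) ^ (2/3:ℝ) := by
    let A : ℝ × ℝ → ℝ≥0∞ := fun p => G p.2 * (F p.1 ^ (1/2:ℝ) * H (p.1 + p.2) ^ (1/2:ℝ))
    let B : ℝ × ℝ → ℝ≥0∞ := fun p => F p.1 * H (p.1 + p.2)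
    have hpt : ∀ p, T p = A p ^ (2/3:ℝ) * B p ^ (1/3:ℝ) := by
      intro p
      simp only [T, A, B]
      rw [ENNReal.mul_rpow_of_nonneg _ _ (by norm_num), ENNReal.mul_rpow_of_nonneg _ _ (by norm_num),
        ENNReal.mul_rpow_of_nonneg _ _ (by norm_num), ENNReal.mul_rpow_of_nonneg _ _ (by norm_num),
        ENNReal.mul_rpow_of_nonneg _ _ (by norm_num), ← ENNReal.rpow_mul, ← ENNReal.rpow_mul]
      norm_num
      rw [show G p.2 ^ (2/3:ℝ) * (F p.1 ^ (1/3:ℝ) * H (p.1+p.2) ^ (1/3:ℝ)) *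
          (F p.1 ^ (1/3:ℝ) * H (p.1+p.2) ^ (1/3:ℝ)) =
          (F p.1 ^ (1/3:ℝ) * F p.1 ^ (1/3:ℝ)) * G p.2 ^ (2/3:ℝ) *
          (H (p.1+p.2) ^ (1/3:ℝ) * H (p.1+p.2) ^ (1/3:ℝ)) by ring,
        ← ENNReal.rpow_add_of_nonneg _ _ (by norm_num) (by norm_num),
        ← ENNReal.rpow_add_of_nonneg _ _ (by norm_num) (by norm_num)]
      norm_num
    rw [lintegral_congr hpt]
    refine (ENNReal.lintegral_mul_norm_pow_le (f := A) (g := B) (by fun_prop) (by fun_prop)
      (by norm_num) (by norm_num) (by norm_num)).trans ?_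
    have hB : ∫⁻ p, B p ∂(volume.prod volume) = 1 := by
      rw [lintegral_prod B (by fun_prop)]
      simp only [B]
      have : ∀ x, ∫⁻ y, F x * H (x + y) = F x := by
        intro x
        rw [lintegral_const_mul _ (by fun_prop)]
        simp_rw [add_comm x]
        rw [lintegral_shift_one hH1, mul_one]
      rw [lintegral_congr this, hF1]
    have hA : ∫⁻ p, A p ∂(volume.prod volume) =
        ∫⁻ y, G y * aff F (fun x => H (x + y)) := by
      rw [lintegral_prod_symm A (by fun_prop)]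
      refine lintegral_congr fun y => ?_
      rw [aff, ← lintegral_const_mul _ (by fun_prop)]
    rw [hA, hB, ENNReal.one_rpow, mul_one]
  have b13 : ∫⁻ p, T p ∂(volume.prod volume) ≤
      (∫⁻ x, F x * aff G (fun y => H (x + y))) ^ (2/3:ℝ) := by
    let A : ℝ × ℝ → ℝ≥0∞ := fun p => F p.1 * (G p.2 ^ (1/2:ℝ) * H (p.1 + p.2) ^ (1/2:ℝ))
    let B : ℝ × ℝ → ℝ≥0∞ := fun p => G p.2 * H (p.1 + p.2)
    have hpt : ∀ p, T p = A p ^ (2/3:ℝ) * B p ^ (1/3:ℝ) := by
      intro p
      simp only [T, A, B]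
      rw [ENNReal.mul_rpow_of_nonneg _ _ (by norm_num), ENNReal.mul_rpow_of_nonneg _ _ (by norm_num),
        ENNReal.mul_rpow_of_nonneg _ _ (by norm_num), ENNReal.mul_rpow_of_nonneg _ _ (by norm_num),
        ENNReal.mul_rpow_of_nonneg _ _ (by norm_num), ← ENNReal.rpow_mul, ← ENNReal.rpow_mul]
      norm_num
      rw [show F p.1 ^ (2/3:ℝ) * (G p.2 ^ (1/3:ℝ) * H (p.1+p.2) ^ (1/3:ℝ)) *
          (G p.2 ^ (1/3:ℝ) * H (p.1+p.2) ^ (1/3:ℝ)) =
          F p.1 ^ (2/3:ℝ) * (G p.2 ^ (1/3:ℝ) * G p.2 ^ (1/3:ℝ)) *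
          (H (p.1+p.2) ^ (1/3:ℝ) * H (p.1+p.2) ^ (1/3:ℝ)) by ring,
        ← ENNReal.rpow_add_of_nonneg _ _ (by norm_num) (by norm_num),
        ← ENNReal.rpow_add_of_nonneg _ _ (by norm_num) (by norm_num)]
      norm_num
    rw [lintegral_congr hpt]
    refine (ENNReal.lintegral_mul_norm_pow_le (f := A) (g := B) (by fun_prop) (by fun_prop)
      (by norm_num) (by norm_num) (by norm_num)).trans ?_
    have hB : ∫⁻ p, B p ∂(volume.prod volume) = 1 := by
      rw [lintegral_prod_symm B (by fun_prop)]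
      simp only [B]
      have : ∀ y, ∫⁻ x, G y * H (x + y) = G y := by
        intro y
        rw [lintegral_const_mul _ (by fun_prop), lintegral_shift_one hH1, mul_one]
      rw [lintegral_congr this, hG1]
    have hA : ∫⁻ p, A p ∂(volume.prod volume) =
        ∫⁻ x, F x * aff G (fun y => H (x + y)) := by
      rw [lintegral_prod A (by fun_prop)]
      refine lintegral_congr fun x => ?_
      rw [aff, ← lintegral_const_mul _ (by fun_prop)]
    rw [hA, hB, ENNReal.one_rpow, mul_one]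
  have B12 : ENNReal.ofReal (1999/2000) < ∫⁻ y, G y * aff F (fun x => H (x + y)) :=
    (ENNReal.rpow_lt_rpow_iff (by norm_num)).1 (hcon.trans_le b12)
  have B13 : ENNReal.ofReal (1999/2000) < ∫⁻ x, F x * aff G (fun y => H (x + y)) :=
    (ENNReal.rpow_lt_rpow_iff (by norm_num)).1 (hcon.trans_le b13)
  obtain ⟨y, hy⟩ : ∃ y, ENNReal.ofReal (199/200) ≤ aff F (fun x => H (x + y)) := by
    by_contra hno
    push Not at hno
    have : ∫⁻ y, G y * aff F (fun x => H (x + y)) ≤ ENNReal.ofReal (199/200) := by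
      calc ∫⁻ y, G y * aff F (fun x => H (x + y))
          ≤ ∫⁻ y, G y * ENNReal.ofReal (199/200) :=
            lintegral_mono fun y => mul_le_mul_right (hno y).le _
        _ = ENNReal.ofReal (199/200) := by rw [lintegral_mul_const _ hG, hG1, one_mul]
    exact absurd (B12.trans_le this) (not_lt.2 (ENNReal.ofReal_le_ofReal (by norm_num)))
  set φ := volume.withDensity F with hφ
  let S : Set ℝ := {x | aff G (fun z => H (x + z)) < ENNReal.ofReal (199/200)}
  have hS : MeasurableSet S := measurableSet_lt (measurable_aff_shift hG hH) measurable_const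
  have hbad : φ.real S ≤ 1/10 := by
    have h1 : ∫⁻ x, F x * aff G (fun y => H (x + y)) ≤
        ENNReal.ofReal (199/200) * φ S + φ Sᶜ := by
      rw [← lintegral_add_compl _ hS, hφ, withDensity_apply _ hS, withDensity_apply _ hS.compl,
        ← lintegral_const_mul _ hF]
      refine add_le_add (setLIntegral_mono (by fun_prop) fun x hx => ?_)
        (setLIntegral_mono (by fun_prop) fun x _ => ?_)
      · rw [mul_comm (ENNReal.ofReal _)]
        exact mul_le_mul_right (le_of_lt hx) _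
      · refine mul_le_of_le_one_right' ?_
        refine aff_le_one hG (by fun_prop) hG1 ?_
        simp_rw [add_comm x]
        exact lintegral_shift_one hH1 x
    have h2 := ENNReal.toReal_mono
      (ENNReal.add_ne_top.2 ⟨ENNReal.mul_ne_top ENNReal.ofReal_ne_top (measure_ne_top _ _),
        measure_ne_top _ _⟩) (B13.le.trans h1)
    rw [ENNReal.toReal_ofReal (by norm_num), ENNReal.toReal_add
      (ENNReal.mul_ne_top ENNReal.ofReal_ne_top (measure_ne_top _ _)) (measure_ne_top _ _),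
      ENNReal.toReal_mul, ENNReal.toReal_ofReal (by norm_num)] at h2
    simp only [← measureReal_def] at h2
    rw [probReal_compl_eq_one_sub hS] at h2
    linarith
  obtain ⟨q1, hq1⟩ := exists_cdf_eq hF1 (a := 1/4) (by norm_num) (by norm_num)
  obtain ⟨q3, hq3⟩ := exists_cdf_eq hF1 (a := 3/4) (by norm_num) (by norm_num)
  rw [← hφ] at hq1 hq3
  obtain ⟨x, hx, hxS⟩ : ∃ x ∈ Iic q1, x ∉ S := by
    by_contra hno
    push Not at hno
    have := measureReal_mono (μ := φ) (show Iic q1 ⊆ S from hno)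
    rw [← cdf_eq_real, hq1] at this
    linarith
  obtain ⟨x', hx', hx'S⟩ : ∃ x ∈ Ioi q3, x ∉ S := by
    by_contra hno
    push Not at hno
    have := measureReal_mono (μ := φ) (show Ioi q3 ⊆ S from hno)
    rw [← compl_Iic, probReal_compl_eq_one_sub measurableSet_Iic, ← cdf_eq_real, hq3] at this
    linarith
  have hFy : Measurable fun z => H (z + y) := by fun_prop
  have c1 := aff_cdf hF hFy hF1 (lintegral_shift_one hH1 y) hy
  have hGx : ∀ a, a ∉ S → ∀ t,
      |cdf (volume.withDensity G) t - cdf (volume.withDensity H) (t + a)| ≤ 1/10 := by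
    intro a ha t
    have e : (fun z => H (a + z)) = fun z => H (z + a) := by funext z; rw [add_comm]
    have ha' : ENNReal.ofReal (199/200) ≤ aff G (fun z => H (a + z)) := not_lt.1 ha
    rw [e] at ha'
    have := aff_cdf hG (by fun_prop) hG1 (lintegral_shift_one hH1 a) ha' t
    rwa [cdf_shift hH hH1] at this
  have e1 := c1 q1
  have e2 := hGx x hxS (q1 + y - x)
  have e3 := hGx x' hx'S (q1 + y - x)
  have e4 := c1 (q1 + (x' - x))
  rw [cdf_shift hH hH1] at e1 e4
  rw [sub_add_cancel] at e2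
  rw [show q1 + y - x + x' = q1 + (x' - x) + y by ring] at e3
  have hmono : cdf φ q3 ≤ cdf φ (q1 + (x' - x)) := by
    apply monotone_cdf
    have : x ≤ q1 := hx
    have : q3 < x' := hx'
    linarith
  rw [← hφ] at e1 e4
  rw [hq3] at hmono
  rw [hq1] at e1
  rw [abs_le] at e1 e2 e3 e4
  linarith [e1.1, e1.2, e2.1, e2.2, e3.1, e3.2, e4.1, e4.2]

/-- The constant in the trilinear inequality. -/
noncomputable def cY : ℝ := (1999/2000 : ℝ) ^ (2/3:ℝ)

lemma cY_pos : 0 < cY := by unfold cY; positivity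

lemma cY_lt_one : cY < 1 := Real.rpow_lt_one (by norm_num) (by norm_num) (by norm_num)

theorem young1 {F G H : ℝ → ℝ≥0∞} (hF : Measurable F) (hG : Measurable G) (hH : Measurable H) :
    ∫⁻ x, ∫⁻ y, (F x * G y * H (x + y)) ^ (2/3:ℝ) ≤
      ENNReal.ofReal cY * ((∫⁻ x, F x) * (∫⁻ x, G x) * (∫⁻ x, H x)) ^ (2/3:ℝ) := by
  set a := ∫⁻ x, F x with ha
  set b := ∫⁻ x, G x with hb
  set e := ∫⁻ x, H x with he
  by_cases h0 : a = 0 ∨ b = 0 ∨ e = 0
  · refine le_of_eq_of_le (b := 0) ?_ zero_le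
    rcases h0 with h | h | h
    · rw [ha, lintegral_eq_zero_iff hF] at h
      have hm : Measurable fun x => ∫⁻ y, (F x * G y * H (x + y)) ^ (2/3:ℝ) :=
        Measurable.lintegral_prod_right'
          (f := fun p : ℝ × ℝ => (F p.1 * G p.2 * H (p.1 + p.2)) ^ (2/3:ℝ)) (by fun_prop)
      rw [lintegral_eq_zero_iff hm]
      filter_upwards [h] with x hx
      simp [show F x = 0 from hx]
    · rw [hb, lintegral_eq_zero_iff hG] at h
      have : ∀ x, ∫⁻ y, (F x * G y * H (x + y)) ^ (2/3:ℝ) = 0 := by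
        intro x
        rw [lintegral_eq_zero_iff (by fun_prop)]
        filter_upwards [h] with y hy
        simp [hy]
      simp [this]
    · have : ∀ x, ∫⁻ y, (F x * G y * H (x + y)) ^ (2/3:ℝ) = 0 := by
        intro x
        have h' : ∫⁻ y, H (x + y) = 0 := by rw [lintegral_add_left_eq_self H x]; exact h
        rw [lintegral_eq_zero_iff (by fun_prop)] at h'
        rw [lintegral_eq_zero_iff (by fun_prop)]
        filter_upwards [h'] with y hy
        simp [show H (x + y) = 0 from hy]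
      simp [this]
  push Not at h0
  obtain ⟨ha0, hb0, he0⟩ := h0
  by_cases hi : a = ∞ ∨ b = ∞ ∨ e = ∞
  · have : a * b * e = ∞ := by
      rcases hi with h | h | h <;> simp [h, ha0, hb0, he0, ENNReal.top_mul, ENNReal.mul_top]
    rw [this, ENNReal.top_rpow_of_pos (by norm_num), ENNReal.mul_top]
    · exact le_top
    · simpa using cY_pos
  push Not at hi
  obtain ⟨hai, hbi, hei⟩ := hi
  have h1 := young1_normalized (F := fun x => a⁻¹ * F x) (G := fun x => b⁻¹ * G x)
    (H := fun x => e⁻¹ * H x) (by fun_prop) (by fun_prop) (by fun_prop)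
    (by rw [lintegral_const_mul _ hF, ← ha, ENNReal.inv_mul_cancel ha0 hai])
    (by rw [lintegral_const_mul _ hG, ← hb, ENNReal.inv_mul_cancel hb0 hbi])
    (by rw [lintegral_const_mul _ hH, ← he, ENNReal.inv_mul_cancel he0 hei])
  have hpt : ∀ x y, (F x * G y * H (x + y)) ^ (2/3:ℝ) = (a * b * e) ^ (2/3:ℝ) *
      (a⁻¹ * F x * (b⁻¹ * G y) * (e⁻¹ * H (x + y))) ^ (2/3:ℝ) := by
    intro x y
    rw [← ENNReal.mul_rpow_of_nonneg _ _ (by norm_num)]
    congr 1
    rw [show a * b * e * (a⁻¹ * F x * (b⁻¹ * G y) * (e⁻¹ * H (x + y))) =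
      (a * a⁻¹) * (b * b⁻¹) * (e * e⁻¹) * (F x * G y * H (x + y)) by ring,
      ENNReal.mul_inv_cancel ha0 hai, ENNReal.mul_inv_cancel hb0 hbi,
      ENNReal.mul_inv_cancel he0 hei]
    simp
  simp_rw [hpt]
  have hne : (a * b * e) ^ (2/3:ℝ) ≠ ∞ :=
    ENNReal.rpow_ne_top_of_nonneg (by norm_num)
      (ENNReal.mul_ne_top (ENNReal.mul_ne_top hai hbi) hei)
  simp_rw [lintegral_const_mul' _ _ hne]
  rw [mul_comm (ENNReal.ofReal cY)]
  exact mul_le_mul_right h1 _

theorem youngD : ∀ (d : ℕ) {F G H : (Fin d → ℝ) → ℝ≥0∞}, Measurable F → Measurable G →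
    Measurable H →
    ∫⁻ x, ∫⁻ y, (F x * G y * H (x + y)) ^ (2/3:ℝ) ≤
      ENNReal.ofReal (cY ^ d) * ((∫⁻ x, F x) * (∫⁻ x, G x) * (∫⁻ x, H x)) ^ (2/3:ℝ) := by
  intro d
  induction d with
  | zero =>
    intro F G H hF hG hH
    rw [lintegral_unique, lintegral_unique, lintegral_unique, lintegral_unique, lintegral_unique]
    have hu : (volume : Measure (Fin 0 → ℝ)) univ = 1 := by
      rw [volume_pi, Measure.pi_empty_univ]
    have e : ∀ x : Fin 0 → ℝ, x = default := fun x => Subsingleton.elim _ _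
    simp only [hu, mul_one, pow_zero, ENNReal.ofReal_one, one_mul]
    refine le_of_eq ?_
    congr 4
    exact Subsingleton.elim _ _
  | succ d ih =>
    intro F G H hF hG hH
    let em := (MeasurableEquiv.piFinSuccAbove (fun _ : Fin (d+1) => ℝ) 0).symm
    have hmp : MeasurePreserving em volume volume :=
      (volume_preserving_piFinSuccAbove (fun _ : Fin (d+1) => ℝ) 0).symm _
    have hem : ∀ (s : ℝ) (u : Fin d → ℝ), em (s, u) = Fin.cons s u := by
      intro s u
      simp [em, MeasurableEquiv.piFinSuccAbove]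
      rfl
    have split : ∀ {f : (Fin (d+1) → ℝ) → ℝ≥0∞}, Measurable f →
        ∫⁻ x, f x = ∫⁻ s, ∫⁻ u, f (Fin.cons s u) := by
      intro f hf
      rw [← hmp.lintegral_comp hf, Measure.volume_eq_prod,
        lintegral_prod (fun p => f (em p)) (hf.comp em.measurable).aemeasurable]
      simp only [hem]
    have hcons : Measurable fun p : ℝ × (Fin d → ℝ) => (Fin.cons p.1 p.2 : Fin (d+1) → ℝ) := by
      have : (fun p : ℝ × (Fin d → ℝ) => (Fin.cons p.1 p.2 : Fin (d+1) → ℝ)) = em := by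
        funext p; rw [← hem]
      rw [this]; exact em.measurable
    have hadd : ∀ (s t : ℝ) (u v : Fin d → ℝ),
        (Fin.cons s u : Fin (d+1) → ℝ) + Fin.cons t v = Fin.cons (s + t) (u + v) := by
      intro s t u v
      funext i; refine Fin.cases ?_ ?_ i <;> simp
    rw [split (f := fun x => ∫⁻ y, (F x * G y * H (x + y)) ^ (2/3:ℝ))
      (Measurable.lintegral_prod_right'
        (f := fun p : (Fin (d+1) → ℝ) × (Fin (d+1) → ℝ) =>
          (F p.1 * G p.2 * H (p.1 + p.2)) ^ (2/3:ℝ)) (by fun_prop))]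
    have inner : ∀ s u, ∫⁻ y, (F (Fin.cons s u) * G y * H (Fin.cons s u + y)) ^ (2/3:ℝ) =
        ∫⁻ t, ∫⁻ v, (F (Fin.cons s u) * G (Fin.cons t v) *
          H (Fin.cons (s + t) (u + v))) ^ (2/3:ℝ) := by
      intro s u
      rw [split (by fun_prop)]
      simp only [hadd]
    simp only [inner]
    set F' : ℝ → ℝ≥0∞ := fun s => ∫⁻ u, F (Fin.cons s u) with hF'
    set G' : ℝ → ℝ≥0∞ := fun s => ∫⁻ u, G (Fin.cons s u) with hG'
    set H' : ℝ → ℝ≥0∞ := fun s => ∫⁻ u, H (Fin.cons s u) with hH'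
    have mF' : Measurable F' :=
      Measurable.lintegral_prod_right' (f := fun p => F (Fin.cons p.1 p.2)) (hF.comp hcons)
    have mG' : Measurable G' :=
      Measurable.lintegral_prod_right' (f := fun p => G (Fin.cons p.1 p.2)) (hG.comp hcons)
    have mH' : Measurable H' :=
      Measurable.lintegral_prod_right' (f := fun p => H (Fin.cons p.1 p.2)) (hH.comp hcons)
    calc ∫⁻ s, ∫⁻ u, ∫⁻ t, ∫⁻ v, (F (Fin.cons s u) * G (Fin.cons t v) *
          H (Fin.cons (s + t) (u + v))) ^ (2/3:ℝ)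
        = ∫⁻ s, ∫⁻ t, ∫⁻ u, ∫⁻ v, (F (Fin.cons s u) * G (Fin.cons t v) *
          H (Fin.cons (s + t) (u + v))) ^ (2/3:ℝ) := by
          refine lintegral_congr fun s => ?_
          rw [lintegral_lintegral_swap]
          refine (Measurable.lintegral_prod_right'
            (f := fun q : ((Fin d → ℝ) × ℝ) × (Fin d → ℝ) =>
              (F (Fin.cons s q.1.1) * G (Fin.cons q.1.2 q.2) *
                H (Fin.cons (s + q.1.2) (q.1.1 + q.2))) ^ (2/3:ℝ)) ?_).aemeasurable
          have m1 : Measurable fun q : ((Fin d → ℝ) × ℝ) × (Fin d → ℝ) =>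
              F (Fin.cons s q.1.1) :=
            hF.comp (hcons.comp (f := fun q : ((Fin d → ℝ) × ℝ) × (Fin d → ℝ) => (s, q.1.1))
              (by fun_prop))
          have m2 : Measurable fun q : ((Fin d → ℝ) × ℝ) × (Fin d → ℝ) =>
              G (Fin.cons q.1.2 q.2) :=
            hG.comp (hcons.comp (f := fun q : ((Fin d → ℝ) × ℝ) × (Fin d → ℝ) => (q.1.2, q.2))
              (by fun_prop))
          have m3 : Measurable fun q : ((Fin d → ℝ) × ℝ) × (Fin d → ℝ) =>
              H (Fin.cons (s + q.1.2) (q.1.1 + q.2)) :=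
            hH.comp (hcons.comp (f := fun q : ((Fin d → ℝ) × ℝ) × (Fin d → ℝ) =>
              (s + q.1.2, q.1.1 + q.2)) (by fun_prop))
          fun_prop
      _ ≤ ∫⁻ s, ∫⁻ t, ENNReal.ofReal (cY ^ d) * (F' s * G' t * H' (s + t)) ^ (2/3:ℝ) := by
          refine lintegral_mono fun s => lintegral_mono fun t => ?_
          exact ih (F := fun u => F (Fin.cons s u)) (G := fun v => G (Fin.cons t v))
            (H := fun w => H (Fin.cons (s + t) w))
            (hF.comp (hcons.comp measurable_prodMk_left))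
            (hG.comp (hcons.comp measurable_prodMk_left))
            (hH.comp (hcons.comp measurable_prodMk_left))
      _ ≤ ENNReal.ofReal (cY ^ d) * (ENNReal.ofReal cY *
          ((∫⁻ x, F' x) * (∫⁻ x, G' x) * (∫⁻ x, H' x)) ^ (2/3:ℝ)) := by
          simp_rw [lintegral_const_mul' _ _ ENNReal.ofReal_ne_top]
          exact mul_le_mul_right (young1 mF' mG' mH') _
      _ = _ := by
          rw [← mul_assoc, ← ENNReal.ofReal_mul (pow_nonneg cY_pos.le d), ← pow_succ,
            split hF, split hG, split hH]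

/-- The set version of the inequality. -/
theorem young_sets {d : ℕ} {A B C : Set (Fin d → ℝ)} (hA : MeasurableSet A)
    (hB : MeasurableSet B) (hC : MeasurableSet C) :
    (volume.prod volume) {p : (Fin d → ℝ) × (Fin d → ℝ) | p.1 ∈ A ∧ p.2 ∈ B ∧ p.1 + p.2 ∈ C} ≤
      ENNReal.ofReal (cY ^ d) * (volume A * volume B * volume C) ^ (2/3:ℝ) := by
  have hm : MeasurableSet
      {p : (Fin d → ℝ) × (Fin d → ℝ) | p.1 ∈ A ∧ p.2 ∈ B ∧ p.1 + p.2 ∈ C} :=
    (measurable_fst hA).inter ((measurable_snd hB).inter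
      ((measurable_fst.add measurable_snd) hC))
  have := youngD d (F := A.indicator 1) (G := B.indicator 1) (H := C.indicator 1)
    (measurable_one.indicator hA) (measurable_one.indicator hB) (measurable_one.indicator hC)
  rw [lintegral_indicator_one hA, lintegral_indicator_one hB, lintegral_indicator_one hC] at this
  refine le_of_eq_of_le ?_ this
  rw [← lintegral_indicator_one hm, lintegral_prod _ (measurable_one.indicator hm).aemeasurable]
  refine lintegral_congr fun x => lintegral_congr fun y => ?_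
  by_cases h1 : x ∈ A <;> by_cases h2 : y ∈ B <;> by_cases h3 : x + y ∈ C <;>
    simp [h1, h2, h3]

end Vale.Agent.P230
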