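import Mathlib
import Vale.Agent.P230.Count
import Vale.Agent.P230.Young

/-! Lattice points of a fine grid in convex bodies. -/

namespace Vale.Agent.P230

open MeasureTheory Set Filter Topology Finset
open scoped ENNReal Pointwise

variable {d : ℕ}

/-- The real point `g / L`. -/
noncomputable def toR (L : ℕ) (g : Fin d → ℤ) : Fin d → ℝ := fun i => (g i : ℝ) / L

open Classical in
/-- Integer points `g` of the box of radius `R * L` with `g / L ∈ S`. -/
noncomputable def gridPts (R L : ℕ) (S : Set (Fin d → ℝ)) : Finset (Fin d → ℤ) :=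
  (zbox (Fin d) (R * L)).filter fun g => toR L g ∈ S

lemma mem_gridPts {R L : ℕ} (hL : 0 < L) {S : Set (Fin d → ℝ)}
    (hS : S ⊆ Metric.closedBall 0 R) {g : Fin d → ℤ} :
    g ∈ gridPts R L S ↔ toR L g ∈ S := by
  simp only [gridPts, mem_filter, mem_zbox, and_iff_right_iff_imp]
  intro h j
  have h1 := hS h
  rw [Metric.mem_closedBall, dist_zero_right] at h1
  have h2 := (norm_le_pi_norm (toR L g) j).trans h1
  rw [Real.norm_eq_abs, toR, abs_div, Nat.abs_cast, div_le_iff₀ (by exact_mod_cast hL)] at h2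
  have : ((|g j| : ℤ) : ℝ) ≤ ((R * L : ℕ) : ℤ) := by push_cast; exact h2
  exact_mod_cast this

lemma gridPts_subset_zbox {R L : ℕ} {S : Set (Fin d → ℝ)} :
    ∀ g ∈ gridPts R L S, g ∈ zbox (Fin d) (R * L) := by
  classical
  exact fun _ hg => (Finset.mem_filter.1 hg).1

lemma toR_mem_of_gridPts {R L : ℕ} {S : Set (Fin d → ℝ)} {g : Fin d → ℤ}
    (hg : g ∈ gridPts R L S) : toR L g ∈ S := by
  classical
  exact (Finset.mem_filter.1 hg).2

/-- The half-open cube of side `a / L` with corner `g / L`. -/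
def cube (L : ℕ) (a : ℝ) (g : Fin d → ℤ) : Set (Fin d → ℝ) :=
  Set.pi univ fun i => Ico ((g i : ℝ) / L) (((g i : ℝ) + a) / L)

lemma volume_cube {L : ℕ} {a : ℝ} (g : Fin d → ℤ) :
    volume (cube L a g) = ENNReal.ofReal (a / L) ^ d := by
  rw [cube, Real.volume_pi_Ico]
  simp [add_div]

lemma measurableSet_cube {L : ℕ} {a : ℝ} (g : Fin d → ℤ) : MeasurableSet (cube L a g) :=
  MeasurableSet.univ_pi fun _ => measurableSet_Ico

lemma dist_cube {L : ℕ} {a : ℝ} (ha : 0 ≤ a) {g : Fin d → ℤ} {x : Fin d → ℝ}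
    (hx : x ∈ cube L a g) : dist x (toR L g) ≤ a / L := by
  rw [dist_pi_le_iff (by positivity)]
  intro i
  have h := hx i (mem_univ i)
  rw [Real.dist_eq, toR, abs_le]
  have e : ((g i : ℝ) + a) / L = (g i : ℝ) / L + a / L := add_div _ _ _
  have h0 : (0:ℝ) ≤ a / L := by positivity
  constructor <;> linarith [h.1, h.2, e]

lemma disjoint_cube {L A : ℕ} (hL : 0 < L) {g g' : Fin d → ℤ} (hne : g ≠ g')
    (hc : ∀ j, (g j : ZMod A) = (g' j : ZMod A)) :
    Disjoint (cube L (A:ℝ) g) (cube L (A:ℝ) g') := by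
  rw [Set.disjoint_left]
  intro x hx hx'
  obtain ⟨i, hi⟩ := Function.ne_iff.1 hne
  have h1 := hx i (mem_univ i)
  have h2 := hx' i (mem_univ i)
  have hLr : (0:ℝ) < L := by exact_mod_cast hL
  have e1 : (g i : ℝ) < (g' i : ℝ) + A :=
    (div_lt_div_iff_of_pos_right hLr).1 (lt_of_le_of_lt h1.1 h2.2)
  have e2 : (g' i : ℝ) < (g i : ℝ) + A :=
    (div_lt_div_iff_of_pos_right hLr).1 (lt_of_le_of_lt h2.1 h1.2)
  have d1 : g i - g' i < (A:ℤ) := by
    have : ((g i - g' i : ℤ) : ℝ) < ((A:ℤ):ℝ) := by push_cast; linarith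
    exact_mod_cast this
  have d2 : -(A:ℤ) < g i - g' i := by
    have : ((-(A:ℤ) : ℤ) : ℝ) < ((g i - g' i : ℤ) : ℝ) := by push_cast; linarith
    exact_mod_cast this
  have hdvd : (A:ℤ) ∣ g i - g' i := by
    rw [← ZMod.intCast_zmod_eq_zero_iff_dvd]; push_cast; rw [hc i, sub_self]
  exact sub_ne_zero.2 hi (Int.eq_zero_of_abs_lt_dvd hdvd (abs_lt.2 ⟨d2, d1⟩))

open Classical in
lemma residue_count {R L A : ℕ} (hL : 0 < L) {S : Set (Fin d → ℝ)} (hS : IsCompact S)
    (r : Fin d → ZMod A) :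
    (((gridPts R L S).filter fun g => ∀ j, (g j : ZMod A) = r j).card : ℝ) * ((A:ℝ) / L) ^ d ≤
      volume.real (Metric.cthickening ((A:ℝ) / L) S) := by
  set G := (gridPts R L S).filter fun g => ∀ j, (g j : ZMod A) = r j with hG
  have hd : (G : Set (Fin d → ℤ)).PairwiseDisjoint (cube L (A:ℝ)) := by
    intro g hg g' hg' hne
    simp only [hG, coe_filter, mem_ofPred_eq] at hg hg'
    exact disjoint_cube hL hne fun j => (hg.2 j).trans (hg'.2 j).symm
  have hsub : (⋃ g ∈ G, cube L (A:ℝ) g) ⊆ Metric.cthickening ((A:ℝ) / L) S := by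
    intro x hx
    simp only [mem_iUnion] at hx
    obtain ⟨g, hg, hxg⟩ := hx
    simp only [hG, Finset.mem_filter] at hg
    exact Metric.mem_cthickening_of_dist_le x _ _ _ (toR_mem_of_gridPts hg.1) (dist_cube (Nat.cast_nonneg A) hxg)
  have h := measure_mono (μ := volume) hsub
  rw [measure_biUnion_finset hd fun g _ => measurableSet_cube g] at h
  simp only [volume_cube, Finset.sum_const, nsmul_eq_mul] at h
  have hfin : volume (Metric.cthickening ((A:ℝ) / L) S) ≠ ∞ :=
    (hS.cthickening).measure_lt_top.ne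
  have h2 := ENNReal.toReal_mono hfin h
  rwa [ENNReal.toReal_mul, ENNReal.toReal_pow, ENNReal.toReal_natCast,
    ENNReal.toReal_ofReal (by positivity)] at h2

lemma grid_card_lower {R L : ℕ} (hL : 0 < L) {S C : Set (Fin d → ℝ)}
    (hSR : S ⊆ Metric.closedBall 0 R) {δ : ℝ} (hδ : (1:ℝ) / L ≤ δ)
    (hC : Metric.cthickening δ C ⊆ S) :
    volume.real C ≤ ((gridPts R L S).card : ℝ) * ((1:ℝ) / L) ^ d := by
  have hLr : (0:ℝ) < L := by exact_mod_cast hL
  have hcov : C ⊆ ⋃ g ∈ gridPts R L S, cube L 1 g := by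
    intro x hx
    let g : Fin d → ℤ := fun i => ⌊x i * L⌋
    have hxg : x ∈ cube L 1 g := by
      intro i _
      constructor
      · rw [div_le_iff₀ hLr]; exact Int.floor_le _
      · rw [lt_div_iff₀ hLr]; exact Int.lt_floor_add_one _
    refine mem_iUnion₂.2 ⟨g, ?_, hxg⟩
    rw [mem_gridPts hL hSR]
    refine hC (Metric.mem_cthickening_of_dist_le _ x _ _ hx ?_)
    rw [dist_comm]
    exact (dist_cube zero_le_one hxg).trans hδ
  have h := (measure_mono (μ := volume) hcov).trans (measure_biUnion_finset_le _ _)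
  simp only [volume_cube, Finset.sum_const, nsmul_eq_mul] at h
  have h2 := ENNReal.toReal_mono
    (ENNReal.mul_ne_top (ENNReal.natCast_ne_top _) (ENNReal.pow_ne_top ENNReal.ofReal_ne_top)) h
  rwa [ENNReal.toReal_mul, ENNReal.toReal_pow, ENNReal.toReal_natCast,
    ENNReal.toReal_ofReal (by positivity)] at h2

open Classical in
lemma pair_count {R L : ℕ} (hL : 0 < L) {S : Set (Fin d → ℝ)} (hS : IsCompact S)
    (σ : ℤ) (hσ : σ = 1 ∨ σ = -1) (c : Fin d → ℤ) :
    ((((gridPts R L S) ×ˢ (gridPts R L S)).filter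
        fun p => σ • (p.1 + p.2) + c ∈ gridPts R L S).card : ℝ) * (((1:ℝ) / L) ^ d) ^ 2 ≤
      cY ^ d * (volume.real (Metric.cthickening ((2:ℝ) / L) S)) ^ 2 := by
  set G := gridPts R L S with hG
  set P := (G ×ˢ G).filter fun p => σ • (p.1 + p.2) + c ∈ G with hP
  set S1 := Metric.cthickening ((1:ℝ) / L) S with hS1
  set S2 := Metric.cthickening ((2:ℝ) / L) S with hS2
  set C : Set (Fin d → ℝ) := (fun w => (σ:ℝ) • w + toR L c) ⁻¹' S2 with hC
  have hσr : |(σ:ℝ)| = 1 := by rcases hσ with rfl | rfl <;> simp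
  have hd : (P : Set ((Fin d → ℤ) × (Fin d → ℤ))).PairwiseDisjoint
      (fun p => cube L 1 p.1 ×ˢ cube L 1 p.2) := by
    intro p _ p' _ hne
    rw [Function.onFun, Set.disjoint_prod]
    by_cases h : p.1 = p'.1
    · right
      have h' : p.2 ≠ p'.2 := fun h' => hne (Prod.ext h h')
      have hd1 := disjoint_cube (A := 1) hL (g := p.2) (g' := p'.2) h'
        (fun j => Subsingleton.elim _ _)
      rwa [Nat.cast_one] at hd1
    · left
      have hd1 := disjoint_cube (A := 1) hL (g := p.1) (g' := p'.1) h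
        (fun j => Subsingleton.elim _ _)
      rwa [Nat.cast_one] at hd1
  have hsub : (⋃ p ∈ P, cube L 1 p.1 ×ˢ cube L 1 p.2) ⊆
      {q : (Fin d → ℝ) × (Fin d → ℝ) | q.1 ∈ S1 ∧ q.2 ∈ S1 ∧ q.1 + q.2 ∈ C} := by
    intro q hq
    simp only [mem_iUnion, Set.mem_prod] at hq
    obtain ⟨p, hp, hq1, hq2⟩ := hq
    simp only [hP, Finset.mem_filter, Finset.mem_product] at hp
    have d1 := dist_cube zero_le_one hq1
    have d2 := dist_cube zero_le_one hq2
    rw [mem_ofPred_eq]
    refine ⟨Metric.mem_cthickening_of_dist_le q.1 _ _ S (toR_mem_of_gridPts hp.1.1) d1,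
      Metric.mem_cthickening_of_dist_le q.2 _ _ S (toR_mem_of_gridPts hp.1.2) d2, ?_⟩
    rw [hC, Set.mem_preimage, hS2]
    refine Metric.mem_cthickening_of_dist_le _ _ _ S (toR_mem_of_gridPts hp.2) ?_
    have e : toR L (σ • (p.1 + p.2) + c) = (σ:ℝ) • (toR L p.1 + toR L p.2) + toR L c := by
      funext i; simp [toR]; ring
    rw [e, dist_add_right, dist_smul₀, Real.norm_eq_abs, hσr, one_mul]
    calc dist (q.1 + q.2) (toR L p.1 + toR L p.2)
        ≤ dist q.1 (toR L p.1) + dist q.2 (toR L p.2) := dist_add_add_le _ _ _ _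
      _ ≤ 1 / L + 1 / L := add_le_add d1 d2
      _ = _ := by ring
  have hSc : IsCompact S1 := hS.cthickening
  have hS2c : IsCompact S2 := hS.cthickening
  have hCm : MeasurableSet C := (hS2c.isClosed.preimage (by fun_prop)).measurableSet
  have hvC : volume C = volume S2 := by
    have e : C = (fun w => (σ:ℝ) • w) ⁻¹' ((fun w => w + toR L c) ⁻¹' S2) := rfl
    rw [e, Measure.addHaar_preimage_smul volume (by intro h; rw [h] at hσr; simp at hσr),
      measure_preimage_add_right]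
    simp [abs_inv, hσr]
  have h := (measure_mono (μ := (volume : Measure (Fin d → ℝ)).prod volume) hsub).trans
    (young_sets hSc.measurableSet hSc.measurableSet hCm)
  rw [measure_biUnion_finset hd fun p _ => (measurableSet_cube _).prod (measurableSet_cube _)] at h
  simp only [Measure.prod_prod, volume_cube, Finset.sum_const, nsmul_eq_mul] at h
  have hle : volume S1 ≤ volume S2 :=
    measure_mono (Metric.cthickening_mono (div_le_div_of_nonneg_right (by norm_num) (by positivity)) _)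
  have h' : (volume S1 * volume S1 * volume C) ^ (2/3:ℝ) ≤ (volume S2) ^ 2 := by
    rw [hvC]
    calc (volume S1 * volume S1 * volume S2) ^ (2/3:ℝ)
        ≤ ((volume S2) ^ 3) ^ (2/3:ℝ) := by
          refine ENNReal.rpow_le_rpow ?_ (by norm_num)
          rw [pow_succ, pow_two]
          exact mul_le_mul' (mul_le_mul' hle hle) le_rfl
      _ = (volume S2) ^ 2 := by
          rw [← ENNReal.rpow_natCast, ← ENNReal.rpow_mul, ← ENNReal.rpow_natCast (volume S2) 2]
          norm_num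
  have h2 := ENNReal.toReal_mono
    (ENNReal.mul_ne_top ENNReal.ofReal_ne_top (ENNReal.pow_ne_top hS2c.measure_lt_top.ne))
    (h.trans (mul_le_mul_right h' _))
  rw [ENNReal.toReal_mul, ENNReal.toReal_mul, ENNReal.toReal_mul, ENNReal.toReal_natCast,
    ENNReal.toReal_pow, ENNReal.toReal_ofReal (by positivity),
    ENNReal.toReal_ofReal (pow_nonneg cY_pos.le _), ENNReal.toReal_pow] at h2
  rw [sq]
  exact h2

lemma interior_volume {S : Set (Fin d → ℝ)} (hc : Convex ℝ S) :
    volume (interior S) = volume S := by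
  refine le_antisymm (measure_mono interior_subset) ?_
  calc volume S ≤ volume (interior S ∪ frontier S) := by
        refine measure_mono fun x hx => ?_
        by_cases h : x ∈ interior S
        · exact Or.inl h
        · exact Or.inr ⟨subset_closure hx, h⟩
    _ ≤ volume (interior S) + volume (frontier S) := measure_union_le _ _
    _ = volume (interior S) := by rw [hc.addHaar_frontier volume, add_zero]

open Classical in
/-- The asymptotic facts about grid points of a convex body at scale `m ^ 4`. -/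
theorem grid_facts {S : Set (Fin d → ℝ)} (hc : Convex ℝ S) (hS : IsCompact S)
    (hpos : 0 < volume.real S) {R : ℕ} (hSR : S ⊆ Metric.closedBall 0 R) :
    ∀ᶠ m : ℕ in atTop,
      (4/5 : ℝ) * volume.real S * ((m:ℝ)^4) ^ d ≤ (gridPts R (m^4) S).card ∧
      ((gridPts R (m^4) S).card : ℝ) ≤ (5/4 : ℝ) * volume.real S * ((m:ℝ)^4) ^ d ∧
      (∀ A : ℕ, 1 ≤ A → A ≤ m ^ 2 → ∀ r : Fin d → ZMod A,
        (((gridPts R (m^4) S).filter fun g => ∀ j, (g j : ZMod A) = r j).card : ℝ) ≤
          2 * (gridPts R (m^4) S).card / (A:ℝ) ^ d) ∧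
      (∀ σ : ℤ, (σ = 1 ∨ σ = -1) → ∀ c : Fin d → ℤ,
        ((((gridPts R (m^4) S) ×ˢ (gridPts R (m^4) S)).filter
          fun p => σ • (p.1 + p.2) + c ∈ gridPts R (m^4) S).card : ℝ) ≤
          3 * cY ^ d * ((gridPts R (m^4) S).card : ℝ) ^ 2) := by
  set V := volume.real S with hV
  -- upper approximation
  have hup : ∀ᶠ r in 𝓝 (0:ℝ), volume.real (Metric.cthickening r S) ≤ 5/4 * V := by
    have h := (ENNReal.tendsto_toReal hS.measure_lt_top.ne).comp
      (tendsto_measure_cthickening_of_isCompact (μ := volume) hS)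
    exact h.eventually (eventually_le_nhds (by show V < 5/4 * V; linarith))
  obtain ⟨r0, hr0, hr0'⟩ := Metric.eventually_nhds_iff.1 hup
  -- lower approximation
  have hlt : ENNReal.ofReal (4/5 * V) < volume (interior S) := by
    rw [interior_volume hc]
    refine (ENNReal.ofReal_lt_iff_lt_toReal (by positivity) hS.measure_lt_top.ne).2 ?_
    show 4/5 * V < V
    linarith
  obtain ⟨C, hCsub, hCc, hCv⟩ := isOpen_interior.exists_lt_isCompact hlt
  obtain ⟨δ, hδ, hδS⟩ := hCc.exists_cthickening_subset_open isOpen_interior hCsub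
  have hCv' : 4/5 * V ≤ volume.real C :=
    ((ENNReal.ofReal_lt_iff_lt_toReal (by positivity) hCc.measure_lt_top.ne).1 hCv).le
  have hlim : Tendsto (fun m : ℕ => (1:ℝ) / m) atTop (𝓝 0) := tendsto_one_div_atTop_nhds_zero_nat
  filter_upwards [hlim.eventually (eventually_lt_nhds (half_pos hr0)),
    hlim.eventually (eventually_le_nhds hδ), eventually_ge_atTop 1] with m hm hmδ hm1
  have hmr : (1:ℝ) ≤ m := by exact_mod_cast hm1
  have hL : 0 < m ^ 4 := by positivity
  have hLc : ((m^4 : ℕ) : ℝ) = (m:ℝ)^4 := by push_cast; rfl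
  have hLp : (0:ℝ) < ((m:ℝ)^4) ^ d := by positivity
  have hsmall : (1:ℝ) / ((m^4 : ℕ) : ℝ) ≤ 1 / (m:ℝ) := by
    rw [hLc]
    exact one_div_le_one_div_of_le (by positivity) (le_self_pow₀ hmr (by norm_num))
  have hupA : ∀ A : ℕ, A ≤ m ^ 2 →
      volume.real (Metric.cthickening ((A:ℝ) / ((m^4 : ℕ):ℝ)) S) ≤ 5/4 * V := by
    intro A hA
    refine hr0' ?_
    rw [dist_zero_right, Real.norm_eq_abs, abs_of_nonneg (by positivity)]
    refine lt_of_le_of_lt ?_ (hm.trans (half_lt_self hr0))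
    rw [hLc, div_le_div_iff₀ (by positivity) (by positivity), one_mul]
    calc (A:ℝ) * m ≤ (m:ℝ)^2 * m := by
          refine mul_le_mul_of_nonneg_right ?_ (by positivity)
          exact_mod_cast hA
      _ = (m:ℝ)^3 := by ring
      _ ≤ (m:ℝ)^4 := pow_le_pow_right₀ hmr (by norm_num)
  have hlow : (4/5 : ℝ) * V * ((m:ℝ)^4) ^ d ≤ (gridPts R (m^4) S).card := by
    have h := hCv'.trans (grid_card_lower (R := R) hL hSR (hsmall.trans hmδ)
      (hδS.trans interior_subset))
    rw [hLc, div_pow, one_pow, mul_one_div, le_div_iff₀ hLp] at h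
    exact h
  have hres : ∀ A : ℕ, 1 ≤ A → A ≤ m ^ 2 → ∀ r : Fin d → ZMod A,
      (((gridPts R (m^4) S).filter fun g => ∀ j, (g j : ZMod A) = r j).card : ℝ) * (A:ℝ) ^ d ≤
        5/4 * V * ((m:ℝ)^4) ^ d := by
    intro A hA1 hA r
    have h := (residue_count (R := R) hL hS r).trans (hupA A hA)
    rw [hLc, div_pow, mul_div_assoc', div_le_iff₀ hLp] at h
    exact h
  refine ⟨hlow, ?_, fun A hA1 hA r => ?_, fun σ hσ c => ?_⟩
  · have := hres 1 le_rfl (Nat.one_le_pow _ _ hm1) (fun _ => 0)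
    rw [Finset.filter_true_of_mem fun g _ j => Subsingleton.elim _ _] at this
    simpa using this
  · have hA0 : (0:ℝ) < (A:ℝ) ^ d := by
      have : (0:ℝ) < A := by exact_mod_cast hA1
      positivity
    rw [le_div_iff₀ hA0]
    have := hres A hA1 hA r
    nlinarith
  · have h := pair_count (R := R) hL hS σ hσ c
    have h2 : volume.real (Metric.cthickening ((2:ℝ) / ((m^4 : ℕ):ℝ)) S) ≤ 5/4 * V := by
      refine hr0' ?_
      rw [dist_zero_right, Real.norm_eq_abs, abs_of_nonneg (by positivity)]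
      calc (2:ℝ) / ((m^4 : ℕ):ℝ) = 2 * (1 / ((m^4 : ℕ):ℝ)) := by ring
        _ ≤ 2 * (1 / (m:ℝ)) := by linarith
        _ < r0 := by linarith
    have h3 := h.trans (mul_le_mul_of_nonneg_left
      (pow_le_pow_left₀ measureReal_nonneg h2 2) (pow_nonneg cY_pos.le d))
    rw [hLc, div_pow, one_pow, div_pow, one_pow, mul_one_div, div_le_iff₀ (by positivity)] at h3
    refine h3.trans ?_
    have hc0 : 0 ≤ cY ^ d := pow_nonneg cY_pos.le d
    calc cY ^ d * (5/4 * V) ^ 2 * (((m:ℝ)^4) ^ d) ^ 2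
        = cY ^ d * (625/256) * (4/5 * V * ((m:ℝ)^4) ^ d) ^ 2 := by ring
      _ ≤ cY ^ d * 3 * ((gridPts R (m^4) S).card : ℝ) ^ 2 := by
          refine mul_le_mul (mul_le_mul_of_nonneg_left (by norm_num) hc0)
            (pow_le_pow_left₀ (by positivity) hlow 2) (by positivity) (by positivity)
      _ = _ := by ring

/-- Grid points of an arbitrary translate of a symmetric convex body. -/
theorem shifted_count {Y : Set (Fin d → ℝ)} (hc : Convex ℝ Y) (hY : IsCompact Y)
    (hsym : ∀ x ∈ Y, -x ∈ Y) (hpos : 0 < volume.real Y) {R : ℕ}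
    (hYR : (2:ℝ) • Y ⊆ Metric.closedBall 0 R) :
    ∀ᶠ m : ℕ in atTop, ∀ c : Fin d → ℝ, ∃ G : Finset (Fin d → ℤ),
      (4/5 : ℝ) * (1/2:ℝ) ^ d * volume.real Y * ((m:ℝ)^4) ^ d ≤ G.card ∧
      (∀ g ∈ G, c - toR (m^4) g ∈ Y) ∧
      (∀ g ∈ G, ∀ g' ∈ G, g - g' ∈ gridPts R (m^4) ((2:ℝ) • Y)) := by
  set H : Set (Fin d → ℝ) := (1/2:ℝ) • Y with hH
  have hvH : volume.real H = (1/2:ℝ) ^ d * volume.real Y := by
    rw [measureReal_def, hH, Measure.addHaar_smul_of_nonneg _ (by norm_num : (0:ℝ) ≤ 1/2),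
      ENNReal.toReal_mul, ENNReal.toReal_ofReal (by positivity), Module.finrank_fin_fun,
      ← measureReal_def]
  have hYne : (interior Y).Nonempty := by
    refine nonempty_of_measure_ne_zero (μ := volume) ?_
    rw [interior_volume hc]
    intro h
    rw [measureReal_def, h] at hpos
    simp at hpos
  have h0 : (0 : Fin d → ℝ) ∈ interior Y := by
    obtain ⟨x, hx⟩ := hYne
    have hneg : -x ∈ interior Y := by
      have e : interior (-Y) = -interior Y :=
        ((Homeomorph.neg (Fin d → ℝ)).preimage_interior Y).symm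
      have hYneg : -Y = Y := by
        ext z
        exact ⟨fun h => by simpa using hsym _ h, fun h => Set.mem_neg.2 (hsym _ h)⟩
      rw [hYneg] at e
      rw [e]
      simpa using hx
    have := hc.interior hx hneg (show (0:ℝ) ≤ 1/2 by norm_num) (show (0:ℝ) ≤ 1/2 by norm_num)
      (by norm_num)
    simpa using this
  have h0H : H ∈ 𝓝 (0 : Fin d → ℝ) := by
    rw [hH]
    refine (set_smul_mem_nhds_zero_iff (by norm_num : (1/2:ℝ) ≠ 0)).2 ?_
    exact mem_interior_iff_mem_nhds.1 h0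
  obtain ⟨ρ, hρ, hρH⟩ := Metric.mem_nhds_iff.1 h0H
  have hHY : H ⊆ Y := by
    rintro _ ⟨x, hx, rfl⟩
    exact hc.smul_mem_of_zero_mem (interior_subset h0) hx ⟨by norm_num, by norm_num⟩
  have hYsub : Y ⊆ (2:ℝ) • Y := fun x hx =>
    ⟨(1/2:ℝ) • x, hHY ⟨x, hx, rfl⟩, by simp [smul_smul]⟩
  have hlim : Tendsto (fun m : ℕ => (1:ℝ) / m) atTop (𝓝 0) := tendsto_one_div_atTop_nhds_zero_nat
  filter_upwards [grid_facts (R := R) (hc.smul (1/2:ℝ)) (hY.smul _)
      (by rw [hvH]; positivity) (hHY.trans (hYsub.trans hYR)),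
    hlim.eventually (eventually_lt_nhds hρ), eventually_ge_atTop 1] with m hm hmρ hm1 c
  have hL : 0 < m ^ 4 := by positivity
  have hmr : (1:ℝ) ≤ m := by exact_mod_cast hm1
  have hLr : (0:ℝ) < ((m^4:ℕ):ℝ) := by positivity
  let g0 : Fin d → ℤ := fun i => ⌊c i * ((m^4:ℕ):ℝ)⌋
  have he : c - toR (m^4) g0 ∈ H := by
    refine hρH ?_
    rw [Metric.mem_ball, dist_zero_right]
    refine lt_of_le_of_lt ((pi_norm_le_iff_of_nonneg (by positivity)).2 fun i => ?_) hmρ
    have hx : c ∈ cube (m^4) 1 g0 := by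
      intro i _
      constructor
      · rw [div_le_iff₀ hLr]; exact Int.floor_le _
      · rw [lt_div_iff₀ hLr]; exact Int.lt_floor_add_one _
    have := (dist_le_pi_dist c (toR (m^4) g0) i).trans (dist_cube zero_le_one hx)
    rw [Real.dist_eq] at this
    rw [Pi.sub_apply, Real.norm_eq_abs]
    refine this.trans (one_div_le_one_div_of_le (by positivity) ?_)
    push_cast
    exact le_self_pow₀ hmr (by norm_num)
  refine ⟨(gridPts R (m^4) H).image fun g => g0 + g, ?_, ?_, ?_⟩
  · rw [Finset.card_image_of_injective _ (add_right_injective g0)]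
    refine le_trans (le_of_eq ?_) hm.1
    rw [hvH]; ring
  · intro g hg
    obtain ⟨g', hg', rfl⟩ := Finset.mem_image.1 hg
    obtain ⟨a, ha, hae⟩ := he
    obtain ⟨b, hb, hbe⟩ := toR_mem_of_gridPts hg'
    have e : c - toR (m^4) (g0 + g') = (c - toR (m^4) g0) - toR (m^4) g' := by
      funext i; simp [toR]; ring
    rw [e, ← hae, ← hbe]
    have := hc ha (hsym b hb) (show (0:ℝ) ≤ 1/2 by norm_num) (show (0:ℝ) ≤ 1/2 by norm_num)
      (by norm_num)
    simpa [sub_eq_add_neg] using this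
  · intro g hg g' hg'
    obtain ⟨u, hu, rfl⟩ := Finset.mem_image.1 hg
    obtain ⟨v, hv, rfl⟩ := Finset.mem_image.1 hg'
    obtain ⟨a, ha, hae⟩ := toR_mem_of_gridPts hu
    obtain ⟨b, hb, hbe⟩ := toR_mem_of_gridPts hv
    rw [mem_gridPts hL hYR]
    refine hYsub ?_
    have e : toR (m^4) (g0 + u - (g0 + v)) = toR (m^4) u - toR (m^4) v := by
      funext i; simp [toR]; ring
    rw [e, ← hae, ← hbe]
    have := hc ha (hsym b hb) (show (0:ℝ) ≤ 1/2 by norm_num) (show (0:ℝ) ≤ 1/2 by norm_num)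
      (by norm_num)
    simpa [sub_eq_add_neg] using this

end Vale.Agent.P230
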