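import Mathlib
import Vale.Agent.P230.Count

/-! Affinely dependent tuples of lattice points are rare. -/

namespace Vale.Agent.P230

open Finset Matrix

variable {d s : ℕ}

/-- An integral affine relation among the entries of a tuple. -/
def IsRel (f : Fin s → Fin d → ℤ) (a : Fin s → ℤ) : Prop :=
  a ≠ 0 ∧ ∑ i, a i = 0 ∧ ∀ j, ∑ i, a i * f i j = 0

open Classical in
/-- Injective affinely dependent tuples with entries in `B`. -/
noncomputable def depTuples (B : Finset (Fin d → ℤ)) (s : ℕ) : Finset (Fin s → Fin d → ℤ) :=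
  (Fintype.piFinset fun _ => B).filter fun f => Function.Injective f ∧ ∃ a, IsRel f a

/-- A primitive relation with minimal support. -/
lemma exists_min_rel {f : Fin s → Fin d → ℤ} (h : ∃ a, IsRel f a) :
    ∃ a, IsRel f a ∧ (∃ u : Fin s → ℤ, ∑ i, u i * a i = 1) ∧
      ∀ b, IsRel f b → ¬ ((univ.filter fun i => b i ≠ 0) ⊂ (univ.filter fun i => a i ≠ 0)) := by
  classical
  have hex : ∃ n, ∃ a, IsRel f a ∧ (univ.filter fun i => a i ≠ 0).card = n :=
    ⟨_, h.choose, h.choose_spec, rfl⟩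
  obtain ⟨a, ha, hn⟩ := Nat.find_spec hex
  obtain ⟨i0, hi0⟩ := Function.ne_iff.1 ha.1
  obtain ⟨g, hg, hg1⟩ := Finset.extract_gcd a (s := univ) ⟨i0, mem_univ _⟩
  set G := (univ : Finset (Fin s)).gcd a
  have hG : G ≠ 0 := by
    intro hz
    exact hi0 (by simpa [hz] using hg i0 (mem_univ _))
  have hsupp : (univ.filter fun i => g i ≠ 0) = (univ.filter fun i => a i ≠ 0) := by
    ext i
    simp [hg i (mem_univ _), hG]
  refine ⟨g, ⟨?_, ?_, ?_⟩, ?_, ?_⟩
  · intro hz
    exact hi0 (by simp [hg i0 (mem_univ _), hz])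
  · have := ha.2.1
    rw [sum_congr rfl hg, ← mul_sum] at this
    exact (mul_eq_zero.1 this).resolve_left hG
  · intro j
    have := ha.2.2 j
    rw [sum_congr rfl (fun i hi => by rw [hg i hi, mul_assoc]), ← mul_sum] at this
    exact (mul_eq_zero.1 this).resolve_left hG
  · obtain ⟨u, hu⟩ := Finset.gcd_eq_sum_mul univ g
    refine ⟨u, ?_⟩
    rw [hg1] at hu
    rw [hu]
    exact sum_congr rfl fun i _ => mul_comm _ _
  · intro b hb hlt
    rw [hsupp] at hlt
    have := card_lt_card hlt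
    rw [hn] at this
    exact Nat.find_min hex this ⟨b, hb, rfl⟩

/-- If integral vectors are affinely independent but dependent modulo `P`, then `P` is small. -/
lemma modulus_le_of_dependent {ι : Type*} [Fintype ι] [DecidableEq ι] (v : ι → Fin d → ℤ)
    (P : ℕ) [Fact P.Prime] (X : ℕ) (hX : ∀ i i', |1 + ∑ j, v i j * v i' j| ≤ X)
    (hind : ∀ w : ι → ℤ, ∑ i, w i = 0 → (∀ j, ∑ i, w i * v i j = 0) → w = 0)
    (a : ι → ZMod P) (ha0 : a ≠ 0) (ha1 : ∑ i, a i = 0)
    (ha2 : ∀ j, ∑ i, a i * (v i j : ZMod P) = 0) :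
    P ≤ (Fintype.card ι).factorial * X ^ Fintype.card ι := by
  let G : Matrix ι ι ℤ := Matrix.of fun i i' => 1 + ∑ j, v i j * v i' j
  have hG0 : G.det ≠ 0 := by
    intro hz
    obtain ⟨w, hw0, hw⟩ := Matrix.exists_mulVec_eq_zero_iff.2 hz
    have hq : (∑ i, w i) * (∑ i, w i) + ∑ j, (∑ i, w i * v i j) * (∑ i, w i * v i j) = 0 := by
      have e : ∑ i, w i * (G *ᵥ w) i = 0 := by simp [hw]
      rw [← e]
      simp only [G, Matrix.mulVec, dotProduct, Matrix.of_apply, add_mul, one_mul,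
        sum_add_distrib, mul_add, mul_sum, sum_mul]
      congr 1
      · exact sum_comm
      · rw [sum_comm (γ := Fin d)]
        conv_rhs => rw [sum_comm]
        refine sum_congr rfl fun i _ => ?_
        rw [sum_comm]
        exact sum_congr rfl fun i' _ => sum_congr rfl fun j _ => by ring
    have h1 := (add_eq_zero_iff_of_nonneg (mul_self_nonneg _)
      (sum_nonneg fun j _ => mul_self_nonneg _)).1 hq
    refine hw0 (hind w (mul_self_eq_zero.1 h1.1) fun j => ?_)
    exact mul_self_eq_zero.1 ((sum_eq_zero_iff_of_nonneg fun j _ => mul_self_nonneg _).1 h1.2 j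
      (mem_univ _))
  have hmod : ((Int.castRingHom (ZMod P)).mapMatrix G).det = 0 := by
    refine Matrix.exists_mulVec_eq_zero_iff.1 ⟨a, ha0, funext fun i => ?_⟩
    show ∑ i', ((G i i' : ℤ) : ZMod P) * a i' = 0
    simp only [G, Matrix.of_apply]
    push_cast
    simp only [add_mul, one_mul, sum_add_distrib, ha1, zero_add, sum_mul]
    rw [sum_comm]
    refine sum_eq_zero fun j _ => ?_
    calc ∑ i', (v i j : ZMod P) * (v i' j : ZMod P) * a i'
        = (v i j : ZMod P) * ∑ i', a i' * (v i' j : ZMod P) := by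
          rw [mul_sum]; exact sum_congr rfl fun i' _ => by ring
      _ = 0 := by rw [ha2 j, mul_zero]
  rw [← RingHom.map_det] at hmod
  have hdvd : (P : ℤ) ∣ G.det := (ZMod.intCast_zmod_eq_zero_iff_dvd _ _).1 hmod
  have h2 : |G.det| ≤ (Fintype.card ι).factorial • (X:ℤ) ^ Fintype.card ι :=
    Matrix.det_le (abv := AbsoluteValue.abs) hX
  rw [nsmul_eq_mul] at h2
  have h3 : (P : ℤ) ≤ |G.det| :=
    Int.le_of_dvd (abs_pos.2 hG0) ((dvd_abs _ _).2 hdvd)
  exact_mod_cast h3.trans h2

/-- The value at `l` lies in the rational span of the other values. -/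
def InSpan (f : Fin s → Fin d → ℤ) (l : Fin s) : Prop :=
  (fun j => (f l j : ℚ)) ∈
    Submodule.span ℚ (Set.range fun i : {i : Fin s // i ≠ l} => fun j => (f i.1 j : ℚ))

lemma inSpan_of_rel {f : Fin s → Fin d → ℤ} {a : Fin s → ℤ} (h : IsRel f a) {l : Fin s}
    (hl : a l ≠ 0) : InSpan f l := by
  classical
  have e : (fun j => (f l j : ℚ)) =
      ∑ i : {i : Fin s // i ≠ l}, (-(a i.1 : ℚ) / (a l : ℚ)) • fun j => (f i.1 j : ℚ) := by
    funext j
    rw [Finset.sum_apply]
    simp only [Pi.smul_apply, smul_eq_mul]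
    have hj : (∑ i, (a i : ℚ) * (f i j : ℚ)) = 0 := by exact_mod_cast h.2.2 j
    rw [← add_sum_erase _ _ (mem_univ l)] at hj
    have hs : ∑ i : {i : Fin s // i ≠ l}, -(a i.1 : ℚ) / (a l : ℚ) * (f i.1 j : ℚ) =
        ∑ i ∈ univ.erase l, -(a i : ℚ) / (a l : ℚ) * (f i j : ℚ) :=
      (Finset.sum_subtype (univ.erase l) (by simp)
        fun i : Fin s => -(a i : ℚ) / (a l : ℚ) * (f i j : ℚ)).symm
    rw [hs]
    have : ∑ i ∈ univ.erase l, -(a i : ℚ) / (a l : ℚ) * (f i j : ℚ) =
        -(∑ i ∈ univ.erase l, (a i : ℚ) * (f i j : ℚ)) / (a l : ℚ) := by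
      rw [neg_div, sum_div, ← sum_neg_distrib]
      exact sum_congr rfl fun i _ => by ring
    rw [this, eq_div_iff (by exact_mod_cast hl)]
    linarith
  unfold InSpan
  rw [e]
  exact Submodule.sum_mem _ fun i _ =>
    Submodule.smul_mem _ _ (Submodule.subset_span (Set.mem_range_self i))

variable {B : Finset (Fin d → ℤ)} {n : ℕ}

/-- A fibre of tuples that agree off `l` and have the value at `l` in the span of the others. -/
lemma card_inSpan_fibre (hbox : ∀ g ∈ B, g ∈ zbox (Fin d) n) (l : Fin s)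
    (S : Finset (Fin s → Fin d → ℤ)) (hS : ∀ f ∈ S, f l ∈ B ∧ InSpan f l)
    (hagree : ∀ f ∈ S, ∀ f' ∈ S, ∀ i, i ≠ l → f i = f' i) :
    S.card ≤ (2 * n + 1) ^ s := by
  classical
  rcases S.eq_empty_or_nonempty with rfl | ⟨f₀, hf₀⟩
  · simp
  have hcard : S.card = (S.image fun f => f l).card := by
    refine (card_image_of_injOn fun f hf f' hf' h => funext fun i => ?_).symm
    by_cases hi : i = l
    · subst hi; exact h
    · exact hagree f hf f' hf' i hi
  rw [hcard]
  have := card_box_subspace (F := ℚ) (κ := Fin d) n 1 (fun r => card_Icc_rat n r) s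
    (Submodule.span ℚ (Set.range fun i : {i : Fin s // i ≠ l} => fun j => (f₀ i.1 j : ℚ)))
    ?_ 0 (S.image fun f => f l) ?_
  · simpa using this
  · refine (finrank_range_le_card _).trans ?_
    exact (Fintype.card_subtype_le _).trans (by simp)
  · intro g hg
    obtain ⟨f, hf, rfl⟩ := Finset.mem_image.1 hg
    refine ⟨hbox _ (hS f hf).1, ?_⟩
    rw [sub_zero]
    have := (hS f hf).2
    unfold InSpan at this
    convert this using 4
    rename_i i
    funext j
    rw [hagree f hf f₀ hf₀ i.1 i.2]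

open Classical in
/-- Tuples with a prescribed relation with coefficients in `{-1, 0, 1}`. -/
lemma card_sign_rel {δ : ℝ} (hδ : ∀ σ : ℤ, (σ = 1 ∨ σ = -1) → ∀ c : Fin d → ℤ,
      (((B ×ˢ B).filter fun p => σ • (p.1 + p.2) + c ∈ B).card : ℝ) ≤ δ * (B.card : ℝ) ^ 2)
    (hδ0 : 0 ≤ δ) (a : Fin s → ℤ) (ha : ∀ i, a i ∈ Icc (-1 : ℤ) 1) :
    (((Fintype.piFinset fun _ : Fin s => B).filter fun f : Fin s → Fin d → ℤ => Function.Injective f ∧
        3 ≤ (univ.filter fun i => a i ≠ 0).card ∧ ∀ j, ∑ i, a i * f i j = 0).card : ℝ)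
      ≤ δ * (B.card : ℝ) ^ (s - 1) := by
  set T := univ.filter fun i => a i ≠ 0 with hT
  by_cases h3 : 3 ≤ T.card
  swap
  · rw [filter_false_of_mem fun f _ hf => h3 hf.2.1]
    simp; positivity
  obtain ⟨x, hx, y, hy, hxy, hax⟩ : ∃ x ∈ T, ∃ y ∈ T, x ≠ y ∧ a x = a y := by
    refine exists_ne_map_eq_of_card_lt_of_maps_to (t := ({-1, 1} : Finset ℤ)) ?_ ?_
    · rw [card_pair (by decide)]; omega
    · intro i hi
      have h1 := mem_Icc.1 (ha i)
      have h2 : a i ≠ 0 := (mem_filter.1 hi).2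
      simp only [mem_coe, mem_insert, mem_singleton]
      omega
  obtain ⟨z, hz, hzxy⟩ : ∃ z ∈ T, z ∉ ({x, y} : Finset (Fin s)) := by
    refine exists_mem_notMem_of_card_lt_card ?_
    calc _ ≤ 2 := card_le_two
      _ < T.card := h3
  simp only [mem_insert, mem_singleton, not_or] at hzxy
  set U : Finset (Fin s) := {x, y, z}
  have hU : U.card = 3 := by
    simp [U, hxy, Ne.symm hzxy.1, Ne.symm hzxy.2]
  set S := (Fintype.piFinset fun _ : Fin s => B).filter fun f : Fin s → Fin d → ℤ => Function.Injective f ∧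
      3 ≤ T.card ∧ ∀ j, ∑ i, a i * f i j = 0
  have hpm : ∀ i ∈ T, a i = 1 ∨ a i = -1 := by
    intro i hi
    have h1 := mem_Icc.1 (ha i)
    have h2 : a i ≠ 0 := (mem_filter.1 hi).2
    omega
  have key := card_le_of_restrict S B (fun f hf i => Fintype.mem_piFinset.1 (mem_filter.1 hf).1 i)
    U ⌊δ * (B.card:ℝ)^2⌋₊ ?_
  · rw [hU, Fintype.card_fin] at key
    have h3s : 3 ≤ s := h3.trans ((card_le_univ T).trans (by simp))
    calc (S.card : ℝ) ≤ ((B.card ^ (s - 3) * ⌊δ * (B.card:ℝ)^2⌋₊ : ℕ) : ℝ) := by exact_mod_cast key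
      _ ≤ (B.card:ℝ) ^ (s - 3) * (δ * (B.card:ℝ)^2) := by
          push_cast
          exact mul_le_mul_of_nonneg_left (Nat.floor_le (by positivity)) (by positivity)
      _ = _ := by rw [show s - 1 = (s - 3) + 2 by omega, pow_add]; ring
  intro f₀ hf₀
  refine Nat.le_floor ?_
  set σ : ℤ := -(a z) * a x
  have hσ : σ = 1 ∨ σ = -1 := by
    rcases hpm x hx with h | h <;> rcases hpm z hz with h' | h' <;> simp [σ, h, h']
  set c : Fin d → ℤ := fun j => -(a z) * ∑ i ∈ univ \ U, a i * f₀ i j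
  refine le_trans ?_ (hδ σ hσ c)
  refine Nat.cast_le.2 ?_
  have hval : ∀ f, f ∈ S ∧ (∀ i ∉ U, f i = f₀ i) → f z = σ • (f x + f y) + c := by
    intro f hf
    funext j
    have hj := (mem_filter.1 hf.1).2.2.2 j
    rw [← sum_sdiff (subset_univ U)] at hj
    have hrest : ∑ i ∈ univ \ U, a i * f i j = ∑ i ∈ univ \ U, a i * f₀ i j :=
      sum_congr rfl fun i hi => by rw [hf.2 i (mem_sdiff.1 hi).2]
    rw [hrest, sum_insert (by simp [hxy, Ne.symm hzxy.1]),
      sum_insert (by simp [Ne.symm hzxy.2]), sum_singleton, ← hax] at hj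
    simp only [Pi.add_apply, Pi.smul_apply, smul_eq_mul, σ, c]
    have hzz : a z * a z = 1 := by rcases hpm z hz with h | h <;> simp [h]
    linear_combination (a z) * hj - f z j * hzz
  refine card_le_card_of_injOn (fun f => (f x, f y)) ?_ ?_
  · intro f hf
    simp only [mem_coe, mem_filter] at hf
    have h := hval f hf
    have hf' := hf.1
    simp only [S, mem_filter, Fintype.mem_piFinset] at hf'
    simp only [coe_filter, Set.mem_setOf_eq, mem_product]
    exact ⟨⟨hf'.1 x, hf'.1 y⟩, h ▸ hf'.1 z⟩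
  · intro f hf f' hf' he
    simp only [Prod.mk.injEq] at he
    simp only [mem_coe, mem_filter] at hf hf'
    have h := hval f hf
    have h' := hval f' hf'
    funext i
    by_cases hi : i ∈ U
    · simp only [U, mem_insert, mem_singleton] at hi
      rcases hi with rfl | rfl | rfl
      · exact he.1
      · exact he.2
      · rw [h, h', he.1, he.2]
    · rw [hf.2 i hi, hf'.2 i hi]

open Classical in
/-- Tuples with a prescribed relation having a moderate maximal coefficient. -/
lemma card_mid_rel {ρ : ℝ} {A : ℕ} [NeZero A]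
    (hres : ∀ r : Fin d → ZMod A, ((B.filter fun g => ∀ j, (g j : ZMod A) = r j).card : ℝ) ≤
      ρ * B.card / (A:ℝ) ^ d) (a : Fin (s+1) → ℤ) (l : Fin (s+1)) (hl : (a l).natAbs = A) :
    (((Fintype.piFinset fun _ : Fin (s+1) => B).filter fun f =>
        (∃ u : Fin (s+1) → ℤ, ∑ i, u i * a i = 1) ∧ ∀ j, ∑ i, a i * f i j = 0).card : ℝ)
      ≤ (ρ * B.card) ^ s / (A:ℝ) ^ d := by
  by_cases hu : ∃ u : Fin (s+1) → ℤ, ∑ i, u i * a i = 1
  swap
  · rw [filter_false_of_mem fun f _ hf => hu hf.1]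
    simp only [card_empty, Nat.cast_zero]
    have h0 : 0 ≤ ρ * B.card / (A:ℝ) ^ d := le_trans (Nat.cast_nonneg _) (hres 0)
    have : 0 ≤ ρ * B.card := by
      have hA : (0:ℝ) < (A:ℝ) ^ d := pow_pos (by exact_mod_cast NeZero.pos A) _
      simpa [div_mul_cancel₀ _ hA.ne'] using mul_nonneg h0 hA.le
    positivity
  obtain ⟨u, hu⟩ := hu
  have hal : ((a l : ℤ) : ZMod A) = 0 := by
    rw [ZMod.intCast_zmod_eq_zero_iff_dvd, ← hl]
    exact Int.natAbs_dvd.2 dvd_rfl
  have hu' : ∑ i, (u (l.succAbove i) : ZMod A) * (a (l.succAbove i) : ZMod A) = 1 := by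
    have := congrArg (Int.cast : ℤ → ZMod A) hu
    push_cast at this
    rwa [Fin.sum_univ_succAbove _ l, hal, mul_zero, zero_add] at this
  have key := card_congr_tuples (ι := Fin s) B ρ (fun r => by
    rw [Fintype.card_fin]; convert hres r) _ _ hu'
  simp only [Fintype.card_fin] at key
  refine le_trans ?_ key
  refine Nat.cast_le.2 (card_le_card_of_injOn (fun f => f ∘ l.succAbove) ?_ ?_)
  · intro f hf
    simp only [coe_filter, Set.mem_setOf_eq, Fintype.mem_piFinset] at hf ⊢
    refine ⟨fun i => hf.1 _, fun j => ?_⟩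
    have := congrArg (Int.cast : ℤ → ZMod A) (hf.2.2 j)
    push_cast at this
    rwa [Fin.sum_univ_succAbove _ l, hal, zero_mul, zero_add] at this
  · intro f hf f' hf' he
    simp only [coe_filter, Set.mem_setOf_eq] at hf hf'
    funext i
    rcases Fin.eq_self_or_eq_succAbove l i with rfl | ⟨k, rfl⟩
    · funext j
      have h1 := hf.2.2 j
      have h2 := hf'.2.2 j
      rw [Fin.sum_univ_succAbove _ i] at h1 h2
      have hsum : ∑ k, a (i.succAbove k) * f (i.succAbove k) j =
          ∑ k, a (i.succAbove k) * f' (i.succAbove k) j :=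
        sum_congr rfl fun k _ => by rw [show f (i.succAbove k) = f' (i.succAbove k) from congrFun he k]
      rw [hsum] at h1
      have h0 : a i ≠ 0 := by
        intro h0; rw [h0] at hl; simp at hl; exact NeZero.ne A hl.symm
      exact mul_left_cancel₀ h0 (by linarith)
    · exact congrFun he k

open Classical in
/-- Tuples with a relation modulo `D` among the entries other than `l`. -/
lemma card_div_rel {ρ : ℝ} {D : ℕ} [NeZero D] (hbox : ∀ g ∈ B, g ∈ zbox (Fin d) n)
    (hres : ∀ r : Fin d → ZMod D, ((B.filter fun g => ∀ j, (g j : ZMod D) = r j).card : ℝ) ≤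
      ρ * B.card / (D:ℝ) ^ d) (hρ : 0 ≤ ρ) (l : Fin (s+1)) (a : Fin s → ZMod D) :
    (((Fintype.piFinset fun _ : Fin (s+1) => B).filter fun f => InSpan f l ∧
        (∃ u : Fin s → ZMod D, ∑ i, u i * a i = 1) ∧
        ∀ j, ∑ i, a i * (f (l.succAbove i) j : ZMod D) = 0).card : ℝ)
      ≤ (ρ * B.card) ^ s / (D:ℝ) ^ d * (2 * n + 1 : ℕ) ^ (s + 1) := by
  by_cases hu : ∃ u : Fin s → ZMod D, ∑ i, u i * a i = 1
  swap
  · rw [filter_false_of_mem fun f _ hf => hu hf.2.1]
    simp; positivity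
  obtain ⟨u, hu⟩ := hu
  have key := card_congr_tuples (ι := Fin s) B ρ (fun r => by
    rw [Fintype.card_fin]; convert hres r) _ _ hu
  simp only [Fintype.card_fin] at key
  refine le_trans ?_ (mul_le_mul_of_nonneg_right key (by positivity))
  set G := (Fintype.piFinset fun _ : Fin s => B).filter
    fun f => ∀ j, ∑ i, a i * (f i j : ZMod D) = 0
  rw [← Nat.cast_pow, ← Nat.cast_mul, Nat.cast_le, Nat.mul_comm]
  refine le_trans (card_le_mul_card_image (f := fun f => f ∘ l.succAbove) _ ((2*n+1)^(s+1)) ?_)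
    (Nat.mul_le_mul_left _ (card_le_card ?_))
  · intro g _
    refine card_inSpan_fibre hbox l _ (fun f hf => ?_) (fun f hf f' hf' i hi => ?_)
    · simp only [mem_filter, Fintype.mem_piFinset] at hf
      exact ⟨hf.1.1 l, hf.1.2.1⟩
    · obtain ⟨k, rfl⟩ := Fin.exists_succAbove_eq hi
      simp only [mem_filter] at hf hf'
      exact congrFun (hf.2.trans hf'.2.symm) k
  · intro g hg
    obtain ⟨f, hf, rfl⟩ := Finset.mem_image.1 hg
    simp only [G, mem_filter, Fintype.mem_piFinset] at hf ⊢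
    exact ⟨fun i => hf.1 _, hf.2.2.2⟩

open Classical in
/-- Tuples with a relation modulo a prime among the entries other than `l`. -/
lemma card_prime_rel (hbox : ∀ g ∈ B, g ∈ zbox (Fin d) n) (P : ℕ) [Fact P.Prime]
    (l l' : Fin s) (hll : l' ≠ l) :
    ((Fintype.piFinset fun _ : Fin s => B).filter fun f => InSpan f l ∧
        ∃ a : Fin s → ZMod P, a l' ≠ 0 ∧ a l = 0 ∧
          ∀ j, ∑ i, a i * (f i j : ZMod P) = 0).card
      ≤ B.card ^ (s - 2) * ((2*n+1) ^ s * (2*n/P+1) ^ d * (2*n+1) ^ s) := by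
  set S := (Fintype.piFinset fun _ : Fin s => B).filter fun f => InSpan f l ∧
        ∃ a : Fin s → ZMod P, a l' ≠ 0 ∧ a l = 0 ∧
          ∀ j, ∑ i, a i * (f i j : ZMod P) = 0
  have hU : ({l, l'} : Finset (Fin s)).card = 2 := card_pair hll.symm
  have hSB : ∀ f ∈ S, ∀ i, f i ∈ B := fun f hf i => Fintype.mem_piFinset.1 (mem_filter.1 hf).1 i
  have := card_le_of_restrict S B hSB {l, l'}
    ((2*n+1) ^ s * (2*n/P+1) ^ d * (2*n+1) ^ s) ?_
  · rwa [hU, Fintype.card_fin] at this
  intro f₀ hf₀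
  set F := S.filter fun f => ∀ i ∉ ({l, l'} : Finset (Fin s)), f i = f₀ i
  have hagree : ∀ f ∈ F, ∀ i, i ≠ l → i ≠ l' → f i = f₀ i := by
    intro f hf i h1 h2
    exact (mem_filter.1 hf).2 i (by simp [h1, h2])
  have h1 : F.card ≤ (2*n+1) ^ s * (F.image fun f => f l').card := by
    refine card_le_mul_card_image _ _ fun g _ => ?_
    refine card_inSpan_fibre hbox l _ (fun f hf => ?_) (fun f hf f' hf' i hi => ?_)
    · have hfS : f ∈ S := (mem_filter.1 (mem_filter.1 hf).1).1
      exact ⟨hSB f hfS l, (mem_filter.1 hfS).2.1⟩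
    · rw [mem_filter] at hf hf'
      by_cases hi' : i = l'
      · subst hi'; exact hf.2.trans hf'.2.symm
      · rw [hagree f hf.1 i hi hi', hagree f' hf'.1 i hi hi']
  have h2 : (F.image fun f => f l').card ≤ (2*n+1) ^ s * (2*n/P+1) ^ d := by
    have := card_box_subspace (F := ZMod P) (κ := Fin d) n (2*n/P+1)
      (card_Icc_residue n P (Fact.out : P.Prime).pos) s
      (Submodule.span (ZMod P) (Set.range fun i : {i : Fin s // i ≠ l'} =>
        fun j => if i.1 = l then 0 else (f₀ i.1 j : ZMod P)))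
      ((finrank_range_le_card _).trans ((Fintype.card_subtype_le _).trans (by simp))) 0
      (F.image fun f => f l') ?_
    · simpa using this
    intro g hg
    obtain ⟨f, hf, rfl⟩ := Finset.mem_image.1 hg
    have hfS : f ∈ S := (mem_filter.1 hf).1
    refine ⟨hbox _ (hSB f hfS l'), ?_⟩
    obtain ⟨_, a, ha', hal, haj⟩ := (mem_filter.1 hfS).2
    rw [sub_zero]
    have e : (fun j => (f l' j : ZMod P)) = ∑ i : {i : Fin s // i ≠ l'},
        (-(a l')⁻¹ * a i.1) • fun j => if i.1 = l then 0 else (f₀ i.1 j : ZMod P) := by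
      funext j
      have hs : ∑ i : {i : Fin s // i ≠ l'},
          (-(a l')⁻¹ * a i.1) * (if i.1 = l then 0 else (f₀ i.1 j : ZMod P)) =
          ∑ i ∈ univ.erase l', -(a l')⁻¹ * (a i * (f i j : ZMod P)) := by
        rw [Finset.sum_subtype (univ.erase l') (p := fun i => i ≠ l') (by simp)]
        refine sum_congr rfl fun i _ => ?_
        by_cases hil : i.1 = l
        · rw [if_pos hil, hil, hal]; ring
        · rw [if_neg hil, hagree f hf i.1 hil i.2]; ring
      rw [Finset.sum_apply]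
      simp only [Pi.smul_apply, smul_eq_mul]
      rw [hs, ← mul_sum]
      have hj := haj j
      rw [← add_sum_erase _ _ (mem_univ l'), add_comm, ← eq_neg_iff_add_eq_zero] at hj
      rw [hj, neg_mul_neg, ← mul_assoc, inv_mul_cancel₀ ha', one_mul]
    rw [e]
    exact Submodule.sum_mem _ fun i _ =>
      Submodule.smul_mem _ _ (Submodule.subset_span (Set.mem_range_self i))
  have e : (2*n+1) ^ s * ((2*n+1) ^ s * (2*n/P+1) ^ d) =
      (2*n+1) ^ s * (2*n/P+1) ^ d * (2*n+1) ^ s := by ring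
  exact le_trans (le_of_eq (by congr 1; ext f; simp [F])) ((h1.trans (Nat.mul_le_mul_left _ h2)).trans_eq e)

end Vale.Agent.P230
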