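import Mathlib
import Vale.Agent.P230.Dep

/-! The total number of affinely dependent tuples. -/

namespace Vale.Agent.P230

open Finset

lemma sum_inv_pow_le (M t : ℕ) (ht : 2 ≤ t) :
    ∑ A ∈ Icc 2 M, ((A:ℝ) ^ t)⁻¹ ≤ 4 * (1/2:ℝ) ^ t := by
  have h2 : ∀ N : ℕ, ∑ A ∈ Icc 2 N, ((A:ℝ) ^ 2)⁻¹ ≤ 1 := by
    intro N
    have : ∀ N : ℕ, 1 ≤ N → ∑ A ∈ Icc 2 N, ((A:ℝ) ^ 2)⁻¹ ≤ 1 - 1/(N:ℝ) := by
      intro N hN
      induction N, hN using Nat.le_induction with
      | base => simp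
      | succ N hN ih =>
        rw [sum_Icc_succ_top (by omega : 2 ≤ N + 1)]
        have hN' : (1:ℝ) ≤ N := by exact_mod_cast hN
        have : ((↑(N+1):ℝ) ^ 2)⁻¹ ≤ 1/(N:ℝ) - 1/(↑(N+1):ℝ) := by
          push_cast
          rw [div_sub_div _ _ (by positivity) (by positivity), inv_eq_one_div,
            div_le_div_iff₀ (by positivity) (by positivity)]
          nlinarith
        linarith
    rcases Nat.eq_zero_or_pos N with rfl | hN
    · simp
    · refine (this N hN).trans ?_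
      have : (0:ℝ) ≤ 1/(N:ℝ) := by positivity
      linarith
  calc ∑ A ∈ Icc 2 M, ((A:ℝ) ^ t)⁻¹
      ≤ ∑ A ∈ Icc 2 M, (4 * (1/2:ℝ) ^ t) * ((A:ℝ) ^ 2)⁻¹ := by
        refine sum_le_sum fun A hA => ?_
        have hA2 : (2:ℝ) ≤ A := by exact_mod_cast (mem_Icc.1 hA).1
        obtain ⟨u, rfl⟩ := Nat.exists_eq_add_of_le ht
        have hu : (2:ℝ) ^ u ≤ (A:ℝ) ^ u := pow_le_pow_left₀ (by norm_num) hA2 u
        rw [pow_add, pow_add, mul_inv, one_div, inv_pow]
        calc ((A:ℝ)^2)⁻¹ * ((A:ℝ)^u)⁻¹ ≤ ((A:ℝ)^2)⁻¹ * ((2:ℝ)^u)⁻¹ :=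
              mul_le_mul_of_nonneg_left (inv_anti₀ (by positivity) hu) (by positivity)
          _ = _ := by rw [inv_pow (2:ℝ) u]; ring
    _ = (4 * (1/2:ℝ) ^ t) * ∑ A ∈ Icc 2 M, ((A:ℝ) ^ 2)⁻¹ := (mul_sum _ _ _).symm
    _ ≤ (4 * (1/2:ℝ) ^ t) * 1 := mul_le_mul_of_nonneg_left (h2 M) (by positivity)
    _ = _ := mul_one _

variable {d : ℕ}

open Classical in
/-- Tuples with a sign relation. -/
noncomputable def relSign (B : Finset (Fin d → ℤ)) (s : ℕ) : Finset (Fin (s+1) → Fin d → ℤ) :=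
  (Fintype.piFinset fun _ : Fin (s+1) => Icc (-1:ℤ) 1).biUnion fun a =>
    (Fintype.piFinset fun _ : Fin (s+1) => B).filter fun f : Fin (s+1) → Fin d → ℤ =>
      Function.Injective f ∧
        3 ≤ (univ.filter fun i => a i ≠ 0).card ∧ ∀ j, ∑ i, a i * f i j = 0

open Classical in
/-- Tuples with a relation with moderate coefficients. -/
noncomputable def relMid (B : Finset (Fin d → ℤ)) (s m : ℕ) : Finset (Fin (s+1) → Fin d → ℤ) :=
  (univ : Finset (Fin (s+1))).biUnion fun l => (Icc 2 (m^2)).biUnion fun A =>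
    ((Fintype.piFinset fun _ : Fin (s+1) => Icc (-(A:ℤ)) A).filter
      fun a => (a l).natAbs = A).biUnion fun a =>
        (Fintype.piFinset fun _ : Fin (s+1) => B).filter fun f : Fin (s+1) → Fin d → ℤ =>
          (∃ u : Fin (s+1) → ℤ, ∑ i, u i * a i = 1) ∧ ∀ j, ∑ i, a i * f i j = 0

open Classical in
/-- Tuples with a relation modulo a moderate divisor. -/
noncomputable def relDiv (B : Finset (Fin d → ℤ)) (s m : ℕ) : Finset (Fin (s+1) → Fin d → ℤ) :=
  (univ : Finset (Fin (s+1))).biUnion fun l => (Icc (m+1) (m^2)).biUnion fun D =>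
    ((Fintype.piFinset fun _ : Fin s => range D).biUnion fun a =>
      (Fintype.piFinset fun _ : Fin (s+1) => B).filter fun f : Fin (s+1) → Fin d → ℤ =>
        InSpan f l ∧ (∃ u : Fin s → ZMod D, ∑ i, u i * (a i : ZMod D) = 1) ∧
        ∀ j, ∑ i, (a i : ZMod D) * (f (l.succAbove i) j : ZMod D) = 0)

open Classical in
/-- Tuples with a relation modulo a large prime. -/
noncomputable def relPrime (B : Finset (Fin d → ℤ)) (s m Pmax : ℕ) :
    Finset (Fin (s+1) → Fin d → ℤ) :=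
  (univ : Finset (Fin (s+1))).biUnion fun l => (univ : Finset (Fin (s+1))).biUnion fun l' =>
    ((Icc (m^2+1) Pmax).filter fun P => P.Prime ∧ l' ≠ l).biUnion fun P =>
      (Fintype.piFinset fun _ : Fin (s+1) => B).filter fun f : Fin (s+1) → Fin d → ℤ =>
        InSpan f l ∧ ∃ a : Fin (s+1) → ZMod P, a l' ≠ 0 ∧ a l = 0 ∧
          ∀ j, ∑ i, a i * (f i j : ZMod P) = 0

/-- The bound on the prime moduli. -/
def primeBound (d s m R : ℕ) : ℕ := (s+1).factorial * ((d+1) * R^2 * m^8) ^ (s+1)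

variable {B : Finset (Fin d → ℤ)} {s m R : ℕ}

open Classical in
lemma depTuples_subset (hm : 2 ≤ m) (hR : 1 ≤ R) (hbox : ∀ g ∈ B, g ∈ zbox (Fin d) (R * m ^ 4)) :
    depTuples B (s+1) ⊆ (relSign B s ∪ relMid B s m) ∪
      (relDiv B s m ∪ relPrime B s m (primeBound d s m R)) := by
  set n := R * m ^ 4 with hn
  set pi := Fintype.piFinset fun _ : Fin (s+1) => B
  intro f hf
  simp only [depTuples, mem_filter] at hf
  obtain ⟨hfB, hinj, hrel⟩ := hf
  obtain ⟨a, ha, ⟨u, hu⟩, hmin⟩ := exists_min_rel hrel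
  obtain ⟨l, -, hl⟩ := exists_max_image (univ : Finset (Fin (s+1))) (fun i => (a i).natAbs)
    univ_nonempty
  have hal : a l ≠ 0 := by
    intro h0
    refine ha.1 (funext fun i => ?_)
    have := hl i (mem_univ _)
    simp only [h0, Int.natAbs_zero, Nat.le_zero, Int.natAbs_eq_zero] at this
    exact this
  have habs : ∀ i, |a i| ≤ ((a l).natAbs : ℤ) := by
    intro i
    rw [Int.abs_eq_natAbs]; exact_mod_cast hl i (mem_univ _)
  have hA0 : 1 ≤ (a l).natAbs := Int.natAbs_pos.2 hal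
  simp only [mem_union]
  rcases Nat.lt_or_ge (a l).natAbs 2 with hA | hA
  · left; left
    simp only [relSign, mem_biUnion, Fintype.mem_piFinset, mem_filter, mem_Icc]
    refine ⟨a, fun i => abs_le.1 (le_trans (habs i) (by omega)), Fintype.mem_piFinset.1 hfB, hinj, ?_, ha.2.2⟩
    by_contra h3
    push Not at h3
    have hlT : l ∈ univ.filter fun i => a i ≠ 0 := by simp [hal]
    rcases Nat.lt_or_ge (univ.filter fun i => a i ≠ 0).card 2 with h | h
    · obtain hone := card_le_one.1 (by omega : (univ.filter fun i => a i ≠ 0).card ≤ 1)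
      have h0 := ha.2.1
      rw [Fintype.sum_eq_single l fun i hi => by
        by_contra h'; exact hi (hone i (by simp [h']) l hlT)] at h0
      exact hal h0
    · obtain ⟨x, y, hxy, hT⟩ := card_eq_two.1 (by omega :
        (univ.filter fun i => a i ≠ 0).card = 2)
      have hz : ∀ i, i ≠ x ∧ i ≠ y → a i = 0 := by
        intro i hi
        by_contra h'
        have : i ∈ univ.filter fun i => a i ≠ 0 := by simp [h']
        rw [hT] at this
        simp [hi.1, hi.2] at this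
      have hx : a x ≠ 0 := by
        have : x ∈ univ.filter fun i => a i ≠ 0 := by rw [hT]; simp
        simpa using this
      have h0 := ha.2.1
      rw [Fintype.sum_eq_add x y hxy hz] at h0
      refine hxy (hinj (funext fun j => ?_))
      have hj := ha.2.2 j
      rw [Fintype.sum_eq_add x y hxy fun i hi => by simp [hz i hi]] at hj
      have : a y = -a x := by omega
      rw [this] at hj
      have : a x * (f x j - f y j) = 0 := by linear_combination hj
      exact sub_eq_zero.1 ((mul_eq_zero.1 this).resolve_left hx)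
  by_cases hA2 : (a l).natAbs ≤ m ^ 2
  · left; right
    simp only [relMid, mem_biUnion, Fintype.mem_piFinset, mem_filter, mem_Icc, mem_univ, true_and]
    exact ⟨l, (a l).natAbs, ⟨hA, hA2⟩, a, ⟨fun i => abs_le.1 (habs i), rfl⟩, Fintype.mem_piFinset.1 hfB, ⟨u, hu⟩, ha.2.2⟩
  right
  have hspan := inSpan_of_rel ha hal
  rcases exists_good_divisor (q := m) (A := (a l).natAbs) (by omega)
    (by rw [← pow_two]; omega) with ⟨D, hDA, hDm, hDm2⟩ | ⟨P, hP, hPA, hPm⟩
  · left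
    have : NeZero D := ⟨by omega⟩
    simp only [relDiv, mem_biUnion, Fintype.mem_piFinset, mem_filter, mem_Icc, mem_univ, true_and,
      mem_range]
    have hD0 : ((a l : ℤ) : ZMod D) = 0 := by
      rw [ZMod.intCast_zmod_eq_zero_iff_dvd]
      exact Int.natCast_dvd.2 hDA
    have hc : ∀ i, (((a i : ZMod D).val : ℕ) : ZMod D) = (a i : ZMod D) :=
      fun i => ZMod.natCast_zmod_val _
    refine ⟨l, D, ⟨by omega, by rw [pow_two]; exact hDm2⟩,
      fun i => (a (l.succAbove i) : ZMod D).val, fun i => ZMod.val_lt _, Fintype.mem_piFinset.1 hfB, hspan,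
      ⟨fun i => (u (l.succAbove i) : ZMod D), ?_⟩, fun j => ?_⟩
    · simp only [hc]
      have := congrArg (Int.cast : ℤ → ZMod D) hu
      push_cast at this
      rwa [Fin.sum_univ_succAbove _ l, hD0, mul_zero, zero_add] at this
    · simp only [hc]
      have := congrArg (Int.cast : ℤ → ZMod D) (ha.2.2 j)
      push_cast at this
      rwa [Fin.sum_univ_succAbove _ l, hD0, zero_mul, zero_add] at this
  · right
    have : Fact P.Prime := ⟨hP⟩
    have hal0 : ((a l : ℤ) : ZMod P) = 0 := by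
      rw [ZMod.intCast_zmod_eq_zero_iff_dvd]
      exact Int.natCast_dvd.2 hPA
    obtain ⟨l', hl'⟩ : ∃ i, ((a i : ℤ) : ZMod P) ≠ 0 := by
      by_contra hno
      push Not at hno
      have := congrArg (Int.cast : ℤ → ZMod P) hu
      push_cast at this
      simp [hno] at this
    have hll : l' ≠ l := fun h => hl' (h ▸ hal0)
    simp only [relPrime, mem_biUnion, mem_filter, mem_Icc, mem_univ, true_and]
    refine ⟨l, l', P, ⟨⟨by rw [pow_two]; omega, ?_⟩, hP, hll⟩, hfB, hspan,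
      fun i => (a i : ZMod P), hl', hal0, fun j => ?_⟩
    swap
    · have := congrArg (Int.cast : ℤ → ZMod P) (ha.2.2 j)
      push_cast at this; exact this
    let ι := {i : Fin (s+1) // a i ≠ 0 ∧ i ≠ l}
    have hsumι : ∀ F : Fin (s+1) → ZMod P, (∀ i, ¬ (a i ≠ 0 ∧ i ≠ l) → F i = 0) →
        ∑ i : ι, F i.1 = ∑ i, F i := by
      intro F hF
      rw [← Finset.sum_subtype (univ.filter fun i => a i ≠ 0 ∧ i ≠ l) (by simp) F, sum_filter]
      refine sum_congr rfl fun i _ => ?_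
      by_cases h : a i ≠ 0 ∧ i ≠ l
      · rw [if_pos h]
      · rw [if_neg h, hF i h]
    have hzero : ∀ i, ¬ (a i ≠ 0 ∧ i ≠ l) → (a i : ZMod P) = 0 := by
      intro i hi
      by_cases h : a i = 0
      · simp [h]
      · have : i = l := by by_contra h'; exact hi ⟨h, h'⟩
        rw [this]; exact hal0
    have key := modulus_le_of_dependent (fun i : ι => f i.1) P ((d+1) * R^2 * m^8) ?_ ?_
      (fun i => (a i.1 : ZMod P)) ?_ ?_ ?_
    · refine key.trans ?_
      have hc : Fintype.card ι ≤ s + 1 := (Fintype.card_subtype_le _).trans (by simp)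
      exact Nat.mul_le_mul (Nat.factorial_le hc)
        (Nat.pow_le_pow_right (Nat.succ_le_of_lt (by positivity)) hc)
    · intro i i'
      have hb : ∀ (i : ι) j, |f i.1 j| ≤ (n:ℤ) := fun i j =>
        mem_zbox.1 (hbox _ (Fintype.mem_piFinset.1 hfB i.1)) j
      calc |1 + ∑ j, f i.1 j * f i'.1 j| ≤ 1 + ∑ j, |f i.1 j * f i'.1 j| :=
            (abs_add_le _ _).trans (by rw [abs_one]; exact add_le_add le_rfl (abs_sum_le_sum_abs _ _))
        _ ≤ 1 + ∑ _j : Fin d, (n:ℤ) * n := by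
            refine add_le_add le_rfl (sum_le_sum fun j _ => ?_)
            rw [abs_mul]
            exact mul_le_mul (hb i j) (hb i' j) (abs_nonneg _) (by positivity)
        _ ≤ _ := by
            have h1 : (1:ℤ) ≤ (n:ℤ) * n := by
              have : 0 < n := by positivity
              exact_mod_cast Nat.one_le_iff_ne_zero.2 (by positivity)
            simp only [sum_const, card_univ, Fintype.card_fin, nsmul_eq_mul]
            push_cast [hn] at h1 ⊢
            nlinarith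
    · intro w hw1 hw2
      by_contra hw
      obtain ⟨i0, hi0⟩ := Function.ne_iff.1 hw
      let b : Fin (s+1) → ℤ := fun i => if h : a i ≠ 0 ∧ i ≠ l then w ⟨i, h⟩ else 0
      have hb : ∀ i : ι, b i.1 = w i := fun i => by simp only [b]; rw [dif_pos i.2]
      have hsumZ : ∀ F : Fin (s+1) → ℤ, (∀ i, ¬ (a i ≠ 0 ∧ i ≠ l) → F i = 0) →
          ∑ i : ι, F i.1 = ∑ i, F i := by
        intro F hF
        rw [← Finset.sum_subtype (univ.filter fun i => a i ≠ 0 ∧ i ≠ l) (by simp) F, sum_filter]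
        refine sum_congr rfl fun i _ => ?_
        by_cases h : a i ≠ 0 ∧ i ≠ l
        · rw [if_pos h]
        · rw [if_neg h, hF i h]
      have hb0 : ∀ i, ¬ (a i ≠ 0 ∧ i ≠ l) → b i = 0 := fun i hi => by
        simp only [b]; rw [dif_neg hi]
      refine hmin b ⟨Function.ne_iff.2 ⟨i0.1, by rw [hb]; exact hi0⟩, ?_, fun j => ?_⟩ ?_
      · rw [← hsumZ b hb0]; simpa [hb] using hw1
      · rw [← hsumZ (fun i => b i * f i j) fun i hi => by rw [hb0 i hi, zero_mul]]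
        simpa [hb] using hw2 j
      · rw [Finset.ssubset_iff_of_subset]
        · exact ⟨l, by simp [hal], by simp [hb0 l (by simp)]⟩
        · intro i hi
          simp only [mem_filter, mem_univ, true_and] at hi ⊢
          intro h0
          exact hi (hb0 i (by simp [h0]))
    · refine Function.ne_iff.2 ⟨⟨l', ?_, hll⟩, hl'⟩
      intro h0; exact hl' (by simp [h0])
    · rw [hsumι (fun i => (a i : ZMod P)) hzero]
      have := congrArg (Int.cast : ℤ → ZMod P) ha.2.1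
      push_cast at this; exact this
    · intro j
      rw [hsumι (fun i => (a i : ZMod P) * (f i j : ZMod P))
        fun i hi => by rw [hzero i hi, zero_mul]]
      have := congrArg (Int.cast : ℤ → ZMod P) (ha.2.2 j)
      push_cast at this; exact this

open Classical in
lemma card_relSign {δ : ℝ} (hδ0 : 0 ≤ δ) (hδ : ∀ σ : ℤ, (σ = 1 ∨ σ = -1) → ∀ c : Fin d → ℤ,
      (((B ×ˢ B).filter fun p => σ • (p.1 + p.2) + c ∈ B).card : ℝ) ≤ δ * (B.card : ℝ) ^ 2) :
    ((relSign B s).card : ℝ) ≤ 3 ^ (s+1) * δ * (B.card:ℝ) ^ s := by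
  refine (Nat.cast_le.2 card_biUnion_le).trans ?_
  push_cast
  refine (sum_le_sum fun a ha => card_sign_rel hδ hδ0 a (Fintype.mem_piFinset.1 ha)).trans ?_
  rw [sum_const, nsmul_eq_mul, Fintype.card_piFinset]
  simp [Int.card_Icc]
  ring_nf; exact le_rfl

open Classical in
lemma card_relMid (hds : s + 3 ≤ d) (hres : ∀ A : ℕ, 1 ≤ A → A ≤ m ^ 2 → ∀ r : Fin d → ZMod A,
      ((B.filter fun g => ∀ j, (g j : ZMod A) = r j).card : ℝ) ≤ 2 * B.card / (A:ℝ) ^ d) :
    ((relMid B s m).card : ℝ) ≤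
      (s+1) * 4 * 6 ^ (s+1) * (1/2:ℝ) ^ (d - (s+1)) * (B.card:ℝ) ^ s := by
  refine (Nat.cast_le.2 card_biUnion_le).trans ?_
  push_cast
  have per : ∀ l : Fin (s+1), ((((Icc 2 (m^2)).biUnion fun A =>
    ((Fintype.piFinset fun _ : Fin (s+1) => Icc (-(A:ℤ)) A).filter
      fun a => (a l).natAbs = A).biUnion fun a => (Fintype.piFinset fun _ : Fin (s+1) => B).filter fun f : Fin (s+1) → Fin d → ℤ =>
        (∃ u : Fin (s+1) → ℤ, ∑ i, u i * a i = 1) ∧ ∀ j, ∑ i, a i * f i j = 0).card : ℕ) : ℝ) ≤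
      4 * 6 ^ (s+1) * (1/2:ℝ) ^ (d - (s+1)) * (B.card:ℝ) ^ s := by
    intro l
    refine (Nat.cast_le.2 card_biUnion_le).trans ?_
    push_cast
    calc _ ≤ ∑ A ∈ Icc 2 (m^2),
          (6:ℝ) ^ (s+1) * (B.card:ℝ) ^ s * ((A:ℝ) ^ (d - (s+1)))⁻¹ := by
          refine sum_le_sum fun A hA => ?_
          have hA1 := mem_Icc.1 hA
          have : NeZero A := ⟨by omega⟩
          refine (Nat.cast_le.2 card_biUnion_le).trans ?_
          push_cast
          refine (sum_le_sum fun a ha => card_mid_rel (hres A (by omega) hA1.2) a l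
            (mem_filter.1 ha).2).trans ?_
          rw [sum_const, nsmul_eq_mul]
          have hA' : (2:ℝ) ≤ A := by exact_mod_cast hA1.1
          have hcard : (((Fintype.piFinset fun _ : Fin (s+1) => Icc (-(A:ℤ)) A).filter
              fun a => (a l).natAbs = A).card : ℝ) ≤ (3 * (A:ℝ)) ^ (s+1) := by
            refine (Nat.cast_le.2 (card_filter_le _ _)).trans ?_
            rw [Fintype.card_piFinset, prod_const, card_univ, Fintype.card_fin, Int.card_Icc,
              show ((A:ℤ) + 1 - -(A:ℤ)).toNat = 2 * A + 1 by omega]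
            push_cast
            exact pow_le_pow_left₀ (by positivity) (by linarith) _
          refine (mul_le_mul_of_nonneg_right hcard (by positivity)).trans ?_
          rw [show (A:ℝ) ^ d = (A:ℝ) ^ (s+1) * (A:ℝ) ^ (d - (s+1)) by
            rw [← pow_add]; congr 1; omega]
          have hAp : (A:ℝ) ^ (s+1) ≠ 0 := by positivity
          set t := (A:ℝ) ^ (d - (s+1)) with ht
          have ht0 : 0 < t := by positivity
          calc (3 * (A:ℝ)) ^ (s+1) * ((2 * (B.card:ℝ)) ^ s / ((A:ℝ) ^ (s+1) * t))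
              = 3 ^ (s+1) * 2 ^ s * (B.card:ℝ) ^ s * t⁻¹ := by
                rw [mul_pow, mul_pow]
                field_simp
            _ ≤ 3 ^ (s+1) * 2 ^ (s+1) * (B.card:ℝ) ^ s * t⁻¹ := by
                gcongr
                · norm_num
                · omega
            _ = 6 ^ (s+1) * (B.card:ℝ) ^ s * t⁻¹ := by rw [← mul_pow]; norm_num
      _ = (6:ℝ) ^ (s+1) * (B.card:ℝ) ^ s * ∑ A ∈ Icc 2 (m^2), ((A:ℝ) ^ (d - (s+1)))⁻¹ :=
          (mul_sum _ _ _).symm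
      _ ≤ (6:ℝ) ^ (s+1) * (B.card:ℝ) ^ s * (4 * (1/2:ℝ) ^ (d - (s+1))) :=
          mul_le_mul_of_nonneg_left (sum_inv_pow_le _ _ (by omega)) (by positivity)
      _ = _ := by ring
  refine (sum_le_sum fun l _ => per l).trans_eq ?_
  rw [sum_const, card_univ, Fintype.card_fin, nsmul_eq_mul]; push_cast; ring

open Classical in
lemma card_relDiv_one (hm : 2 ≤ m) (hR : 1 ≤ R) (hbox : ∀ g ∈ B, g ∈ zbox (Fin d) (R * m ^ 4))
    (hres : ∀ A : ℕ, 1 ≤ A → A ≤ m ^ 2 → ∀ r : Fin d → ZMod A,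
      ((B.filter fun g => ∀ j, (g j : ZMod A) = r j).card : ℝ) ≤ 2 * B.card / (A:ℝ) ^ d)
    (l : Fin (s+1)) (D : ℕ) (hD : m + 1 ≤ D) (hD' : D ≤ m ^ 2) :
    ((((Fintype.piFinset fun _ : Fin s => range D).biUnion fun a =>
      (Fintype.piFinset fun _ : Fin (s+1) => B).filter fun f : Fin (s+1) → Fin d → ℤ =>
      InSpan f l ∧ (∃ u : Fin s → ZMod D, ∑ i, u i * (a i : ZMod D) = 1) ∧
      ∀ j, ∑ i, (a i : ZMod D) * (f (l.succAbove i) j : ZMod D) = 0)).card : ℝ) ≤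
      ((m:ℝ)^2) ^ s * ((2 * (B.card:ℝ)) ^ s / (m:ℝ) ^ d) * (3 * R * (m:ℝ)^4) ^ (s+1) := by
  have : NeZero D := ⟨by omega⟩
  have hR' : (1:ℝ) ≤ R := by exact_mod_cast hR
  have hm' : (1:ℝ) ≤ m := by exact_mod_cast le_trans one_le_two hm
  have hn3 : ((2 * (R * m ^ 4) + 1 : ℕ) : ℝ) ≤ 3 * R * (m:ℝ) ^ 4 := by
    have : (1:ℝ) ≤ (R:ℝ) * (m:ℝ)^4 := one_le_mul_of_one_le_of_one_le hR' (one_le_pow₀ hm')
    push_cast; linarith
  have hD2 : (D:ℝ) ≤ (m:ℝ)^2 := by exact_mod_cast hD'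
  have hD3 : (m:ℝ) ≤ D := by
    have : (m:ℕ) ≤ D := by omega
    exact_mod_cast this
  refine (Nat.cast_le.2 card_biUnion_le).trans ?_
  rw [Nat.cast_sum]
  refine (sum_le_sum (g := fun _ => (2 * (B.card:ℝ)) ^ s / (D:ℝ) ^ d *
    ((2 * (R * m ^ 4) + 1 : ℕ) : ℝ) ^ (s + 1)) fun a _ => ?_).trans ?_
  · have key := card_div_rel (n := R * m ^ 4) hbox (hres D (by omega) hD') (by norm_num) l
      (fun i => (a i : ZMod D))
    refine le_trans (le_of_eq ?_) key
    congr 2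
    ext f
    simp only [mem_filter]
  rw [sum_const, Fintype.card_piFinset, prod_const, card_univ, Fintype.card_fin, card_range,
    nsmul_eq_mul, Nat.cast_pow, ← mul_assoc]
  refine mul_le_mul (mul_le_mul (pow_le_pow_left₀ (Nat.cast_nonneg _) hD2 _) ?_ (by positivity)
    (by positivity)) (pow_le_pow_left₀ (Nat.cast_nonneg _) hn3 _) (by positivity) (by positivity)
  exact div_le_div_of_nonneg_left (by positivity) (by positivity)
    (pow_le_pow_left₀ (Nat.cast_nonneg _) hD3 _)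

open Classical in
lemma card_relDiv (hm : 2 ≤ m) (hR : 1 ≤ R) (hbox : ∀ g ∈ B, g ∈ zbox (Fin d) (R * m ^ 4))
    (hres : ∀ A : ℕ, 1 ≤ A → A ≤ m ^ 2 → ∀ r : Fin d → ZMod A,
      ((B.filter fun g => ∀ j, (g j : ZMod A) = r j).card : ℝ) ≤ 2 * B.card / (A:ℝ) ^ d) :
    ((relDiv B s m).card : ℝ) ≤ (s+1) * (m:ℝ)^2 * ((m:ℝ)^2) ^ s *
      ((2 * B.card) ^ s / (m:ℝ) ^ d) * (3 * R * (m:ℝ)^4) ^ (s+1) := by
  set n := R * m ^ 4 with hn
  have hR' : (1:ℝ) ≤ R := by exact_mod_cast hR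
  have hm' : (1:ℝ) ≤ m := by exact_mod_cast le_trans one_le_two hm
  have hn3 : ((2 * n + 1 : ℕ) : ℝ) ≤ 3 * R * (m:ℝ) ^ 4 := by
    have : (1:ℝ) ≤ (R:ℝ) * (m:ℝ)^4 := one_le_mul_of_one_le_of_one_le hR' (one_le_pow₀ hm')
    push_cast [hn]; linarith
  set V := (((m:ℝ)^2) ^ s * ((2 * (B.card:ℝ)) ^ s / (m:ℝ) ^ d) * (3 * R * (m:ℝ)^4) ^ (s+1)) with hV
  have hV0 : 0 ≤ V := by positivity
  refine (Nat.cast_le.2 card_biUnion_le).trans ?_
  push_cast
  have per : ∀ l : Fin (s+1), ((((Icc (m+1) (m^2)).biUnion fun D =>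
    ((Fintype.piFinset fun _ : Fin s => range D).biUnion fun a => (Fintype.piFinset fun _ : Fin (s+1) => B).filter fun f : Fin (s+1) → Fin d → ℤ => InSpan f l ∧
      (∃ u : Fin s → ZMod D, ∑ i, u i * (a i : ZMod D) = 1) ∧
      ∀ j, ∑ i, (a i : ZMod D) * (f (l.succAbove i) j : ZMod D) = 0)).card : ℕ) : ℝ) ≤
        (m:ℝ)^2 * V := by
    intro l
    refine (Nat.cast_le.2 card_biUnion_le).trans ?_
    rw [Nat.cast_sum]
    refine (sum_le_sum fun D hD => card_relDiv_one hm hR hbox hres l D (mem_Icc.1 hD).1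
      (mem_Icc.1 hD).2).trans ?_
    calc ∑ _D ∈ Icc (m+1) (m^2), V
      _ ≤ (m:ℝ)^2 * V := by
          rw [sum_const, nsmul_eq_mul]
          refine mul_le_mul_of_nonneg_right ?_ hV0
          rw [Nat.card_Icc]
          have : ((m^2 + 1 - (m+1) : ℕ) : ℝ) ≤ ((m^2 : ℕ) : ℝ) := by exact_mod_cast (by omega)
          simpa using this
  refine (sum_le_sum fun l _ => per l).trans_eq ?_
  rw [sum_const, card_univ, Fintype.card_fin, nsmul_eq_mul, hV]; push_cast; ring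

open Classical in
lemma card_relPrime_one (hm : 2 ≤ m) (hR : 1 ≤ R) (hbox : ∀ g ∈ B, g ∈ zbox (Fin d) (R * m ^ 4))
    (l l' : Fin (s+1)) (P : ℕ) (hP : P.Prime) (hPm : m ^ 2 < P) (hll : l' ≠ l) :
    (((Fintype.piFinset fun _ : Fin (s+1) => B).filter fun f : Fin (s+1) → Fin d → ℤ =>
        InSpan f l ∧ ∃ a : Fin (s+1) → ZMod P, a l' ≠ 0 ∧ a l = 0 ∧
          ∀ j, ∑ i, a i * (f i j : ZMod P) = 0).card : ℝ)
      ≤ (B.card:ℝ) ^ (s - 1) * ((3 * R * (m:ℝ)^4) ^ (2 * (s+1)) * (3 * R * (m:ℝ)^2) ^ d) := by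
  have : Fact P.Prime := ⟨hP⟩
  have hR' : (1:ℝ) ≤ R := by exact_mod_cast hR
  have hm' : (1:ℝ) ≤ m := by exact_mod_cast le_trans one_le_two hm
  have hn3 : ((2 * (R * m ^ 4) + 1 : ℕ) : ℝ) ≤ 3 * R * (m:ℝ) ^ 4 := by
    have : (1:ℝ) ≤ (R:ℝ) * (m:ℝ)^4 := one_le_mul_of_one_le_of_one_le hR' (one_le_pow₀ hm')
    push_cast; linarith
  have hφ : ((2 * (R * m ^ 4) / P + 1 : ℕ) : ℝ) ≤ 3 * R * (m:ℝ)^2 := by
    have h1 : 2 * (R * m ^ 4) / P ≤ 2 * R * m ^ 2 := by
      refine Nat.div_le_of_le_mul ?_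
      calc 2 * (R * m ^ 4) = (m^2) * (2 * R * m^2) := by ring
        _ ≤ P * (2 * R * m^2) := Nat.mul_le_mul_right _ hPm.le
    have h2 : (1:ℝ) ≤ R * (m:ℝ)^2 := one_le_mul_of_one_le_of_one_le hR' (one_le_pow₀ hm')
    have h3 : ((2 * (R * m ^ 4) / P : ℕ):ℝ) ≤ 2 * R * (m:ℝ)^2 := by exact_mod_cast h1
    push_cast; linarith
  have key := (Nat.cast_le (α := ℝ)).2 (card_prime_rel (n := R * m ^ 4) hbox P l l' hll)
  refine le_trans ?_ (key.trans ?_)
  · refine le_of_eq ?_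
    congr 2
    ext f
    simp only [mem_filter]
  rw [show s + 1 - 2 = s - 1 by omega, Nat.cast_mul, Nat.cast_pow]
  refine mul_le_mul_of_nonneg_left ?_ (by positivity)
  rw [Nat.cast_mul, Nat.cast_mul, Nat.cast_pow, Nat.cast_pow, two_mul (s+1), pow_add ((3:ℝ) * R * (m:ℝ)^4) (s+1) (s+1)]
  have e1 := pow_le_pow_left₀ (Nat.cast_nonneg _) hn3 (s+1)
  have e2 := pow_le_pow_left₀ (Nat.cast_nonneg _) hφ d
  calc _ ≤ (3 * (R:ℝ) * (m:ℝ)^4) ^ (s+1) * (3 * (R:ℝ) * (m:ℝ)^2) ^ d * (3 * (R:ℝ) * (m:ℝ)^4) ^ (s+1) :=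
        mul_le_mul (mul_le_mul e1 e2 (by positivity) (by positivity)) e1 (by positivity)
          (by positivity)
    _ = _ := by ring

open Classical in
lemma card_relPrime (hm : 2 ≤ m) (hR : 1 ≤ R) (hbox : ∀ g ∈ B, g ∈ zbox (Fin d) (R * m ^ 4))
    (Pmax : ℕ) :
    ((relPrime B s m Pmax).card : ℝ) ≤ (s+1) ^ 2 * (Pmax:ℝ)
            * (B.card:ℝ) ^ (s - 1) * ((3 * R * (m:ℝ)^4) ^ (2 * (s+1)) * (3 * R * (m:ℝ)^2) ^ d) := by
  set V := (B.card:ℝ) ^ (s - 1) * ((3 * R * (m:ℝ)^4) ^ (2 * (s+1)) * (3 * R * (m:ℝ)^2) ^ d) with hV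
  have hV0 : 0 ≤ V := by positivity
  refine (Nat.cast_le.2 card_biUnion_le).trans ?_
  rw [Nat.cast_sum]
  refine (sum_le_sum (g := fun _ => ((s+1 : ℕ):ℝ) * ((Pmax:ℝ) * V)) fun l _ => ?_).trans_eq ?_
  · refine (Nat.cast_le.2 card_biUnion_le).trans ?_
    rw [Nat.cast_sum]
    refine (sum_le_sum (g := fun _ => (Pmax:ℝ) * V) fun l' _ => ?_).trans_eq ?_
    · refine (Nat.cast_le.2 card_biUnion_le).trans ?_
      rw [Nat.cast_sum]
      refine (sum_le_sum (g := fun _ => V) fun P hP => ?_).trans ?_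
      · have h1 := mem_filter.1 hP
        exact card_relPrime_one hm hR hbox l l' P h1.2.1 (mem_Icc.1 h1.1).1 h1.2.2
      · rw [sum_const, nsmul_eq_mul]
        refine mul_le_mul_of_nonneg_right (Nat.cast_le.2 ?_) hV0
        refine (card_filter_le _ _).trans ?_
        rw [Nat.card_Icc]; omega
    · rw [sum_const, card_univ, Fintype.card_fin, nsmul_eq_mul]
  · rw [sum_const, card_univ, Fintype.card_fin, nsmul_eq_mul, hV]; push_cast; ring

open Classical in
theorem dep_total {d : ℕ} (B : Finset (Fin d → ℤ)) (s m R : ℕ) (hm : 2 ≤ m) (hR : 1 ≤ R)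
    (hds : s + 3 ≤ d) (hbox : ∀ g ∈ B, g ∈ zbox (Fin d) (R * m ^ 4))
    (hres : ∀ A : ℕ, 1 ≤ A → A ≤ m ^ 2 → ∀ r : Fin d → ZMod A,
      ((B.filter fun g => ∀ j, (g j : ZMod A) = r j).card : ℝ) ≤ 2 * B.card / (A:ℝ) ^ d)
    (δ : ℝ) (hδ0 : 0 ≤ δ) (hδ : ∀ σ : ℤ, (σ = 1 ∨ σ = -1) → ∀ c : Fin d → ℤ,
      (((B ×ˢ B).filter fun p => σ • (p.1 + p.2) + c ∈ B).card : ℝ) ≤ δ * (B.card : ℝ) ^ 2) :
    ((depTuples B (s+1)).card : ℝ) ≤
      (3 ^ (s+1) * δ + (s+1) * 4 * 6 ^ (s+1) * (1/2:ℝ) ^ (d - (s+1))) * (B.card:ℝ) ^ s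
      + ((s+1) * (m:ℝ)^2 * ((m:ℝ)^2) ^ s * ((2 * B.card) ^ s / (m:ℝ) ^ d)
            * (3 * R * (m:ℝ)^4) ^ (s+1)
        + (s+1) ^ 2 * ((s+1).factorial * ((d+1) * (R:ℝ)^2 * (m:ℝ)^8) ^ (s+1))
            * (B.card:ℝ) ^ (s - 1) * ((3 * R * (m:ℝ)^4) ^ (2 * (s+1)) * (3 * R * (m:ℝ)^2) ^ d)) := by
  have hc : ((depTuples B (s+1)).card : ℝ) ≤ (relSign B s).card + (relMid B s m).card +
      ((relDiv B s m).card + (relPrime B s m (primeBound d s m R)).card) := by
    have h := (card_le_card (depTuples_subset (s := s) hm hR hbox)).trans ((card_union_le _ _).trans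
      (Nat.add_le_add (card_union_le _ _) (card_union_le _ _)))
    exact_mod_cast h
  have b1 := card_relSign (s := s) hδ0 hδ
  have b2 := card_relMid (s := s) (m := m) hds hres
  have b3 := card_relDiv (s := s) hm hR hbox hres
  have b4 := card_relPrime (s := s) hm hR hbox (primeBound d s m R)
  have hP : (primeBound d s m R : ℝ) = (s+1).factorial * ((d+1) * (R:ℝ)^2 * (m:ℝ)^8) ^ (s+1) := by
    unfold primeBound; push_cast; rfl
  rw [hP] at b4
  linarith

end Vale.Agent.P230
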