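import Mathlib
import Vale.Agent.P230.DepTotal

/-! A random linear functional modulo a prime covers all but an exponentially small
fraction of residues. -/

namespace Vale.Agent.P230

open Finset

/-- A truncated inclusion–exclusion inequality relative to an independence predicate. -/
lemma bonferroni_indep {β : Type*} [DecidableEq β] (T : Finset β) (G : Finset β → Prop)
    [DecidablePred G] (hG0 : G ∅) (hG : ∀ S S', S ⊆ S' → G S' → G S) {r : ℕ} (hr : Even r) :
    (if T = ∅ then (1:ℝ) else 0) ≤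
      ∑ S ∈ T.powerset.filter (fun S => G S ∧ S.card ≤ r), (-1:ℝ) ^ S.card +
      (((T.powerset ×ˢ T).filter fun q =>
        G q.1 ∧ q.1.card ≤ r ∧ q.2 ∉ q.1 ∧ ¬ G (insert q.2 q.1)).card : ℝ) := by
  rcases T.eq_empty_or_nonempty with rfl | ⟨x, hx⟩
  · rw [if_pos rfl]
    rw [filter_true_of_mem fun S hS => by
      rw [powerset_empty, mem_singleton] at hS; simp [hS, hG0]]
    simp
  rw [if_neg (ne_empty_of_mem hx)]
  set A := T.powerset.filter (fun S => G S ∧ S.card ≤ r) with hA
  set A1 := A.filter fun S => x ∈ S with hA1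
  set A0 := A.filter fun S => x ∉ S with hA0
  have hsplit : ∑ S ∈ A, (-1:ℝ) ^ S.card =
      ∑ S ∈ A1, (-1:ℝ) ^ S.card + ∑ S ∈ A0, (-1:ℝ) ^ S.card :=
    (sum_filter_add_sum_filter_not A _ _).symm
  set Im := A1.image fun S => S.erase x with hIm
  have hinj : Set.InjOn (fun S : Finset β => S.erase x) A1 := by
    intro S hS S' hS' h
    simp only [hA1, coe_filter, Set.mem_ofPred_eq] at hS hS'
    rw [← insert_erase hS.2, ← insert_erase hS'.2]
    exact congrArg _ h
  have hImA0 : Im ⊆ A0 := by
    intro S hS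
    obtain ⟨S', hS', rfl⟩ := mem_image.1 hS
    simp only [hA1, hA0, hA, mem_filter, mem_powerset] at hS' ⊢
    exact ⟨⟨(erase_subset _ _).trans hS'.1.1, hG _ _ (erase_subset _ _) hS'.1.2.1,
      (card_le_card (erase_subset _ _)).trans hS'.1.2.2⟩, by simp⟩
  have hpair : ∑ S ∈ A1, (-1:ℝ) ^ S.card + ∑ S ∈ Im, (-1:ℝ) ^ S.card = 0 := by
    rw [hIm, sum_image hinj, ← sum_add_distrib]
    refine sum_eq_zero fun S hS => ?_
    have hxS : x ∈ S := (mem_filter.1 hS).2
    rw [← card_erase_add_one hxS, pow_succ]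
    ring
  rw [hsplit, ← sum_sdiff hImA0]
  set extra := (A0 \ Im).filter fun S => ¬ G (insert x S)
  have hextra : (extra.card : ℝ) ≤ (((T.powerset ×ˢ T).filter fun q =>
      G q.1 ∧ q.1.card ≤ r ∧ q.2 ∉ q.1 ∧ ¬ G (insert q.2 q.1)).card : ℝ) := by
    refine Nat.cast_le.2 (card_le_card_of_injOn (fun S => (S, x)) ?_ ?_)
    · intro S hS
      simp only [extra, hA0, hA, mem_coe, mem_filter, mem_sdiff, mem_powerset, mem_product]
        at hS ⊢
      exact ⟨⟨hS.1.1.1.1, hx⟩, hS.1.1.1.2.1, hS.1.1.1.2.2, hS.1.1.2, hS.2⟩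
    · intro S _ S' _ h
      exact (Prod.mk.injEq _ _ _ _ ▸ h).1
  have hmain : -(extra.card : ℝ) ≤ ∑ S ∈ A0 \ Im, (-1:ℝ) ^ S.card := by
    rw [card_eq_sum_ones extra, Nat.cast_sum, ← sum_neg_distrib, sum_filter]
    refine sum_le_sum fun S hS => ?_
    rw [mem_sdiff] at hS
    simp only [hA0, hA, mem_filter, mem_powerset] at hS
    by_cases hins : G (insert x S)
    · rw [if_neg (not_not.2 hins)]
      have hr' : S.card = r := by
        by_contra hne
        refine hS.2 (mem_image.2 ⟨insert x S, ?_, erase_insert hS.1.2⟩)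
        simp only [hA1, hA, mem_filter, mem_powerset]
        refine ⟨⟨insert_subset hx hS.1.1.1, hins, ?_⟩, mem_insert_self _ _⟩
        rw [card_insert_of_notMem hS.1.2]
        omega
      rw [hr', hr.neg_one_pow]
      norm_num
    · rw [if_pos hins]
      rcases neg_one_pow_eq_or ℝ S.card with h | h <;> rw [h] <;> norm_num
  linarith

variable {d : ℕ}

/-- Affine independence modulo `p` of a finite set of integer points. -/
def IndepMod (p : ℕ) (S : Finset (Fin d → ℤ)) : Prop :=
  ∀ a : (Fin d → ℤ) → ZMod p, ∑ g ∈ S, a g = 0 →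
    (∀ j, ∑ g ∈ S, a g * (g j : ZMod p) = 0) → ∀ g ∈ S, a g = 0

lemma indepMod_empty (p : ℕ) : IndepMod p (∅ : Finset (Fin d → ℤ)) := by
  intro a _ _ g hg; simp at hg

lemma indepMod_mono {p : ℕ} {S S' : Finset (Fin d → ℤ)} (h : S ⊆ S') (hS' : IndepMod p S') :
    IndepMod p S := by
  classical
  intro a h1 h2 g hg
  have e : ∀ F : (Fin d → ℤ) → ZMod p,
      ∑ g ∈ S', (if g ∈ S then F g else 0) = ∑ g ∈ S, F g := fun F => by
    rw [← sum_filter, filter_mem_eq_inter, inter_eq_right.2 h]
  have h0 : ∑ g ∈ S', (if g ∈ S then a g else 0) = 0 := by rw [e]; exact h1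
  have h3 := hS' (fun g => if g ∈ S then a g else 0) h0 (fun j => ?_) g (h hg)
  · simpa [hg] using h3
  simp_rw [ite_mul, zero_mul]
  rw [e]
  exact h2 j

variable {p : ℕ} [Fact p.Prime]

/-- The pairs `(h, y)` for which the form `h` takes the value `y` at all points of `S`. -/
def fibreAll (p : ℕ) [NeZero p] (S : Finset (Fin d → ℤ)) :
    Finset ((Fin d → ZMod p) × ZMod p) :=
  univ.filter fun q => ∀ g ∈ S, ∑ j, q.1 j * (g j : ZMod p) = q.2

lemma card_fibreAll {S : Finset (Fin d → ℤ)} (hS : IndepMod p S) :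
    (fibreAll p S).card * p ^ S.card = p ^ (d + 1) := by
  classical
  let Φ : ((Fin d → ZMod p) × ZMod p) →ₗ[ZMod p] (S → ZMod p) :=
    { toFun := fun q g => ∑ j, q.1 j * ((g.1 j : ℤ) : ZMod p) - q.2
      map_add' := fun q q' => by funext g; simp [add_mul, sum_add_distrib]; ring
      map_smul' := fun c q => by funext g; simp [mul_sum, mul_sub, mul_assoc] }
  have hΦ : ∀ q g, Φ q g = ∑ j, q.1 j * ((g.1 j : ℤ) : ZMod p) - q.2 := fun _ _ => rfl
  have hsur : Function.Surjective Φ := by
    rw [← LinearMap.dualMap_injective_iff, ← LinearMap.ker_eq_bot, LinearMap.ker_eq_bot']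
    intro φ hφ
    have hval : ∀ v : S → ZMod p, φ v = ∑ g, v g * φ (Pi.single g 1) := by
      intro v
      conv_lhs => rw [pi_eq_sum_univ' v]
      simp [map_sum, Pi.single_apply, eq_comm]
    let a : (Fin d → ℤ) → ZMod p := fun g =>
      if h : g ∈ S then φ (Pi.single ⟨g, h⟩ 1) else 0
    have ha : ∀ g : S, a g.1 = φ (Pi.single g 1) := fun g => by simp [a]
    have hq : ∀ q, φ (Φ q) = 0 := fun q => LinearMap.congr_fun hφ q
    have key := hS a ?_ ?_
    · refine LinearMap.ext fun v => ?_
      rw [hval v, LinearMap.zero_apply]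
      exact sum_eq_zero fun g _ => by rw [← ha g, key g.1 g.2, mul_zero]
    · have := hq (0, 1)
      rw [hval] at this
      simp only [hΦ, Pi.zero_apply, zero_mul, sum_const_zero, zero_sub, neg_mul, one_mul,
        sum_neg_distrib, neg_eq_zero] at this
      rw [← sum_coe_sort S a]
      simpa only [ha] using this
    · intro j
      have := hq (Pi.single j 1, 0)
      rw [hval] at this
      simp only [hΦ, sub_zero, Pi.single_apply, ite_mul, one_mul, zero_mul, sum_ite_eq', mem_univ,
        if_true] at this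
      rw [← sum_coe_sort S fun g => a g * (g j : ZMod p)]
      rw [← this]
      refine sum_congr rfl fun g _ => ?_
      rw [mul_comm, ha g]
  have := AddSubgroup.card_mul_index Φ.toAddMonoidHom.ker
  rw [AddSubgroup.index_ker, AddMonoidHom.range_eq_top.2 hsur, AddSubgroup.card_top] at this
  simp only [Nat.card_eq_fintype_card, Fintype.card_prod, Fintype.card_fun, ZMod.card,
    Fintype.card_coe, Fintype.card_fin] at this
  rw [pow_succ, ← this]
  congr 1
  symm
  refine Fintype.card_of_subtype _ fun q => ?_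
  show q ∈ fibreAll p S ↔ q ∈ Φ.toAddMonoidHom.ker
  simp [fibreAll, AddMonoidHom.mem_ker, funext_iff, hΦ, sub_eq_zero]

open Classical in
/-- The residues not attained by the form `h` on `B`. -/
noncomputable def uncovered (B : Finset (Fin d → ℤ)) (h : Fin d → ZMod p) : Finset (ZMod p) :=
  univ.filter fun y => (B.filter fun g => ∑ j, h j * ((g j : ℤ) : ZMod p) = y) = ∅

lemma mem_uncovered {B : Finset (Fin d → ℤ)} {h : Fin d → ZMod p} {y : ZMod p} :
    y ∈ uncovered B h ↔ ∀ g ∈ B, ∑ j, h j * ((g j : ℤ) : ZMod p) ≠ y := by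
  classical
  simp [uncovered, filter_eq_empty_iff]

/-- Injective tuples dependent modulo `p` are dependent over the integers. -/
lemma mem_depTuples_of_dependent {B : Finset (Fin d → ℤ)} {n : ℕ}
    (hbox : ∀ g ∈ B, g ∈ zbox (Fin d) n) (s : ℕ)
    (hp : s.factorial * ((d + 1) * (n + 1) ^ 2) ^ s < p) (f : Fin s → Fin d → ℤ)
    (hfB : ∀ i, f i ∈ B) (hf : Function.Injective f)
    (hdep : ¬ IndepMod p (univ.image f)) : f ∈ depTuples B s := by
  classical
  simp only [depTuples, mem_filter, Fintype.mem_piFinset]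
  refine ⟨hfB, hf, ?_⟩
  by_contra hno
  unfold IndepMod at hdep
  push Not at hdep
  obtain ⟨a, h1, h2, g, hg, hga⟩ := hdep
  rw [sum_image fun x _ y _ h => hf h] at h1
  obtain ⟨i0, -, rfl⟩ := mem_image.1 hg
  have key := modulus_le_of_dependent f p ((d + 1) * (n + 1) ^ 2) ?_ ?_ (fun i => a (f i))
    (Function.ne_iff.2 ⟨i0, hga⟩) h1 (fun j => ?_)
  · rw [Fintype.card_fin] at key
    omega
  · intro i i'
    have hb : ∀ i j, |f i j| ≤ (n:ℤ) := fun i j => mem_zbox.1 (hbox _ (hfB i)) j
    calc |1 + ∑ j, f i j * f i' j| ≤ 1 + ∑ j, |f i j * f i' j| :=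
          (abs_add_le _ _).trans (by rw [abs_one]; exact add_le_add le_rfl (abs_sum_le_sum_abs _ _))
      _ ≤ 1 + ∑ _j : Fin d, (n:ℤ) * n := by
          refine add_le_add le_rfl (sum_le_sum fun j _ => ?_)
          rw [abs_mul]
          exact mul_le_mul (hb i j) (hb i' j) (abs_nonneg _) (by positivity)
      _ ≤ _ := by
          simp only [sum_const, card_univ, Fintype.card_fin, nsmul_eq_mul]
          push_cast
          have hd : (0:ℤ) ≤ d := by positivity
          have hn : (0:ℤ) ≤ n := by positivity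
          nlinarith
  · intro w hw1 hw2
    by_contra hw
    exact hno ⟨w, hw, hw1, hw2⟩
  · have := h2 j
    rwa [sum_image fun x _ y _ h => hf h] at this

open Classical in
lemma card_dep_subsets {B : Finset (Fin d → ℤ)} {n : ℕ}
    (hbox : ∀ g ∈ B, g ∈ zbox (Fin d) n) (s : ℕ)
    (hp : s.factorial * ((d + 1) * (n + 1) ^ 2) ^ s < p) :
    ((B.powersetCard s).filter fun S => ¬ IndepMod p S).card * s.factorial ≤
      (depTuples B s).card := by
  set P := (B.powersetCard s).filter fun S => ¬ IndepMod p S with hP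
  have hc : ∀ S ∈ P, Fintype.card (Fin s ≃ S) = s.factorial := fun S hS => by
    have h1 := (mem_powersetCard.1 (mem_filter.1 hS).1).2
    rw [Fintype.card_equiv (Fintype.equivOfCardEq (by simp [h1])), Fintype.card_fin]
  calc P.card * s.factorial = (P.sigma fun S => (univ : Finset (Fin s ≃ S))).card := by
        rw [card_sigma, sum_congr rfl fun S hS => by rw [card_univ, hc S hS], sum_const,
          smul_eq_mul]
    _ ≤ _ := by
        refine card_le_card_of_injOn (fun q => fun i => (q.2 i : Fin d → ℤ)) ?_ ?_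
        · intro q hq
          rw [mem_coe, mem_sigma] at hq
          have h1 := mem_powersetCard.1 (mem_filter.1 hq.1).1
          have himg : univ.image (fun i => (q.2 i : Fin d → ℤ)) = q.1 := by
            ext g
            simp only [mem_image, mem_univ, true_and]
            exact ⟨fun ⟨i, hi⟩ => hi ▸ (q.2 i).2, fun hg => ⟨q.2.symm ⟨g, hg⟩, by simp⟩⟩
          refine mem_depTuples_of_dependent hbox s hp _ (fun i => h1.1 (q.2 i).2)
            (fun i i' h => q.2.injective (Subtype.ext h)) ?_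
          rw [himg]
          exact (mem_filter.1 hq.1).2
        · rintro ⟨S, e⟩ hS ⟨S', e'⟩ hS' h
          have hSS : S = S' := by
            ext g
            constructor
            · intro hg
              have := congrFun h (e.symm ⟨g, hg⟩)
              simp only [Equiv.apply_symm_apply] at this
              rw [this]; exact (e' _).2
            · intro hg
              have := congrFun h (e'.symm ⟨g, hg⟩)
              simp only [Equiv.apply_symm_apply] at this
              rw [← this]; exact (e _).2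
          subst hSS
          have : e = e' := Equiv.ext fun i => Subtype.ext (congrFun h i)
          rw [this]

open Classical in
lemma card_extensions {B : Finset (Fin d → ℤ)} {n : ℕ}
    (hbox : ∀ g ∈ B, g ∈ zbox (Fin d) n) (s : ℕ)
    (hp : (s+1).factorial * ((d + 1) * (n + 1) ^ 2) ^ (s+1) < p) :
    ((B.powersetCard s ×ˢ B).filter fun q => q.2 ∉ q.1 ∧ ¬ IndepMod p (insert q.2 q.1)).card
      * s.factorial ≤ (depTuples B (s+1)).card := by
  set P := (B.powersetCard s ×ˢ B).filter fun q => q.2 ∉ q.1 ∧ ¬ IndepMod p (insert q.2 q.1)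
  have hc : ∀ q ∈ P, Fintype.card (Fin s ≃ q.1) = s.factorial := fun q hq => by
    have h1 := (mem_powersetCard.1 (mem_product.1 (mem_filter.1 hq).1).1).2
    rw [Fintype.card_equiv (Fintype.equivOfCardEq (by simp [h1])), Fintype.card_fin]
  calc P.card * s.factorial = (P.sigma fun q => (univ : Finset (Fin s ≃ q.1))).card := by
        rw [card_sigma, sum_congr rfl fun q hq => by rw [card_univ, hc q hq], sum_const,
          smul_eq_mul]
    _ ≤ _ := by
        refine card_le_card_of_injOn
          (fun q => (Fin.snoc (fun i => (q.2 i : Fin d → ℤ)) q.1.2 : Fin (s+1) → Fin d → ℤ)) ?_ ?_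
        · intro q hq
          rw [mem_coe, mem_sigma] at hq
          have hq1 := mem_filter.1 hq.1
          have h1 := mem_powersetCard.1 (mem_product.1 hq1.1).1
          have himg : univ.image (Fin.snoc (fun i => (q.2 i : Fin d → ℤ)) q.1.2 :
              Fin (s+1) → Fin d → ℤ) = insert q.1.2 q.1.1 := by
            ext g
            simp only [mem_image, mem_univ, true_and, mem_insert]
            constructor
            · rintro ⟨i, rfl⟩
              refine Fin.lastCases ?_ (fun i => ?_) i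
              · simp
              · simp
            · rintro (rfl | hg)
              · exact ⟨Fin.last s, by simp⟩
              · exact ⟨(q.2.symm ⟨g, hg⟩).castSucc, by simp⟩
          refine mem_depTuples_of_dependent hbox (s+1) hp _ ?_ ?_ ?_
          · intro i
            refine Fin.lastCases ?_ (fun i => ?_) i
            · simpa using (mem_product.1 hq1.1).2
            · simpa using h1.1 (q.2 i).2
          · rw [Fin.snoc_injective_iff]
            refine ⟨fun i i' h => q.2.injective (Subtype.ext h), ?_⟩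
            rintro ⟨i, hi⟩
            exact hq1.2.1 (hi ▸ (q.2 i).2)
          · rw [himg]
            exact hq1.2.2
        · rintro ⟨⟨S, b⟩, e⟩ hS ⟨⟨S', b'⟩, e'⟩ hS' h
          have hb : b = b' := by simpa using congrFun h (Fin.last s)
          have hi : ∀ i, (e i : Fin d → ℤ) = (e' i : Fin d → ℤ) := fun i => by
            simpa using congrFun h i.castSucc
          subst hb
          have hSS : S = S' := by
            ext g
            constructor
            · intro hg
              have := hi (e.symm ⟨g, hg⟩)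
              simp only [Equiv.apply_symm_apply] at this
              rw [this]; exact (e' _).2
            · intro hg
              have := hi (e'.symm ⟨g, hg⟩)
              simp only [Equiv.apply_symm_apply] at this
              rw [← this]; exact (e _).2
          subst hSS
          have : e = e' := Equiv.ext fun i => Subtype.ext (hi i)
          rw [this]

lemma alternating_choose_le (N r : ℕ) {q : ℝ} (hq0 : 0 ≤ q) (hq1 : q ≤ 1) :
    ∑ i ∈ range (r+1), (-1:ℝ) ^ i * (N.choose i) * q ^ i ≤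
      Real.exp (-(N * q)) + (1/2:ℝ) ^ r * Real.exp (2 * (N * q)) := by
  set μ := (N:ℝ) * q with hμ
  have hμ0 : 0 ≤ μ := by positivity
  set M := max (N+1) (r+1) with hM
  have hfull : ∑ i ∈ range M, (-1:ℝ) ^ i * (N.choose i) * q ^ i = (1 - q) ^ N := by
    rw [show (1:ℝ) - q = -q + 1 by ring, add_pow,
      ← sum_subset (range_mono (le_max_left (N+1) (r+1))) fun i _ hi => by
        rw [mem_range] at hi; rw [Nat.choose_eq_zero_of_lt (by omega)]; simp]
    refine sum_congr rfl fun i _ => ?_
    rw [one_pow, mul_one, neg_pow]; ring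
  have hterm : ∀ i, (N.choose i : ℝ) * q ^ i ≤ μ ^ i / (i.factorial) := by
    intro i
    rw [hμ, mul_pow, mul_div_right_comm]
    exact mul_le_mul_of_nonneg_right (Nat.choose_le_pow_div i N) (by positivity)
  have hsplit := sum_range_add_sum_Ico (fun i => (-1:ℝ) ^ i * (N.choose i) * q ^ i)
    (le_max_right (N+1) (r+1))
  rw [← hM, hfull] at hsplit
  have htail : -∑ i ∈ Ico (r+1) M, (-1:ℝ) ^ i * (N.choose i) * q ^ i ≤
      (1/2:ℝ) ^ r * Real.exp (2 * μ) := by
    calc _ ≤ ∑ i ∈ Ico (r+1) M, (1/2:ℝ) ^ r * ((2*μ) ^ i / (i.factorial)) := by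
          rw [← sum_neg_distrib]
          refine sum_le_sum fun i hi => ?_
          have hi' := (mem_Ico.1 hi).1
          refine le_trans ?_ (le_trans (hterm i) ?_)
          · rcases neg_one_pow_eq_or ℝ i with h | h <;> rw [h] <;>
              nlinarith [show 0 ≤ (N.choose i : ℝ) * q ^ i by positivity]
          · rw [mul_pow 2 μ i, show (1/2:ℝ) ^ r * (2 ^ i * μ ^ i / (i.factorial)) =
                ((1/2:ℝ) ^ r * 2 ^ i) * (μ ^ i / (i.factorial)) by ring]
            refine le_mul_of_one_le_left (by positivity) ?_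
            obtain ⟨u, rfl⟩ := Nat.exists_eq_add_of_le (show r ≤ i by omega)
            rw [pow_add, ← mul_assoc, ← mul_pow]
            norm_num
            exact one_le_pow₀ (by norm_num)
      _ = (1/2:ℝ) ^ r * ∑ i ∈ Ico (r+1) M, (2*μ) ^ i / (i.factorial) := (mul_sum _ _ _).symm
      _ ≤ _ := by
          refine mul_le_mul_of_nonneg_left ?_ (by positivity)
          refine le_trans ?_ (Real.sum_le_exp_of_nonneg (by positivity) M)
          exact sum_le_sum_of_subset_of_nonneg (fun i hi => mem_range.2 (mem_Ico.1 hi).2)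
            fun i _ _ => by positivity
  have hexp : (1 - q) ^ N ≤ Real.exp (-μ) := by
    rw [show -μ = (N:ℝ) * (-q) by rw [hμ]; ring, Real.exp_nat_mul]
    exact pow_le_pow_left₀ (by linarith) (by linarith [Real.add_one_le_exp (-q)]) N
  linarith

open Classical in
/-- The average number of uncovered residues. -/
theorem stage1_bound {B : Finset (Fin d → ℤ)} {n r : ℕ} (hr : Even r)
    (hbox : ∀ g ∈ B, g ∈ zbox (Fin d) n)
    (hp : (r+1).factorial * ((d + 1) * (n + 1) ^ 2) ^ (r+1) < p)
    {δ : ℝ} (hδ : ∀ s ≤ r, ((depTuples B (s+1)).card : ℝ) ≤ δ * (B.card : ℝ) ^ s)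
    (hB : 1 ≤ B.card) :
    (∑ h : Fin d → ZMod p, ((uncovered B h).card : ℝ)) ≤ (p:ℝ) ^ (d+1) *
      (Real.exp (-((B.card:ℝ) / p)) + (1/2:ℝ) ^ r * Real.exp (2 * ((B.card:ℝ) / p))
        + 2 * δ * Real.exp ((B.card:ℝ) / p)) := by
  set N := B.card with hN
  set μ := (N:ℝ) / p with hμ
  have hppos : (0:ℝ) < p := by exact_mod_cast (Fact.out : p.Prime).pos
  have hp' : ∀ s ≤ r + 1, s.factorial * ((d + 1) * (n + 1) ^ 2) ^ s < p := fun s hs =>
    lt_of_le_of_lt (Nat.mul_le_mul (Nat.factorial_le hs)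
      (Nat.pow_le_pow_right (Nat.succ_le_of_lt (by positivity)) hs)) hp
  have hδ0 : 0 ≤ δ := by
    have := hδ 0 (Nat.zero_le _)
    simp only [pow_zero, mul_one] at this
    exact le_trans (Nat.cast_nonneg _) this
  let T : (Fin d → ZMod p) × ZMod p → Finset (Fin d → ℤ) := fun q =>
    B.filter fun g => ∑ j, q.1 j * ((g j : ℤ) : ZMod p) = q.2
  have hTsub : ∀ q (S : Finset (Fin d → ℤ)), S ⊆ T q ↔ S ⊆ B ∧ q ∈ fibreAll p S := by
    intro q S
    simp only [T, fibreAll, mem_filter, mem_univ, true_and, subset_iff]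
    exact ⟨fun h => ⟨fun g hg => (h hg).1, fun g hg => (h hg).2⟩,
      fun h g hg => ⟨h.1 hg, h.2 g hg⟩⟩
  have e1 : (∑ h : Fin d → ZMod p, ((uncovered B h).card : ℝ)) =
      ∑ q : (Fin d → ZMod p) × ZMod p, (if T q = ∅ then (1:ℝ) else 0) := by
    rw [Fintype.sum_prod_type]
    refine sum_congr rfl fun h _ => ?_
    rw [sum_boole]
    congr 2
  rw [e1]
  refine le_trans (sum_le_sum fun q _ =>
    bonferroni_indep (T q) (IndepMod p) (indepMod_empty p) (fun S S' => indepMod_mono) hr) ?_
  rw [sum_add_distrib]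
  -- main term
  have hcard : ∀ S : Finset (Fin d → ℤ), IndepMod p S →
      ((fibreAll p S).card : ℝ) = (p:ℝ) ^ (d+1) / (p:ℝ) ^ S.card := fun S hS => by
    rw [eq_div_iff (by positivity)]
    exact_mod_cast card_fibreAll hS
  set Ind : ℕ → Finset (Finset (Fin d → ℤ)) := fun i =>
    (B.powersetCard i).filter fun S => IndepMod p S with hInd
  have main : ∑ q : (Fin d → ZMod p) × ZMod p,
      ∑ S ∈ (T q).powerset.filter (fun S => IndepMod p S ∧ S.card ≤ r), (-1:ℝ) ^ S.card =
      ∑ i ∈ range (r+1), (-1:ℝ) ^ i * (Ind i).card * ((p:ℝ) ^ (d+1) / (p:ℝ) ^ i) := by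
    rw [sum_comm' (t' := B.powerset.filter fun S => IndepMod p S ∧ S.card ≤ r)
      (s' := fun S => fibreAll p S)]
    swap
    · intro q S
      simp only [mem_univ, true_and, mem_filter, mem_powerset]
      rw [hTsub]
      tauto
    have hmaps : ∀ S ∈ B.powerset.filter (fun S => IndepMod p S ∧ S.card ≤ r),
        S.card ∈ range (r+1) := fun S hS => by
      simp only [mem_filter] at hS; exact mem_range.2 (by omega)
    rw [← sum_fiberwise_of_maps_to hmaps]
    refine sum_congr rfl fun i hi => ?_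
    have eI : (B.powerset.filter fun S => IndepMod p S ∧ S.card ≤ r).filter (fun S => S.card = i)
        = Ind i := by
      ext S
      simp only [hInd, mem_filter, mem_powerset, mem_powersetCard]
      have := mem_range.1 hi
      constructor
      · tauto
      · rintro ⟨⟨h1, h2⟩, h3⟩; exact ⟨⟨h1, h3, by omega⟩, h2⟩
    rw [eI]
    calc ∑ S ∈ Ind i, ∑ q ∈ fibreAll p S, (-1:ℝ) ^ S.card
        = ∑ _S ∈ Ind i, (-1:ℝ) ^ i * ((p:ℝ) ^ (d+1) / (p:ℝ) ^ i) := by
          refine sum_congr rfl fun S hS => ?_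
          simp only [hInd, mem_filter, mem_powersetCard] at hS
          rw [sum_const, nsmul_eq_mul, hcard S hS.2, hS.1.2]; ring
      _ = _ := by rw [sum_const, nsmul_eq_mul]; ring
  -- extension term
  set Ext : ℕ → Finset (Finset (Fin d → ℤ) × (Fin d → ℤ)) := fun i =>
    (B.powersetCard i ×ˢ B).filter fun q => q.2 ∉ q.1 ∧ ¬ IndepMod p (insert q.2 q.1) with hExt
  have ext : (∑ q : (Fin d → ZMod p) × ZMod p, ((((T q).powerset ×ˢ T q).filter fun z =>
      IndepMod p z.1 ∧ z.1.card ≤ r ∧ z.2 ∉ z.1 ∧ ¬ IndepMod p (insert z.2 z.1)).card : ℝ)) ≤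
      ∑ i ∈ range (r+1), ((Ext i).card : ℝ) * ((p:ℝ) ^ (d+1) / (p:ℝ) ^ i) := by
    have hone : ∀ (F : Finset (Finset (Fin d → ℤ) × (Fin d → ℤ))),
        (F.card : ℝ) = ∑ _z ∈ F, (1:ℝ) := fun F => by simp
    rw [sum_congr rfl fun q _ => hone (((T q).powerset ×ˢ T q).filter fun z =>
      IndepMod p z.1 ∧ z.1.card ≤ r ∧ z.2 ∉ z.1 ∧ ¬ IndepMod p (insert z.2 z.1))]
    rw [sum_comm' (t' := (B.powerset ×ˢ B).filter fun z =>
        IndepMod p z.1 ∧ z.1.card ≤ r ∧ z.2 ∉ z.1 ∧ ¬ IndepMod p (insert z.2 z.1))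
      (s' := fun z => (univ.filter fun q => z.1 ⊆ T q ∧ z.2 ∈ T q))]
    swap
    · intro q z
      simp only [mem_univ, true_and, mem_filter, mem_product, mem_powerset]
      constructor
      · intro h
        exact ⟨⟨h.1.1, h.1.2⟩, ⟨h.1.1.trans (filter_subset _ _),
          (mem_filter.1 h.1.2).1⟩, h.2⟩
      · intro h; exact ⟨h.1, h.2.2⟩
    have hmaps : ∀ z ∈ (B.powerset ×ˢ B).filter (fun z => IndepMod p z.1 ∧ z.1.card ≤ r ∧
        z.2 ∉ z.1 ∧ ¬ IndepMod p (insert z.2 z.1)), z.1.card ∈ range (r+1) := fun z hz => by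
      simp only [mem_filter] at hz; exact mem_range.2 (by omega)
    rw [← sum_fiberwise_of_maps_to hmaps]
    refine sum_le_sum fun i hi => ?_
    rw [hone (Ext i), sum_mul]
    simp only [one_mul]
    refine le_trans (sum_le_sum (g := fun _ => (p:ℝ) ^ (d+1) / (p:ℝ) ^ i) fun z hz => ?_)
      (sum_le_sum_of_subset_of_nonneg ?_ fun _ _ _ => by positivity)
    · simp only [mem_filter] at hz
      rw [sum_const, nsmul_one, ← hz.2, ← hcard z.1 hz.1.2.1]
      refine Nat.cast_le.2 (card_le_card fun q hq => ?_)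
      exact ((hTsub q z.1).1 (mem_filter.1 hq).2.1).2
    · intro z hz
      simp only [mem_filter, mem_product, mem_powerset] at hz
      simp only [hExt, mem_filter, mem_product, mem_powersetCard]
      exact ⟨⟨⟨hz.1.1.1, hz.2⟩, hz.1.1.2⟩, hz.1.2.2.2⟩
  -- bounds on the counts
  have hpq : ∀ i, (N:ℝ) ^ i / (p:ℝ) ^ i = μ ^ i := fun i => by rw [hμ, div_pow]
  have hIle : ∀ i, ((Ind i).card : ℝ) ≤ N.choose i := fun i => by
    have := card_filter_le (B.powersetCard i) fun S => IndepMod p S
    rw [card_powersetCard] at this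
    exact Nat.cast_le.2 this
  have hIge : ∀ i ≤ r, (N.choose i : ℝ) - δ * (N:ℝ) ^ i / (i.factorial) ≤ (Ind i).card := by
    intro i hi
    have h1 := card_filter_add_card_filter_not (s := B.powersetCard i) (fun S => IndepMod p S)
    rw [card_powersetCard] at h1
    have h2 : (((B.powersetCard i).filter fun S => ¬ IndepMod p S).card : ℝ) ≤
        δ * (N:ℝ) ^ i / (i.factorial) := by
      rw [le_div_iff₀ (by exact_mod_cast Nat.factorial_pos i)]
      refine le_trans (b := ((depTuples B i).card : ℝ)) (by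
        exact_mod_cast card_dep_subsets hbox i (hp' i (by omega))) ?_
      rcases Nat.eq_zero_or_pos i with rfl | hi0
      · have : depTuples B 0 = ∅ := by
          simp only [depTuples, filter_eq_empty_iff]
          rintro f - ⟨-, a, ha, -⟩
          exact ha (Subsingleton.elim _ _)
        simp [this, hδ0]
      · obtain ⟨s, rfl⟩ := Nat.exists_eq_add_of_le (show 1 ≤ i from hi0)
        rw [Nat.add_comm 1 s] at hi ⊢
        refine (hδ s (by omega)).trans (mul_le_mul_of_nonneg_left ?_ hδ0)
        exact pow_le_pow_right₀ (by exact_mod_cast hB) (Nat.le_succ s)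
    have h1' : ((Ind i).card : ℝ) + (((B.powersetCard i).filter fun S => ¬ IndepMod p S).card : ℝ)
        = N.choose i := by
      rw [hN]; exact_mod_cast h1
    linarith
  have hExtle : ∀ i ≤ r, ((Ext i).card : ℝ) ≤ δ * (N:ℝ) ^ i / (i.factorial) := by
    intro i hi
    rw [le_div_iff₀ (by exact_mod_cast Nat.factorial_pos i)]
    exact le_trans (by exact_mod_cast card_extensions hbox i (hp' (i+1) (by omega))) (hδ i hi)
  rw [main]
  refine le_trans (add_le_add le_rfl ext) ?_
  have hper : ∀ i ∈ range (r+1),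
      (-1:ℝ) ^ i * (Ind i).card * ((p:ℝ) ^ (d+1) / (p:ℝ) ^ i)
        + ((Ext i).card : ℝ) * ((p:ℝ) ^ (d+1) / (p:ℝ) ^ i)
      ≤ (p:ℝ) ^ (d+1) * ((-1:ℝ) ^ i * (N.choose i) * (1/(p:ℝ)) ^ i
          + 2 * δ * (μ ^ i / (i.factorial))) := by
    intro i hi
    have hi' : i ≤ r := Nat.le_of_lt_succ (mem_range.1 hi)
    have hnn : 0 ≤ (p:ℝ) ^ (d+1) / (p:ℝ) ^ i := by positivity
    have hb : (-1:ℝ) ^ i * (Ind i).card + ((Ext i).card : ℝ) ≤
        (-1:ℝ) ^ i * (N.choose i) + 2 * (δ * (N:ℝ) ^ i / (i.factorial)) := by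
      have a1 := hIle i
      have a2 := hIge i hi'
      have a3 := hExtle i hi'
      rcases neg_one_pow_eq_or ℝ i with h | h <;> rw [h] <;>
        linarith [show 0 ≤ ((Ext i).card : ℝ) from Nat.cast_nonneg _]
    have := mul_le_mul_of_nonneg_right hb hnn
    rw [← hpq i]
    calc (-1:ℝ) ^ i * (Ind i).card * ((p:ℝ) ^ (d+1) / (p:ℝ) ^ i)
          + ((Ext i).card : ℝ) * ((p:ℝ) ^ (d+1) / (p:ℝ) ^ i)
        = ((-1:ℝ) ^ i * (Ind i).card + ((Ext i).card : ℝ)) * ((p:ℝ) ^ (d+1) / (p:ℝ) ^ i) := by ring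
      _ ≤ ((-1:ℝ) ^ i * (N.choose i) + 2 * (δ * (N:ℝ) ^ i / (i.factorial)))
          * ((p:ℝ) ^ (d+1) / (p:ℝ) ^ i) := this
      _ = _ := by rw [div_pow, one_pow]; ring
  rw [← sum_add_distrib]
  refine (sum_le_sum hper).trans ?_
  rw [← mul_sum, sum_add_distrib, ← mul_sum]
  refine mul_le_mul_of_nonneg_left (add_le_add ?_ ?_) (by positivity)
  · refine (alternating_choose_le N r (by positivity) ?_).trans_eq ?_
    · rw [div_le_one hppos]; exact_mod_cast (Fact.out : p.Prime).one_lt.le
    · rw [mul_one_div]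
  · exact mul_le_mul_of_nonneg_left (Real.sum_le_exp_of_nonneg (by positivity) _) (by linarith)

end Vale.Agent.P230
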