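import Mathlib
import Vale.Agent.P230.Stage1
import Vale.Agent.P230.Grid

/-! Asymptotic form of the first stage: a random lattice of density linear in the dimension
leaves an exponentially small proportion uncovered. -/

namespace Vale.Agent.P230

open Finset Filter MeasureTheory Topology

lemma depTuples_one {d : ℕ} (B : Finset (Fin d → ℤ)) : depTuples B (0+1) = ∅ := by
  classical
  simp only [depTuples, filter_eq_empty_iff]
  rintro f - ⟨-, a, ha0, hsum, -⟩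
  refine ha0 (funext fun i => ?_)
  rw [Fin.sum_univ_one] at hsum
  rw [Fin.fin_one_eq_zero i]
  exact hsum

/-- The combined constant of the two relation families. -/
noncomputable def etaC : ℝ := -Real.log (max cY (1/2))

lemma etaC_pos : 0 < etaC := by
  unfold etaC
  have := Real.log_neg (lt_of_lt_of_le (by norm_num) (le_max_right cY (1/2)))
    (max_lt cY_lt_one (by norm_num))
  linarith

lemma etaC_lt : etaC < 7/10 := by
  unfold etaC
  have h := Real.log_le_log (by norm_num : (0:ℝ) < 1/2) (le_max_right cY (1/2))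
  rw [one_div, Real.log_inv] at h
  have := Real.log_two_lt_d9
  simp only [one_div]
  linarith

lemma pow_max_eq (d : ℕ) : (max cY (1/2)) ^ d = Real.exp (-(etaC * d)) := by
  have h0 : (0:ℝ) < max cY (1/2) := lt_of_lt_of_le (by norm_num) (le_max_right cY (1/2))
  rw [etaC, show -(-Real.log (max cY (1/2)) * d) = (d:ℝ) * Real.log (max cY (1/2)) by ring,
    Real.exp_nat_mul, Real.exp_log h0]

open Classical in
theorem dep_eventually {d : ℕ} {S : Set (Fin d → ℝ)} (hc : Convex ℝ S) (hS : IsCompact S)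
    (hpos : 0 < volume.real S) {R : ℕ} (hR : 1 ≤ R) (hSR : S ⊆ Metric.closedBall 0 R)
    {r : ℕ} (hr1 : (r:ℝ) + 1 ≤ etaC * d / 8) (hr2 : 10 * (r + 1) ≤ d) :
    ∀ᶠ m : ℕ in atTop, ∀ s ≤ r, ((depTuples (gridPts R (m^4) S) (s+1)).card : ℝ) ≤
      9 * Real.exp (-(etaC * d) / 2) * ((gridPts R (m^4) S).card : ℝ) ^ s := by
  set V := volume.real S with hV
  set E := Real.exp (-(etaC * d) / 2) with hE
  have hE0 : 0 < E := Real.exp_pos _
  let K : ℕ → ℝ := fun s => ((s:ℝ)+1) * (2:ℝ) ^ s * (3 * (R:ℝ)) ^ (s+1) +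
    ((s:ℝ)+1) ^ 2 * ((s+1).factorial * ((d+1) * (R:ℝ)^2) ^ (s+1)) *
      (3 * (R:ℝ)) ^ (2*(s+1)) * (3 * (R:ℝ)) ^ d * (4/5 * V)⁻¹
  suffices h : ∀ s ∈ range (r+1), ∀ᶠ m : ℕ in atTop,
      ((depTuples (gridPts R (m^4) S) (s+1)).card : ℝ) ≤
        9 * E * ((gridPts R (m^4) S).card : ℝ) ^ s by
    filter_upwards [(eventually_all_finset (range (r+1))).2 h] with m hm s hs
    exact hm s (mem_range.2 (by omega))
  intro s hs
  have hs' : s ≤ r := Nat.le_of_lt_succ (mem_range.1 hs)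
  rcases Nat.eq_zero_or_pos s with rfl | hs0
  · refine Eventually.of_forall fun m => ?_
    rw [depTuples_one]
    simp
    positivity
  have hlim : Tendsto (fun m : ℕ => K s * ((1:ℝ) / m)) atTop (𝓝 0) := by
    simpa using (tendsto_one_div_atTop_nhds_zero_nat (𝕜 := ℝ)).const_mul (K s)
  filter_upwards [grid_facts hc hS hpos hSR, eventually_ge_atTop 2,
    hlim.eventually (eventually_le_nhds hE0)] with m ⟨hlo, _, hres, hpair⟩ hm2 hK
  set B := gridPts R (m^4) S with hB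
  have hm1 : (1:ℝ) ≤ m := by exact_mod_cast le_trans one_le_two hm2
  have hN : 0 < (B.card : ℝ) := lt_of_lt_of_le (by positivity) hlo
  have key := dep_total B s m R hm2 hR (by omega) gridPts_subset_zbox
    hres (3 * cY ^ d) (mul_nonneg (by norm_num) (pow_nonneg cY_pos.le d))
    (fun σ hσ c => (hpair σ hσ c).trans_eq (by ring))
  refine key.trans ?_
  -- main part
  set g := max cY (1/2 : ℝ) with hg
  have hg0 : 0 < g := lt_of_lt_of_le (by norm_num) (le_max_right cY (1/2))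
  have hmain : 3 ^ (s+1) * (3 * cY ^ d) + ((s:ℝ)+1) * 4 * 6 ^ (s+1) * (1/2:ℝ) ^ (d - (s+1)) ≤
      8 * E := by
    have h24 : (24:ℝ) ^ (s+1) * g ^ d ≤ E := by
      have h1 : (24:ℝ) ^ (s+1) ≤ Real.exp (4 * (s+1 : ℕ)) := by
        rw [mul_comm (4:ℝ), Real.exp_nat_mul]
        refine pow_le_pow_left₀ (by norm_num) ?_ _
        have h4 : Real.exp 4 = (Real.exp 1) ^ 4 := by rw [← Real.exp_nat_mul]; norm_num
        rw [h4]
        have he := Real.exp_one_gt_d9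
        calc (24:ℝ) ≤ (27/10) ^ 4 := by norm_num
          _ ≤ _ := pow_le_pow_left₀ (by norm_num) (by linarith) 4
      calc (24:ℝ) ^ (s+1) * g ^ d ≤ Real.exp (4 * (s+1 : ℕ)) * Real.exp (-(etaC * d)) := by
            rw [hg, pow_max_eq]
            exact mul_le_mul_of_nonneg_right h1 (Real.exp_pos _).le
        _ ≤ E := by
            rw [← Real.exp_add]
            refine Real.exp_le_exp.2 ?_
            have : (s:ℝ) ≤ r := by exact_mod_cast hs'
            push_cast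
            linarith
    have a1 : 3 ^ (s+1) * (3 * cY ^ d) ≤ 3 * ((24:ℝ) ^ (s+1) * g ^ d) := by
      rw [show (3:ℝ) ^ (s+1) * (3 * cY ^ d) = 3 * ((3:ℝ) ^ (s+1) * cY ^ d) by ring]
      refine mul_le_mul_of_nonneg_left (mul_le_mul (pow_le_pow_left₀ (by norm_num) (by norm_num) _)
        (pow_le_pow_left₀ cY_pos.le (le_max_left _ _) _) (pow_nonneg cY_pos.le d) (by positivity))
        (by norm_num)
    have a2 : ((s:ℝ)+1) * 4 * 6 ^ (s+1) * (1/2:ℝ) ^ (d - (s+1)) ≤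
        4 * ((24:ℝ) ^ (s+1) * g ^ d) := by
      have e : (1/2:ℝ) ^ (d - (s+1)) = 2 ^ (s+1) * (1/2:ℝ) ^ d := by
        rw [show (1/2:ℝ) ^ d = (1/2:ℝ) ^ (s+1) * (1/2:ℝ) ^ (d - (s+1)) by
          rw [← pow_add]; congr 1; omega, ← mul_assoc, ← mul_pow]
        norm_num
      have hs2 : (s:ℝ) + 1 ≤ (2:ℝ) ^ (s+1) := by
        exact_mod_cast (Nat.lt_two_pow_self (n := s+1)).le
      rw [e, show ((s:ℝ)+1) * 4 * 6 ^ (s+1) * (2 ^ (s+1) * (1/2:ℝ) ^ d) =
        4 * ((((s:ℝ)+1) * (6 ^ (s+1) * 2 ^ (s+1))) * (1/2:ℝ) ^ d) by ring]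
      refine mul_le_mul_of_nonneg_left (mul_le_mul ?_
        (pow_le_pow_left₀ (by norm_num) (le_max_right _ _) _) (by positivity) (by positivity))
        (by norm_num)
      calc ((s:ℝ)+1) * (6 ^ (s+1) * 2 ^ (s+1)) ≤ 2 ^ (s+1) * (6 ^ (s+1) * 2 ^ (s+1)) :=
            mul_le_mul_of_nonneg_right hs2 (by positivity)
        _ = _ := by rw [← mul_pow, ← mul_pow]; norm_num
    linarith
  -- error part
  set N := (B.card : ℝ) with hNdef
  have hNs : 0 < N ^ s := pow_pos hN s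
  have hpow : ∀ a b : ℕ, a + 1 ≤ b → (m:ℝ) ^ a / (m:ℝ) ^ b ≤ 1 / (m:ℝ) := by
    intro a b hab
    rw [div_le_div_iff₀ (by positivity) (by positivity), one_mul, ← pow_succ]
    exact pow_le_pow_right₀ hm1 hab
  have c1 : ((s:ℝ)+1) * (m:ℝ)^2 * ((m:ℝ)^2) ^ s * ((2 * N) ^ s / (m:ℝ) ^ d)
      * (3 * R * (m:ℝ)^4) ^ (s+1)
      ≤ ((s:ℝ)+1) * (2:ℝ) ^ s * (3 * (R:ℝ)) ^ (s+1) * (1/(m:ℝ)) * N ^ s := by
    calc _ = ((s:ℝ)+1) * (2:ℝ) ^ s * (3 * (R:ℝ)) ^ (s+1) *
          ((m:ℝ) ^ (2 + 2*s + 4*(s+1)) / (m:ℝ) ^ d) * N ^ s := by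
          rw [show (m:ℝ) ^ (2 + 2*s + 4*(s+1)) = (m:ℝ)^2 * ((m:ℝ)^2) ^ s * ((m:ℝ)^4) ^ (s+1) by
            rw [← pow_mul, ← pow_mul, ← pow_add, ← pow_add], mul_pow 2 N,
            mul_pow _ ((m:ℝ)^4) (s+1)]
          ring
      _ ≤ _ := by
          refine mul_le_mul_of_nonneg_right (mul_le_mul_of_nonneg_left (hpow _ _ (by omega))
            (by positivity)) hNs.le
  have c2 : ((s:ℝ)+1) ^ 2 * ((s+1).factorial * ((d+1) * (R:ℝ)^2 * (m:ℝ)^8) ^ (s+1)) * N ^ (s-1)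
        * ((3 * R * (m:ℝ)^4) ^ (2 * (s+1)) * (3 * R * (m:ℝ)^2) ^ d) ≤
      ((s:ℝ)+1) ^ 2 * ((s+1).factorial * ((d+1) * (R:ℝ)^2) ^ (s+1)) *
        (3 * (R:ℝ)) ^ (2*(s+1)) * (3 * (R:ℝ)) ^ d * (4/5 * V)⁻¹ * (1/(m:ℝ)) * N ^ s := by
    have hN' : N ^ s = N ^ (s-1) * N := by rw [← pow_succ]; congr 1; omega
    set C := ((s:ℝ)+1) ^ 2 * ((s+1).factorial * ((d+1) * (R:ℝ)^2) ^ (s+1)) *
        (3 * (R:ℝ)) ^ (2*(s+1)) * (3 * (R:ℝ)) ^ d with hC
    calc _ = C * (m:ℝ) ^ (8*(s+1) + 4*(2*(s+1)) + 2*d) * N ^ (s-1) := by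
          rw [hC, show (m:ℝ) ^ (8*(s+1) + 4*(2*(s+1)) + 2*d) =
              ((m:ℝ)^8) ^ (s+1) * ((m:ℝ)^4) ^ (2*(s+1)) * ((m:ℝ)^2) ^ d by
            rw [← pow_mul, ← pow_mul, ← pow_mul, ← pow_add, ← pow_add],
            mul_pow _ ((m:ℝ)^8) (s+1), mul_pow _ ((m:ℝ)^4) (2*(s+1)), mul_pow _ ((m:ℝ)^2) d]
          ring
      _ ≤ C * ((4/5 * V)⁻¹ * (1/(m:ℝ)) * N) * N ^ (s-1) := by
          refine mul_le_mul_of_nonneg_right (mul_le_mul_of_nonneg_left ?_ (by positivity))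
            (by positivity)
          have h2 := hpow (8*(s+1) + 4*(2*(s+1)) + 2*d) (4*d) (by omega)
          rw [div_le_iff₀ (by positivity), pow_mul (m:ℝ) 4 d] at h2
          refine h2.trans ?_
          rw [show (4/5 * V)⁻¹ * (1/(m:ℝ)) * N = (1/(m:ℝ)) * (N / (4/5 * V)) by ring]
          refine mul_le_mul_of_nonneg_left ?_ (by positivity)
          rw [le_div_iff₀ (by positivity)]
          linarith
      _ = _ := by rw [hN']; ring
  have hK' : K s * (1 / (m:ℝ)) * N ^ s ≤ E * N ^ s := mul_le_mul_of_nonneg_right hK hNs.le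
  have hK'' : ((s:ℝ)+1) * (2:ℝ) ^ s * (3 * (R:ℝ)) ^ (s+1) * (1/(m:ℝ)) * N ^ s +
      ((s:ℝ)+1) ^ 2 * ((s+1).factorial * ((d+1) * (R:ℝ)^2) ^ (s+1)) *
        (3 * (R:ℝ)) ^ (2*(s+1)) * (3 * (R:ℝ)) ^ d * (4/5 * V)⁻¹ * (1/(m:ℝ)) * N ^ s
      = K s * (1 / (m:ℝ)) * N ^ s := by simp only [K]; ring
  have hm' := mul_le_mul_of_nonneg_right hmain hNs.le
  linarith

/-- The constant governing the first stage. -/
noncomputable def tauC : ℝ := etaC / 1000

lemma tauC_pos : 0 < tauC := div_pos etaC_pos (by norm_num)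

open Classical in
theorem stage1_eventually {d : ℕ} (hd : 100 ≤ d) (hd' : 24 ≤ tauC * d)
    {S : Set (Fin d → ℝ)} (hc : Convex ℝ S) (hS : IsCompact S)
    (hpos : 0 < volume.real S) {R : ℕ} (hR : 1 ≤ R) (hSR : S ⊆ Metric.closedBall 0 R) :
    ∀ᶠ m : ℕ in atTop, ∀ (p : ℕ) [Fact p.Prime],
      tauC * d / 4 ≤ ((gridPts R (m^4) S).card : ℝ) / p →
      ((gridPts R (m^4) S).card : ℝ) / p ≤ 4 * tauC * d →
      (∑ h : Fin d → ZMod p, ((uncovered (gridPts R (m^4) S) h).card : ℝ)) ≤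
        (p:ℝ) ^ (d+1) * Real.exp (-(tauC * d / 8)) := by
  have hη := etaC_pos
  have hτ := tauC_pos
  have hτη : tauC = etaC / 1000 := rfl
  set u := ⌊etaC * d / 32⌋₊ with hu
  set r := 2 * u with hr
  have hu1 : (u:ℝ) ≤ etaC * d / 32 := Nat.floor_le (by positivity)
  have hu2 : etaC * d / 32 < u + 1 := Nat.lt_floor_add_one _
  have hd0 : (100:ℝ) ≤ d := by exact_mod_cast hd
  have hr1 : (r:ℝ) + 1 ≤ etaC * d / 8 := by
    rw [hr]; push_cast; nlinarith
  have hr3 : etaC * d / 32 ≤ (r:ℝ) := by rw [hr]; push_cast; nlinarith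
  have hr2 : 10 * (r + 1) ≤ d := by
    have h1 : etaC * d ≤ 7/10 * d := mul_le_mul_of_nonneg_right etaC_lt.le (by positivity)
    have : ((10 * (r+1) : ℕ) : ℝ) ≤ (d:ℝ) := by push_cast; linarith
    exact_mod_cast this
  set V := volume.real S
  have hlim : Tendsto (fun m : ℕ => ((r+1).factorial : ℝ) * ((d+1) * (2*R)^2) ^ (r+1)
      * (4 * tauC * d) / (4/5 * V) * ((1:ℝ) / m)) atTop (𝓝 0) := by
    simpa using (tendsto_one_div_atTop_nhds_zero_nat (𝕜 := ℝ)).const_mul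
      (((r+1).factorial : ℝ) * ((d+1) * (2*R)^2) ^ (r+1) * (4 * tauC * d) / (4/5 * V))
  filter_upwards [grid_facts hc hS hpos hSR, dep_eventually hc hS hpos hR hSR hr1 hr2,
    hlim.eventually (eventually_lt_nhds zero_lt_one), eventually_ge_atTop 1]
    with m ⟨hlo, _, _, _⟩ hdep hC hm1 p _ hμ1 hμ2
  set N := (gridPts R (m^4) S).card with hN
  have hm1r : (1:ℝ) ≤ m := by exact_mod_cast hm1
  have hppos : (0:ℝ) < p := by exact_mod_cast (Fact.out : p.Prime).pos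
  have hNpos : (0:ℝ) < N := lt_of_lt_of_le (by positivity) hlo
  have hB : 1 ≤ N := by exact_mod_cast Nat.one_le_iff_ne_zero.2 (by
    intro h; rw [h] at hNpos; simp at hNpos)
  have hpbig : (r+1).factorial * ((d + 1) * (R * m^4 + 1) ^ 2) ^ (r+1) < p := by
    have h1 : (4/5 * V) * ((m:ℝ)^4) ^ d ≤ p * (4 * tauC * d) := by
      rw [div_le_iff₀ hppos] at hμ2; linarith
    have h2 : (((r+1).factorial * ((d + 1) * (R * m^4 + 1) ^ 2) ^ (r+1) : ℕ) : ℝ) ≤
        ((r+1).factorial : ℝ) * ((d+1) * (2*R)^2) ^ (r+1) * (m:ℝ) ^ (8*(r+1)) := by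
      push_cast
      rw [pow_mul, mul_assoc ((r+1).factorial : ℝ), ← mul_pow]
      refine mul_le_mul_of_nonneg_left (pow_le_pow_left₀ (by positivity) ?_ _) (by positivity)
      rw [show (((d:ℝ)+1) * (2*R)^2) * (m:ℝ)^8 = ((d:ℝ)+1) * ((2*R) * (m:ℝ)^4)^2 by ring]
      refine mul_le_mul_of_nonneg_left (pow_le_pow_left₀ (by positivity) ?_ 2) (by positivity)
      have : (1:ℝ) ≤ (R:ℝ) * (m:ℝ)^4 :=
        one_le_mul_of_one_le_of_one_le (by exact_mod_cast hR) (one_le_pow₀ hm1r)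
      linarith
    have h3 : (m:ℝ) ^ (8*(r+1)) * m ≤ ((m:ℝ)^4) ^ d := by
      rw [← pow_succ, ← pow_mul]
      exact pow_le_pow_right₀ hm1r (by omega)
    set C := ((r+1).factorial : ℝ) * ((d+1) * (2*R)^2) ^ (r+1) with hCdef
    have hpos5 : (0:ℝ) < 4/5 * V := by positivity
    rw [mul_one_div, div_div, div_lt_one (by positivity)] at hC
    have h4 : C * (4 * tauC * d) * (m:ℝ) ^ (8*(r+1)) < (4/5 * V) * ((m:ℝ)^4) ^ d := by
      calc C * (4 * tauC * d) * (m:ℝ) ^ (8*(r+1))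
          < 4/5 * V * m * (m:ℝ) ^ (8*(r+1)) := mul_lt_mul_of_pos_right hC (by positivity)
        _ ≤ _ := by
            rw [mul_assoc]
            exact mul_le_mul_of_nonneg_left (by linarith) hpos5.le
    have h5 : C * (m:ℝ) ^ (8*(r+1)) < p := by
      have : C * (m:ℝ) ^ (8*(r+1)) * (4 * tauC * d) < p * (4 * tauC * d) := by
        calc _ = C * (4 * tauC * d) * (m:ℝ) ^ (8*(r+1)) := by ring
          _ < _ := h4.trans_le h1
      exact lt_of_mul_lt_mul_right this (by positivity)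
    exact_mod_cast lt_of_le_of_lt h2 h5
  refine (stage1_bound (p := p) (r := r) ⟨u, by omega⟩ gridPts_subset_zbox hpbig hdep hB).trans ?_
  refine mul_le_mul_of_nonneg_left ?_ (by positivity)
  set μ := (N:ℝ) / p with hμ
  have t1 : Real.exp (-μ) ≤ Real.exp (-(tauC * d / 4)) := Real.exp_le_exp.2 (by linarith)
  have t2 : (1/2:ℝ) ^ r * Real.exp (2 * μ) ≤ Real.exp (-(tauC * d / 4)) := by
    have e : (1/2:ℝ) ^ r = Real.exp (-((r:ℝ) * Real.log 2)) := by
      rw [show -((r:ℝ) * Real.log 2) = (r:ℝ) * Real.log (1/2) by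
        rw [one_div, Real.log_inv]; ring, Real.exp_nat_mul, Real.exp_log (by norm_num)]
    rw [e, ← Real.exp_add]
    refine Real.exp_le_exp.2 ?_
    have h2 := Real.log_two_gt_d9
    have : (69/100:ℝ) * (etaC * d / 32) ≤ (r:ℝ) * Real.log 2 := by
      rw [mul_comm (69/100:ℝ)]
      exact mul_le_mul hr3 (by linarith) (by norm_num) (Nat.cast_nonneg r)
    rw [hτη] at hμ2 ⊢
    have : 0 ≤ etaC * d := by positivity
    linarith
  have t3 : 2 * (9 * Real.exp (-(etaC * d) / 2)) * Real.exp μ ≤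
      18 * Real.exp (-(tauC * d / 4)) := by
    rw [show 2 * (9 * Real.exp (-(etaC * d) / 2)) * Real.exp μ =
      18 * (Real.exp (-(etaC * d) / 2) * Real.exp μ) by ring, ← Real.exp_add]
    refine mul_le_mul_of_nonneg_left (Real.exp_le_exp.2 ?_) (by norm_num)
    rw [hτη] at hμ2 ⊢
    have : 0 ≤ etaC * d := by positivity
    linarith
  have t4 : 20 * Real.exp (-(tauC * d / 4)) ≤ Real.exp (-(tauC * d / 8)) := by
    rw [show -(tauC * d / 4) = -(tauC * d / 8) + -(tauC * d / 8) by ring, Real.exp_add]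
    rw [← mul_assoc]
    refine mul_le_of_le_one_left (Real.exp_pos _).le ?_
    have h3 : Real.exp (-(tauC * d / 8)) ≤ Real.exp (-3) := Real.exp_le_exp.2 (by linarith)
    have he : (20:ℝ) * Real.exp (-3) ≤ 1 := by
      rw [Real.exp_neg, mul_inv_le_iff₀ (Real.exp_pos _), one_mul,
        show (3:ℝ) = ((3:ℕ):ℝ) * 1 by norm_num, Real.exp_nat_mul]
      have he1 := Real.exp_one_gt_d9
      calc (20:ℝ) ≤ (2.718:ℝ) ^ 3 := by norm_num
        _ ≤ _ := pow_le_pow_left₀ (by norm_num) (by linarith) 3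
    nlinarith [Real.exp_pos (-(tauC * d / 8))]
  linarith

end Vale.Agent.P230
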