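import Mathlib
import Vale.Agent.P230.Stage1Eventually
import Vale.Agent.P230.Layer
import Vale.Agent.P230.Body
import Vale.Agent.P230.LatticeMatrix

/-! The covering theorem for bodies with large sections over a ball. -/

namespace Vale.Agent.P230

open Finset Filter MeasureTheory Topology Matrix
open scoped Pointwise

open Classical in
/-- A single form that is good for all layers and injective on a small set of differences. -/
lemma exists_good_form {d p : ℕ} [Fact p.Prime] {ι : Type*} (I : Finset ι)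
    (B : ι → Finset (Fin d → ℤ)) (D : Finset (Fin d → ℤ)) {Mc ε : ℝ} (hMc : (I.card : ℝ) ≤ Mc)
    (hMc0 : 0 < Mc) (hε : 0 < ε)
    (hB : ∀ w ∈ I, (∑ h : Fin d → ZMod p, ((uncovered (B w) h).card : ℝ)) ≤ (p:ℝ) ^ (d+1) * ε)
    (hD : 4 * D.card < p) (hD0 : ∀ g ∈ D, g ≠ 0 → ∃ j, (g j : ZMod p) ≠ 0) :
    ∃ h : Fin d → ZMod p, (∀ w ∈ I, ((uncovered (B w) h).card : ℝ) ≤ 4 * Mc * ε * p) ∧
      ∀ g ∈ D, g ≠ 0 → ∑ j, h j * (g j : ZMod p) ≠ 0 := by
  set bad1 := (univ : Finset (Fin d → ZMod p)).filter fun h =>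
    4 * Mc * ε * p < ∑ w ∈ I, ((uncovered (B w) h).card : ℝ)
  set D' := D.filter fun g => g ≠ 0
  set bad2 := D'.biUnion fun g =>
    (univ : Finset (Fin d → ZMod p)).filter fun h => ∑ j, h j * (g j : ZMod p) = 0
  have hp : (0:ℝ) < p := by exact_mod_cast (Fact.out : p.Prime).pos
  have hpd : (0:ℝ) < (p:ℝ) ^ d := by positivity
  have h1 : (bad1.card : ℝ) * 4 ≤ (p:ℝ) ^ d := by
    have ha : (bad1.card : ℝ) * (4 * Mc * ε * p) ≤ Mc * ((p:ℝ) ^ (d+1) * ε) := by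
      rw [← nsmul_eq_mul, ← sum_const]
      calc ∑ _h ∈ bad1, 4 * Mc * ε * p
          ≤ ∑ h ∈ bad1, ∑ w ∈ I, ((uncovered (B w) h).card : ℝ) :=
            sum_le_sum fun h hh => (mem_filter.1 hh).2.le
        _ ≤ ∑ h : Fin d → ZMod p, ∑ w ∈ I, ((uncovered (B w) h).card : ℝ) :=
            sum_le_sum_of_subset_of_nonneg (subset_univ _) fun _ _ _ =>
              sum_nonneg fun _ _ => Nat.cast_nonneg _
        _ = ∑ w ∈ I, ∑ h : Fin d → ZMod p, ((uncovered (B w) h).card : ℝ) := sum_comm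
        _ ≤ ∑ _w ∈ I, (p:ℝ) ^ (d+1) * ε := sum_le_sum hB
        _ ≤ _ := by
            rw [sum_const, nsmul_eq_mul]
            exact mul_le_mul_of_nonneg_right hMc (by positivity)
    have hb : (bad1.card : ℝ) * 4 * (Mc * ε * p) ≤ (p:ℝ) ^ d * (Mc * ε * p) := by
      calc _ = (bad1.card : ℝ) * (4 * Mc * ε * p) := by ring
        _ ≤ _ := ha
        _ = _ := by ring
    exact le_of_mul_le_mul_right hb (by positivity)
  have h2 : bad2.card * p ≤ D.card * p ^ d := by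
    have hper : ∀ g ∈ D', ((univ : Finset (Fin d → ZMod p)).filter
        fun h => ∑ j, h j * (g j : ZMod p) = 0).card * p = p ^ d := by
      intro g hg
      obtain ⟨hgD, hg0⟩ := mem_filter.1 hg
      obtain ⟨j0, hj0⟩ := hD0 g hgD hg0
      have hcard : ({0, g} : Finset (Fin d → ℤ)).card = 2 := card_pair (Ne.symm hg0)
      have hind : IndepMod p ({0, g} : Finset (Fin d → ℤ)) := by
        intro a h1 h2 x hx
        have h3 := h2 j0
        rw [sum_pair (Ne.symm hg0)] at h1 h3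
        simp only [Pi.zero_apply, Int.cast_zero, mul_zero, zero_add] at h3
        have hag : a g = 0 := (mul_eq_zero.1 h3).resolve_right hj0
        rw [hag, add_zero] at h1
        rcases mem_insert.1 hx with rfl | hx
        · exact h1
        · rw [mem_singleton.1 hx]; exact hag
      have := card_fibreAll hind
      rw [hcard] at this
      have e : (fibreAll p ({0, g} : Finset (Fin d → ℤ))).card =
          ((univ : Finset (Fin d → ZMod p)).filter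
            fun h => ∑ j, h j * (g j : ZMod p) = 0).card := by
        refine card_nbij' (fun q => q.1) (fun h => (h, 0)) ?_ ?_ ?_ ?_
        · intro q hq
          simp only [fibreAll, mem_coe, mem_filter, mem_univ, true_and, mem_insert, mem_singleton,
            forall_eq_or_imp, forall_eq] at hq
          simp only [mem_coe, mem_filter, mem_univ, true_and]
          rw [hq.2, ← hq.1]; simp
        · intro h hh
          simp only [mem_coe, mem_filter, mem_univ, true_and] at hh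
          simp [fibreAll, hh]
        · intro q hq
          simp only [fibreAll, mem_coe, mem_filter, mem_univ, true_and, mem_insert, mem_singleton,
            forall_eq_or_imp, forall_eq] at hq
          refine Prod.ext rfl ?_
          rw [← hq.1]; simp
        · intro h _; rfl
      rw [e] at this
      have hp0 : 0 < p := (Fact.out : p.Prime).pos
      refine Nat.eq_of_mul_eq_mul_right hp0 ?_
      rw [← pow_succ, ← this]; ring
    calc bad2.card * p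
        ≤ (∑ g ∈ D', ((univ : Finset (Fin d → ZMod p)).filter
            fun h => ∑ j, h j * (g j : ZMod p) = 0).card) * p :=
          Nat.mul_le_mul_right _ card_biUnion_le
      _ = ∑ _g ∈ D', p ^ d := by rw [sum_mul]; exact sum_congr rfl hper
      _ ≤ D.card * p ^ d := by
          rw [sum_const, smul_eq_mul]
          exact Nat.mul_le_mul_right _ (card_filter_le _ _)
  obtain ⟨h, hh⟩ : ∃ h, h ∉ bad1 ∪ bad2 := by
    by_contra hno
    push Not at hno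
    have hu : ((bad1 ∪ bad2).card : ℝ) = (p:ℝ) ^ d := by
      rw [eq_univ_of_forall hno]
      simp
    have h3 : ((bad1 ∪ bad2).card : ℝ) ≤ bad1.card + bad2.card := by
      exact_mod_cast card_union_le _ _
    have h4 : (bad2.card : ℝ) * p ≤ D.card * (p:ℝ) ^ d := by exact_mod_cast h2
    have h5 : (4:ℝ) * D.card < p := by exact_mod_cast hD
    have h6 : (D.card : ℝ) * (p:ℝ) ^ d * 4 < p * (p:ℝ) ^ d := by nlinarith
    have h7 : (bad2.card : ℝ) * 4 < (p:ℝ) ^ d := by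
      refine lt_of_mul_lt_mul_right ?_ hp.le
      nlinarith
    linarith
  simp only [mem_union, not_or, bad1, bad2, mem_filter, mem_univ, true_and, not_lt, mem_biUnion,
    not_exists, not_and] at hh
  exact ⟨h, fun w hw => (single_le_sum (f := fun w => ((uncovered (B w) h).card : ℝ))
    (fun w _ => Nat.cast_nonneg _) hw).trans hh.1,
    fun g hg hg0 => hh.2 g (mem_filter.2 ⟨hg, hg0⟩)⟩

/-- A prime close to a prescribed scale. -/
lemma exists_prime_scale (x : ℝ) (hx : 2 ≤ x) :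
    ∃ p : ℕ, p.Prime ∧ x ≤ p ∧ (p:ℝ) ≤ 3 * x := by
  obtain ⟨p, hp, h1, h2⟩ := Nat.exists_prime_lt_and_le_two_mul ⌈x⌉₊
    (by rw [Ne, Nat.ceil_eq_zero]; linarith)
  refine ⟨p, hp, (Nat.le_ceil x).trans (by exact_mod_cast h1.le), ?_⟩
  have h3 : (⌈x⌉₊ : ℝ) < x + 1 := Nat.ceil_lt_add_one (by linarith)
  have h4 : (p:ℝ) ≤ 2 * ⌈x⌉₊ := by exact_mod_cast h2
  linarith

/-- The mesh parameter. -/
def meshM (d k : ℕ) : ℕ := (d + k) ^ 3

/-- The number of relevant mesh indices. -/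
noncomputable def meshCount (d k : ℕ) : ℝ := ((2 * ((k + 2) * meshM d k) + 1 : ℕ) : ℝ) ^ k

/-- The base failure proportion. -/
noncomputable def baseEta (d k : ℕ) : ℝ := 4 * meshCount d k * Real.exp (-(tauC * d / 8))

/-- The real point of a mesh index. -/
noncomputable def wpt (M : ℕ) {k : ℕ} (w : Fin k → ℤ) : Fin k → ℝ := fun l => 2 * (w l : ℝ) / M

/-- A mesh index is active if its point lies in the ball of radius `√(k+1)`. -/
def IsActive (M : ℕ) {k : ℕ} (w : Fin k → ℤ) : Prop := ∑ l, wpt M w l ^ 2 ≤ (k:ℝ) + 1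

open Classical in
lemma index_mem {k M : ℕ} (hMpos : 0 < M) :
    ∀ i (w : Fin k → ℤ), activeCount (IsActive M) (M:ℤ) i w ≠ 0 →
      w ∈ zbox (Fin k) ((k + 2) * M) := by
  have hMR : (0:ℝ) < M := by exact_mod_cast hMpos
  intro i w hw
  obtain ⟨T, hT⟩ := card_ne_zero.1 hw
  obtain ⟨-, hT2⟩ := mem_filter.1 hT
  rw [mem_zbox]
  intro l
  have hl : (wpt M (shiftIdx (M:ℤ) w T) l) ^ 2 ≤ ((k:ℝ) + 1) ^ 2 := by
    refine ((single_le_sum (f := fun l => wpt M (shiftIdx (M:ℤ) w T) l ^ 2)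
      (fun l _ => sq_nonneg _) (mem_univ l)).trans hT2).trans ?_
    nlinarith [(Nat.cast_nonneg k : (0:ℝ) ≤ k)]
  have hl' := abs_le_of_sq_le_sq' hl (by positivity)
  simp only [wpt] at hl'
  rw [le_div_iff₀ hMR, div_le_iff₀ hMR] at hl'
  have hz : |shiftIdx (M:ℤ) w T l| ≤ ((k + 1) * M : ℕ) := by
    rw [abs_le]
    have e : ((((k + 1) * M : ℕ) : ℤ) : ℝ) = ((k:ℝ) + 1) * M := by push_cast; ring
    have hp0 : (0:ℝ) ≤ ((k:ℝ) + 1) * M := by positivity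
    constructor
    · have : (((-(((k + 1) * M : ℕ) : ℤ)) : ℤ) : ℝ) ≤ (shiftIdx (M:ℤ) w T l : ℝ) := by
        rw [Int.cast_neg, e]; linarith
      exact_mod_cast this
    · have : (shiftIdx (M:ℤ) w T l : ℝ) ≤ ((((k + 1) * M : ℕ) : ℤ) : ℝ) := by
        rw [e]; linarith
      exact_mod_cast this
  rw [abs_le] at hz ⊢
  simp only [shiftIdx] at hz
  push_cast at hz ⊢
  split_ifs at hz <;> constructor <;> nlinarith

lemma pow_one_sub_inv_ge {n i : ℕ} (hn : 100 ≤ n) (hi : i ≤ n) :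
    (1:ℝ) / 4 ≤ (1 - 1 / (n:ℝ)) ^ i := by
  have hnR : (100:ℝ) ≤ n := by exact_mod_cast hn
  have h1 : (1:ℝ) / n < 1 := by rw [div_lt_one (by positivity)]; linarith
  have h0 : (0:ℝ) ≤ 1 / n := by positivity
  refine le_trans ?_ (pow_le_pow_of_le_one (by linarith) (by linarith) hi)
  have hb : Real.exp (-(1 / ((n:ℝ) - 1))) ≤ 1 - 1 / (n:ℝ) := by
    rw [Real.exp_neg]
    have h2 := Real.add_one_le_exp (1 / ((n:ℝ) - 1))
    have h3 : (1 - 1 / (n:ℝ)) = (1 / ((n:ℝ) - 1) + 1)⁻¹ := by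
      have h5 : (n:ℝ) - 1 ≠ 0 := by linarith
      have h6 : (n:ℝ) ≠ 0 := by linarith
      rw [div_add_one h5, inv_div, one_sub_div h6, add_sub_cancel]
    rw [h3]
    exact inv_anti₀ (by have : 0 < 1 / ((n:ℝ) - 1) := by
                          have : (0:ℝ) < (n:ℝ) - 1 := by linarith
                          positivity
                        linarith) h2
  refine le_trans ?_ (pow_le_pow_left₀ (Real.exp_pos _).le hb n)
  rw [← Real.exp_nat_mul]
  have h4 : -(1 + 1/10 : ℝ) ≤ (n:ℝ) * -(1 / ((n:ℝ) - 1)) := by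
    rw [mul_neg, neg_le_neg_iff, mul_one_div, div_le_iff₀ (by linarith)]
    linarith
  refine le_trans ?_ (Real.exp_le_exp.2 h4)
  rw [Real.exp_neg, one_div, Real.exp_add]
  refine inv_anti₀ (by positivity) ?_
  have e2 : Real.exp (1/10) ≤ 1 / (1 - 1/10) :=
    Real.exp_bound_div_one_sub_of_interval (by norm_num) (by norm_num)
  have e1 := Real.exp_one_lt_d9
  calc Real.exp 1 * Real.exp (1/10:ℝ) ≤ 2.7182818286 * (1 / (1 - 1/10)) :=
        mul_le_mul e1.le e2 (Real.exp_pos _).le (by norm_num)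
    _ ≤ 4 := by norm_num

lemma small_body {d : ℕ} {B0 : Set (Fin d → ℝ)} {V0 R n : ℝ} (hc : Convex ℝ B0)
    (hk : IsCompact B0) (hV0 : 0 < V0) (hv : volume.real B0 = V0)
    (hR : B0 ⊆ Metric.closedBall 0 R) (hn : 1 ≤ n) :
    ∃ cY : Fin d → ℝ, ∃ Y0 : Set (Fin d → ℝ), Convex ℝ Y0 ∧ IsCompact Y0 ∧ (∀ y ∈ Y0, -y ∈ Y0) ∧
      (∀ y ∈ Y0, y + cY ∈ (1/2:ℝ) • B0) ∧
      (1/2:ℝ) ^ d * ((1/2:ℝ) ^ d * V0) ≤ volume.real Y0 ∧
      volume.real Y0 ≤ (1/2:ℝ) ^ d * V0 ∧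
      (2:ℝ) • ((1/n) • Y0) ⊆ Metric.closedBall 0 (2 * R + 1) := by
  have hhalf : volume.real ((1/2:ℝ) • B0) = (1/2:ℝ) ^ d * V0 := by
    rw [measureReal_def, Measure.addHaar_smul_of_nonneg _ (by norm_num), ENNReal.toReal_mul,
      ENNReal.toReal_ofReal (by positivity), Module.finrank_fin_fun, ← measureReal_def, hv]
  obtain ⟨cY, Y0, hY0c, hY0k, hY0s, hY0sub, hY0lo, hY0hi⟩ :=
    symmetric_core (hc.smul (1/2:ℝ)) (hk.smul _) (by rw [hhalf]; positivity)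
  rw [hhalf] at hY0lo hY0hi
  refine ⟨cY, Y0, hY0c, hY0k, hY0s, hY0sub, hY0lo, hY0hi, ?_⟩
  rintro _ ⟨_, ⟨y, hy, rfl⟩, rfl⟩
  obtain ⟨a, ha, hae⟩ := hY0sub y hy
  obtain ⟨b, hb, hbe⟩ := hY0sub (-y) (hY0s y hy)
  have hab : a - b = (4:ℝ) • y := by
    funext i
    have h1 := congrFun hae i
    have h2 := congrFun hbe i
    simp at h1 h2 ⊢
    linarith
  have ha' := hR ha
  have hb' := hR hb
  rw [Metric.mem_closedBall, dist_zero_right] at ha' hb' ⊢
  have h4 : 4 * ‖y‖ ≤ 2 * R := by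
    have : ‖(4:ℝ) • y‖ ≤ 2 * R := by rw [← hab]; linarith [norm_sub_le a b]
    simpa [norm_smul] using this
  show ‖(2:ℝ) • (1/n) • y‖ ≤ 2 * R + 1
  rw [norm_smul, norm_smul]
  have h5 : ‖(1/n)‖ ≤ 1 := by
    rw [Real.norm_eq_abs, abs_of_pos (by positivity), div_le_one (by positivity)]; linarith
  have h6 : ‖(1/n)‖ * ‖y‖ ≤ 1 * ‖y‖ := mul_le_mul_of_nonneg_right h5 (norm_nonneg _)
  rw [Real.norm_eq_abs (2:ℝ), abs_two]
  linarith [norm_nonneg y]

lemma small_diff_card {p : ℕ} {d : ℕ} {N : ℕ} {n V0 V1 y0 y1 Ld a : ℝ} (hd : 2 ≤ d)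
    (hn : 21 ≤ n) (hdn : (d:ℝ) ≤ n) (hV : 0 < V0) (hy1 : y1 = (1/n) ^ d * y0)
    (hy0 : y0 ≤ (1/2:ℝ) ^ d * V0) (hN : (N:ℝ) ≤ 5/4 * ((2:ℝ) ^ d * y1) * Ld) (hLd : 0 < Ld)
    (hV1 : V0 / 4 ≤ V1) (hτ : 0 < tauC * d) (ha : a = V1 / (tauC * d))
    (hp : a * Ld ≤ p) : 4 * N < p := by
  have h2 : (2:ℝ) ^ d * y1 ≤ (1/n) ^ d * V0 := by
    rw [hy1]
    calc (2:ℝ) ^ d * ((1/n) ^ d * y0)
        ≤ (2:ℝ) ^ d * ((1/n) ^ d * ((1/2:ℝ) ^ d * V0)) :=
          mul_le_mul_of_nonneg_left (mul_le_mul_of_nonneg_left hy0 (by positivity))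
            (by positivity)
      _ = ((2:ℝ) * (1/2)) ^ d * ((1/n) ^ d * V0) := by rw [mul_pow]; ring
      _ = _ := by norm_num
  have h3 : (1/n) ^ d * (20 * (tauC * d)) < 1 := by
    have hn2 : (1/n) ^ d ≤ (1/n) ^ 2 :=
      pow_le_pow_of_le_one (by positivity) (by rw [div_le_one (by positivity)]; linarith) hd
    have hτ1 : tauC ≤ 1 := by
      unfold tauC; rw [div_le_one (by norm_num)]; linarith [etaC_lt]
    have ht : tauC * d ≤ n := le_trans (mul_le_of_le_one_left (Nat.cast_nonneg _) hτ1) hdn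
    calc (1/n) ^ d * (20 * (tauC * d)) ≤ (1/n) ^ 2 * (20 * n) :=
          mul_le_mul hn2 (by linarith) (by positivity) (by positivity)
      _ = 20 / n := by field_simp
      _ < 1 := by rw [div_lt_one (by positivity)]; linarith
  have h4 : V0 / 4 / (tauC * d) * Ld ≤ p := le_trans (mul_le_mul_of_nonneg_right
    (div_le_div_of_nonneg_right hV1 hτ.le) hLd.le) (ha ▸ hp)
  have h5 : (4:ℝ) * N < p := by
    have hτ0 := tauC_pos
    have hd0 : (0:ℝ) < d := by exact_mod_cast (by omega : 0 < d)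
    calc (4:ℝ) * N ≤ 5 * ((1/n) ^ d * V0) * Ld := by
          have := mul_le_mul_of_nonneg_right h2 hLd.le
          linarith
      _ = ((1/n) ^ d * (20 * (tauC * d))) * (V0 / 4 / (tauC * d) * Ld) := by
          field_simp; ring
      _ < 1 * (V0 / 4 / (tauC * d) * Ld) := mul_lt_mul_of_pos_right h3 (by positivity)
      _ ≤ p := by rw [one_mul]; exact h4
  exact_mod_cast h5

lemma scale_ineq {d : ℕ} {p n V0 V1 y0 Ld : ℝ} (hd' : 24 ≤ tauC * d) (hp0 : 0 ≤ p)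
    (hp : p * (tauC * d) ≤ 3 * (V1 * Ld)) (hV : V1 ≤ V0) (hV0 : 0 ≤ V0) (hLd : 0 ≤ Ld)
    (hn : 0 < n) (hy : (1/2:ℝ) ^ d * ((1/2:ℝ) ^ d * V0) ≤ y0) :
    p * (1 / (16 * n)) ^ d ≤ 4/5 * (1/2:ℝ) ^ d * ((1/n) ^ d * y0) * Ld := by
  have hpV : p * (1/2:ℝ) ^ d ≤ 4/5 * (V0 * Ld) := by
    have h6 : V1 * Ld ≤ V0 * Ld := mul_le_mul_of_nonneg_right hV hLd
    have h7 : (1/2:ℝ) ^ d ≤ 1 := pow_le_one₀ (by norm_num) (by norm_num)
    have h8 : p * 24 ≤ 3 * (V1 * Ld) := le_trans (mul_le_mul_of_nonneg_left hd' hp0) hp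
    have h9 : p * (1/2:ℝ) ^ d ≤ p * 1 := mul_le_mul_of_nonneg_left h7 hp0
    have h10 : 0 ≤ V0 * Ld := mul_nonneg hV0 hLd
    linarith
  have e : (1/(16 * n)) ^ d = (1/2:ℝ) ^ d * ((1/2:ℝ) ^ d * ((1/n) ^ d * ((1/2:ℝ) ^ d *
      (1/2:ℝ) ^ d))) := by
    rw [← mul_pow, ← mul_pow, ← mul_pow, ← mul_pow]; congr 1; field_simp; norm_num
  calc p * (1 / (16 * n)) ^ d
      = (p * (1/2:ℝ) ^ d) * ((1/2:ℝ) ^ d * ((1/n) ^ d * ((1/2:ℝ) ^ d * (1/2:ℝ) ^ d))) := by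
        rw [e]; ring
    _ ≤ (4/5 * (V0 * Ld)) * ((1/2:ℝ) ^ d * ((1/n) ^ d * ((1/2:ℝ) ^ d * (1/2:ℝ) ^ d))) :=
        mul_le_mul_of_nonneg_right hpV (by positivity)
    _ = 4/5 * (1/2:ℝ) ^ d * ((1/n) ^ d * ((1/2:ℝ) ^ d * ((1/2:ℝ) ^ d * V0))) * Ld := by ring
    _ ≤ _ := mul_le_mul_of_nonneg_right (mul_le_mul_of_nonneg_left
        (mul_le_mul_of_nonneg_left hy (by positivity)) (by positivity)) hLd

lemma h3p {p u t v : ℝ} (hp : p ≤ 3 * u) (ht : 0 ≤ t) (h : u * t = v) : p * t ≤ 3 * v := by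
  rw [← h, ← mul_assoc]
  exact mul_le_mul_of_nonneg_right hp ht

lemma diff_ne_zero {d p R m : ℕ} {x : ℝ} (hR : 1 ≤ R) (hm : 1 ≤ m)
    (hx : 2 * (R:ℝ) * (m:ℝ)^4 ≤ x) (hp : x ≤ p) {g : Fin d → ℤ}
    (hg : g ∈ zbox (Fin d) (R * m^4)) (hg0 : g ≠ 0) : ∃ i, (g i : ZMod p) ≠ 0 := by
  obtain ⟨i, hi⟩ := Function.ne_iff.1 hg0
  refine ⟨i, fun h => hi ?_⟩
  rw [ZMod.intCast_zmod_eq_zero_iff_dvd] at h
  refine Int.eq_zero_of_abs_lt_dvd h ?_
  have h1 := mem_zbox.1 hg i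
  have hpos : (0:ℝ) < (R:ℝ) * (m:ℝ)^4 := by
    have : (0:ℝ) < R := by exact_mod_cast hR
    have : (0:ℝ) < m := by exact_mod_cast hm
    positivity
  have h2 : ((R * m^4 : ℕ) : ℝ) < p := by push_cast; linarith
  have h2' : (R * m^4 : ℕ) < p := by exact_mod_cast h2
  omega

lemma mu_bounds {p N t v u : ℝ} (hp : 0 < p) (ht : 0 < t) (hlo : 4/5 * v ≤ N) (hhi : N ≤ 5/4 * v)
    (hu : u * t = v) (hpu : u ≤ p) (hp3 : p ≤ 3 * u) : t / 4 ≤ N / p ∧ N / p ≤ 4 * t := by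
  rw [le_div_iff₀ hp, div_le_iff₀ hp]
  have a1 := mul_le_mul_of_nonneg_right hpu ht.le
  have a2 := mul_le_mul_of_nonneg_right hp3 ht.le
  constructor <;> linarith

open Classical in
/-- The choice of the scale, the prime and the linear form. -/
theorem choose_scale {d k : ℕ} (hd : 100 ≤ d) (hd' : 24 ≤ tauC * d)
    {S : (Fin k → ℤ) → Set (Fin d → ℝ)} {I : Finset (Fin k → ℤ)}
    (hIcard : (I.card : ℝ) ≤ meshCount d k) {R : ℕ} (hR : 1 ≤ R) {V0 V1 : ℝ} (hV0 : 0 < V0)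
    (hV1low : V0 / 4 ≤ V1) (hV1hi : V1 ≤ V0)
    (hS : ∀ w ∈ I, Convex ℝ (S w) ∧ IsCompact (S w) ∧ volume.real (S w) = V1 ∧
      S w ⊆ Metric.closedBall 0 (R:ℝ))
    {Y1 : Set (Fin d → ℝ)} (hYc : Convex ℝ Y1) (hYk : IsCompact Y1) (hYs : ∀ y ∈ Y1, -y ∈ Y1)
    (hYR : (2:ℝ) • Y1 ⊆ Metric.closedBall 0 (R:ℝ)) {n y0 : ℝ} (hn : 100 ≤ n)
    (hdn : (d:ℝ) ≤ n) (hy1 : volume.real Y1 = (1/n) ^ d * y0)
    (hy0lo : (1/2:ℝ) ^ d * ((1/2:ℝ) ^ d * V0) ≤ y0) (hy0hi : y0 ≤ (1/2:ℝ) ^ d * V0) :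
    ∃ (m p : ℕ) (_ : Fact p.Prime) (h : Fin d → ZMod p), 0 < m ∧
      V1 ≤ tauC * d * ((p:ℝ) * (((m:ℝ)^4) ^ d)⁻¹) ∧ h ≠ 0 ∧
      (∀ w ∈ I, ((uncovered (gridPts R (m^4) (S w)) h).card : ℝ) ≤ baseEta d k * p) ∧
      ∀ c : Fin d → ℝ, ∃ G : Finset (Fin d → ℤ),
        (p:ℝ) * (1 / (16 * n)) ^ d ≤ G.card ∧
        (∀ g ∈ G, c - toR (m^4) g ∈ Y1) ∧
        Set.InjOn (fun g : Fin d → ℤ => ∑ i, h i * (g i : ZMod p)) G := by
  have hd0 : 0 < d := by omega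
  have hτd : 0 < tauC * d := by linarith
  have hV1pos : 0 < V1 := by linarith
  have hy0pos : 0 < y0 := lt_of_lt_of_le (by positivity) hy0lo
  have hY1pos : 0 < volume.real Y1 := by rw [hy1]; positivity
  set a := V1 / (tauC * d) with ha
  have ha0 : 0 < a := by positivity
  have htend : Tendsto (fun m : ℕ => ((m:ℝ)^4) ^ d) atTop atTop :=
    (tendsto_pow_atTop (by omega)).comp ((tendsto_pow_atTop (by norm_num)).comp
      tendsto_natCast_atTop_atTop)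
  have hbigL : ∀ C : ℝ, ∀ᶠ m : ℕ in atTop, C * (m:ℝ)^4 ≤ ((m:ℝ)^4) ^ d := by
    intro C
    filter_upwards [eventually_ge_atTop ⌈C⌉₊, eventually_ge_atTop 1] with m hm hm1
    have hmr : (1:ℝ) ≤ m := by exact_mod_cast hm1
    have h2 : C ≤ (m:ℝ)^4 := ((Nat.le_ceil C).trans (by exact_mod_cast hm)).trans
      (le_self_pow₀ hmr (by norm_num))
    calc C * (m:ℝ)^4 ≤ ((m:ℝ)^4) * (m:ℝ)^4 := mul_le_mul_of_nonneg_right h2 (by positivity)
      _ = ((m:ℝ)^4) ^ 2 := (sq _).symm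
      _ ≤ _ := pow_le_pow_right₀ (one_le_pow₀ hmr) (by omega)
  have hall := (eventually_all_finset I).2 fun w hw =>
    (grid_facts (R := R) (hS w hw).1 (hS w hw).2.1 (by rw [(hS w hw).2.2.1]; exact hV1pos)
      (hS w hw).2.2.2).and
    (stage1_eventually hd hd' (R := R) (hS w hw).1 (hS w hw).2.1
      (by rw [(hS w hw).2.2.1]; exact hV1pos) hR (hS w hw).2.2.2)
  have hY2v : volume.real ((2:ℝ) • Y1) = (2:ℝ) ^ d * volume.real Y1 := by
    rw [measureReal_def, Measure.addHaar_smul_of_nonneg _ (by norm_num), ENNReal.toReal_mul,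
      ENNReal.toReal_ofReal (by positivity), Module.finrank_fin_fun, ← measureReal_def]
  obtain ⟨m, hm, hYm, hDm, hm2, hmR, hmG, hm1⟩ := (hall.and
    ((shifted_count (R := R) hYc hYk hYs hY1pos hYR).and
    ((grid_facts (R := R) (hYc.smul (2:ℝ)) (hYk.smul _) (by rw [hY2v]; positivity) hYR).and
    ((htend.eventually_ge_atTop (2 / a)).and
    ((hbigL (2 * R / a)).and
    ((htend.eventually_ge_atTop (2 / ((4/5:ℝ) * (1/2:ℝ)^d * volume.real Y1))).and
    (eventually_ge_atTop 1))))))).exists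
  set Ld := ((m:ℝ)^4) ^ d with hLd
  have hmr : (0:ℝ) < m := by exact_mod_cast hm1
  have hLd0 : 0 < Ld := by positivity
  have hx2 : 2 ≤ a * Ld := by rw [div_le_iff₀ ha0] at hm2; linarith
  obtain ⟨p, hp, hpx, hp3⟩ := exists_prime_scale _ hx2
  have hfp : Fact p.Prime := ⟨hp⟩
  have hppos : (0:ℝ) < p := by exact_mod_cast hp.pos
  have hτ0 : tauC ≠ 0 := tauC_pos.ne'
  have hdne : (d:ℝ) ≠ 0 := by exact_mod_cast hd0.ne'
  have hx : a * Ld * (tauC * d) = V1 * Ld := by rw [ha]; field_simp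
  set D := gridPts R (m^4) ((2:ℝ) • Y1)
  have hD4 : 4 * D.card < p := small_diff_card (by omega) (by linarith) hdn hV0 hy1 hy0hi
    (by rw [← hY2v]; exact hDm.2.1) hLd0 hV1low hτd ha hpx
  have hD0 : ∀ g ∈ D, g ≠ 0 → ∃ i, (g i : ZMod p) ≠ 0 := fun g hg hg0 => by
    refine diff_ne_zero hR hm1 ?_ hpx (gridPts_subset_zbox g hg) hg0
    have := mul_le_mul_of_nonneg_left hmR ha0.le
    rwa [show a * (2 * (R:ℝ) / a * (m:ℝ)^4) = 2 * (R:ℝ) * (m:ℝ)^4 by field_simp] at this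
  have hμ : ∀ w ∈ I, tauC * d / 4 ≤ ((gridPts R (m^4) (S w)).card : ℝ) / p ∧
      ((gridPts R (m^4) (S w)).card : ℝ) / p ≤ 4 * tauC * d := by
    intro w hw
    obtain ⟨⟨hlo, hhi, -, -⟩, -⟩ := hm w hw
    rw [(hS w hw).2.2.1, mul_assoc] at hlo hhi
    rw [show 4 * tauC * (d:ℝ) = 4 * (tauC * d) by ring]
    exact mu_bounds hppos hτd hlo hhi hx hpx hp3
  obtain ⟨h, hh1, hh2⟩ := exists_good_form I (fun w => gridPts R (m^4) (S w)) D
    (Mc := meshCount d k) hIcard (by unfold meshCount; positivity)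
    (Real.exp_pos (-(tauC * d / 8)))
    (fun w hw => (hm w hw).2 p (hμ w hw).1 (hμ w hw).2) hD4 hD0
  have hG0 : ∀ c : Fin d → ℝ, ∃ G : Finset (Fin d → ℤ),
      (4/5 : ℝ) * (1/2:ℝ) ^ d * volume.real Y1 * Ld ≤ G.card ∧
      (∀ g ∈ G, c - toR (m^4) g ∈ Y1) ∧
      Set.InjOn (fun g : Fin d → ℤ => ∑ i, h i * (g i : ZMod p)) G := by
    intro c
    obtain ⟨G, g1, g2, g3⟩ := hYm c
    refine ⟨G, g1, g2, fun g hg g' hg' he => ?_⟩
    by_contra hne
    refine hh2 (g - g') (g3 g hg g' hg') (sub_ne_zero.2 hne) ?_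
    simp only [Pi.sub_apply, Int.cast_sub, mul_sub, sum_sub_distrib]
    exact sub_eq_zero.2 he
  refine ⟨m, p, hfp, h, hm1, ?_, ?_, fun w hw => (hh1 w hw).trans_eq (by rw [baseEta]), fun c => ?_⟩
  · rw [← mul_assoc, ← div_eq_mul_inv (tauC * d * (p:ℝ)), le_div_iff₀ hLd0]
    nlinarith [mul_le_mul_of_nonneg_right hpx hτd.le]
  · rintro rfl
    obtain ⟨G, g1, -, g3⟩ := hG0 0
    have : G.card ≤ 1 := card_le_one.2 fun g hg g' hg' => g3 hg hg' (by simp)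
    have h2 : (2:ℝ) ≤ G.card := by
      refine le_trans ?_ g1
      rw [div_le_iff₀ (by positivity)] at hmG
      linarith
    have : (G.card : ℝ) ≤ 1 := by exact_mod_cast this
    linarith
  · obtain ⟨G, g1, g2, g3⟩ := hG0 c
    refine ⟨G, le_trans ?_ g1, g2, g3⟩
    rw [hy1]
    exact scale_ineq hd' hppos.le (h3p hp3 hτd.le hx) hV1hi hV0.le hLd0.le (by linarith) hy0lo

lemma active_lower {k j M : ℕ} (hk : k = 4 * j) (hj : 0 < j) (hM : 0 < M)
    [DecidablePred (IsActive (k := k) M)] {w : Fin k → ℤ}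
    (hw : ∀ l, 0 ≤ w l ∧ w l ≤ (M:ℤ)) {N0 : ℕ}
    (hN0 : (N0:ℝ) < (k.choose j : ℝ) / (2 * (k:ℝ) + 1) + 1) :
    N0 ≤ activeCount (IsActive M) (M:ℤ) k w := by
  classical
  have hMR : (0:ℝ) < M := by exact_mod_cast hM
  have hvc := vertex_count hk hj (fun l => (w l : ℝ) / M) (fun l => ⟨div_nonneg
    (by exact_mod_cast (hw l).1) hMR.le, by rw [div_le_one hMR]; exact_mod_cast (hw l).2⟩)
  have hle : ((univ : Finset (Fin k)).powerset.filter fun T : Finset (Fin k) =>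
      ∑ i, (2 * ((w i : ℝ) / M - if i ∈ T then 1 else 0)) ^ 2 ≤ (k:ℝ) + 1/2).card ≤
      activeCount (IsActive M) (M:ℤ) k w := by
    refine card_le_card fun T hT => ?_
    rw [mem_filter] at hT ⊢
    refine ⟨mem_filter.2 ⟨hT.1, fun l _ => l.isLt⟩, ?_⟩
    show ∑ l, wpt M (shiftIdx (M:ℤ) w T) l ^ 2 ≤ (k:ℝ) + 1
    refine le_trans (le_of_eq (sum_congr rfl fun l _ => ?_)) (hT.2.trans (by linarith))
    simp only [wpt, shiftIdx]
    split_ifs <;> push_cast <;> field_simp <;> ring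
  have h1 : (N0:ℝ) < (activeCount (IsActive M) (M:ℤ) k w : ℝ) + 1 :=
    hN0.trans_le (add_le_add (hvc.trans (Nat.cast_le.2 hle)) le_rfl)
  have h2 : N0 < activeCount (IsActive M) (M:ℤ) k w + 1 := by exact_mod_cast h1
  omega

/-- The geometric step: a layer point covers. -/
lemma cover_step {d k : ℕ} {K : Set ((Fin d → ℝ) × (Fin k → ℝ))} (hK : Convex ℝ K) {n : ℝ}
    (hn : 1 < n) {a1 : Fin d → ℝ} {wv : Fin k → ℝ} (h1 : (a1, wv) ∈ K)
    {b0 u0 y0 cY : Fin d → ℝ} {v : Fin k → ℝ} (hb : (b0, (0 : Fin k → ℝ)) ∈ K)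
    (hu : (u0, (2:ℝ) • v) ∈ K) (he : (1/2:ℝ) • b0 = y0 + cY) {P : (Fin d → ℝ) × (Fin k → ℝ)}
    (hP1 : P.1 = (1 - 1/n) • a1 + (1/n) • (y0 + (cY + (1/2:ℝ) • u0)))
    (hP2 : P.2 = (1 - 1/n) • wv + (1/n) • v) : P ∈ K := by
  have hp2 : (y0 + (cY + (1/2:ℝ) • u0), v) ∈ K := by
    have := hK hb hu (show (0:ℝ) ≤ 1/2 by norm_num) (show (0:ℝ) ≤ 1/2 by norm_num) (by norm_num)
    convert this using 1
    refine Prod.ext ?_ ?_
    · simp only [Prod.fst_add, Prod.smul_fst]; rw [he, add_assoc]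
    · funext l; simp
  have hn0 : (0:ℝ) < 1/n := by positivity
  have hn1 : 1/n < 1 := by rw [div_lt_one (by positivity)]; exact hn
  have := hK h1 hp2 (by linarith : (0:ℝ) ≤ 1 - 1/n) hn0.le (by ring)
  convert this using 1
  exact Prod.ext (by simp [hP1]) (by simp [hP2])

open Classical in
/-- Every point is covered. -/
theorem cover_point {d k j : ℕ} (hk : k = 4 * j) (hj : 0 < j) (hd : 100 ≤ d) {N0 : ℕ}
    (hN0 : (N0:ℝ) < (k.choose j : ℝ) / (2 * (k:ℝ) + 1) + 1)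
    (hη1 : baseEta d k ≤ 1)
    (hbig : meshCount d k ^ (2 ^ k) * baseEta d k ^ N0 < (1 / (16 * ((d + k : ℕ) : ℝ))) ^ d)
    {K : Set ((Fin d → ℝ) × (Fin k → ℝ))} (hK : Convex ℝ K) {V0 : ℝ}
    (hV0 : 0 < V0) (hsec : ∀ w : Fin k → ℝ, ∑ l, w l ^ 2 ≤ (k:ℝ) + 1 → V0 ≤ volume.real (sec K w))
    {B0 Y0 : Set (Fin d → ℝ)} {cY0 : Fin d → ℝ} (hB0sub : B0 ⊆ sec K 0)
    (hY0sub : ∀ y ∈ Y0, y + cY0 ∈ (1/2:ℝ) • B0)
    (S : (Fin k → ℤ) → Set (Fin d → ℝ))
    (hS : ∀ w, IsActive (meshM d k) w →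
      S w ⊆ (1 - 1 / ((d + k : ℕ) : ℝ)) • sec K (wpt (meshM d k) w))
    {R m p : ℕ} [Fact p.Prime] {h : Fin d → ZMod p} {t : Fin k → ZMod p}
    (hMc1 : 1 ≤ meshCount d k) (hη0 : 0 < baseEta d k)
    (ht : ∀ w, ((layered (fun w => if IsActive (meshM d k) w then
        uncovered (gridPts R (m^4) (S w)) h else univ) (meshM d k : ℤ) k t w).card : ℝ) ≤
      Fintype.card (ZMod p) * meshCount d k ^ (2 ^ k - 1) *
        baseEta d k ^ activeCount (IsActive (meshM d k)) (meshM d k : ℤ) k w)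
    (hG : ∀ c : Fin d → ℝ, ∃ G : Finset (Fin d → ℤ),
        (p:ℝ) * (1 / (16 * ((d + k : ℕ) : ℝ))) ^ d ≤ G.card ∧
        (∀ g ∈ G, c - toR (m^4) g ∈ (1 / ((d + k : ℕ) : ℝ)) • Y0) ∧
        Set.InjOn (fun g : Fin d → ℤ => ∑ i, h i * (g i : ZMod p)) G)
    {A : Matrix (Fin d ⊕ Fin k) (Fin d ⊕ Fin k) ℝ}
    (hAlat : ∀ (g : Fin d → ℤ) (z : Fin k → ℤ),
        ∑ j, h j * (g j : ZMod p) = ∑ l, (z l : ZMod p) * t l →
        ∃ x : Fin d ⊕ Fin k → ℤ, A *ᵥ (fun i => (x i : ℝ)) =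
          Sum.elim (fun i => (g i : ℝ) / (m:ℝ)^4)
            (fun l => 2 * (1 - 1 / ((d + k : ℕ) : ℝ)) * z l))
    (y : Fin d → ℝ) (σ : Fin k → ℝ) :
    ∃ x : Fin d ⊕ Fin k → ℤ,
      (y - (fun i => (A *ᵥ fun i => (x i : ℝ)) (Sum.inl i)),
        σ - (fun l => (A *ᵥ fun i => (x i : ℝ)) (Sum.inr l))) ∈ K := by
  set n := d + k with hn
  have hnR : (100:ℝ) ≤ (n:ℝ) := by exact_mod_cast (by omega : 100 ≤ n)
  set M := meshM d k with hM
  have hMpos : 0 < M := pow_pos (by omega) 3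
  have hMR : (0:ℝ) < M := by exact_mod_cast hMpos
  set c₁ : ℝ := 1 - 1 / (n:ℝ) with hc₁
  have hc₁0 : 0 < c₁ := by
    rw [hc₁, sub_pos, div_lt_one (by positivity)]; linarith
  set s' := 2 * c₁ with hs'
  have hs'0 : 0 < s' := by positivity
  let z0 : Fin k → ℤ := fun l => ⌊σ l / s'⌋
  let f : Fin k → ℝ := fun l => σ l / s' - (z0 l : ℝ)
  have hf : ∀ l, 0 ≤ f l ∧ f l < 1 := fun l => ⟨Int.fract_nonneg _, Int.fract_lt_one _⟩
  let w : Fin k → ℤ := fun l => ⌊f l * M⌋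
  have hw0 : ∀ l, (w l : ℝ) ≤ f l * M ∧ f l * M < w l + 1 := fun l =>
    ⟨Int.floor_le _, Int.lt_floor_add_one _⟩
  have hwM : ∀ l, 0 ≤ w l ∧ w l ≤ (M:ℤ) := by
    intro l
    refine ⟨Int.floor_nonneg.2 (mul_nonneg (hf l).1 hMR.le), ?_⟩
    have : (w l : ℝ) ≤ ((M:ℤ):ℝ) := by
      push_cast
      nlinarith [(hw0 l).1, (hf l).2]
    exact_mod_cast this
  let v : Fin k → ℝ := fun l => ((n:ℝ) - 1) * (2 * f l - wpt M w l)
  have hv2 : ∑ l, ((2:ℝ) • v) l ^ 2 ≤ (k:ℝ) + 1 := by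
    calc ∑ l, ((2:ℝ) • v) l ^ 2 ≤ ∑ _l : Fin k, (1:ℝ) := by
          refine sum_le_sum fun l _ => ?_
          have h1 := (hw0 l).1
          have h2 := (hw0 l).2
          have hwd : 0 ≤ 2 * f l - wpt M w l ∧ 2 * f l - wpt M w l ≤ 2 / M := by
            simp only [wpt]
            constructor
            · rw [sub_nonneg, div_le_iff₀ hMR]; linarith
            · rw [sub_le_iff_le_add, ← add_div, le_div_iff₀ hMR]; linarith
          have hv1 : v l ≤ (n:ℝ) * (2 / M) :=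
            mul_le_mul (by linarith) hwd.2 hwd.1 (by positivity)
          have hn2 : (n:ℝ) * (2 / M) ≤ 1/2 := by
            rw [hM, meshM, ← hn, mul_div_assoc', div_le_iff₀ (by positivity)]
            push_cast
            have h2n : (4:ℝ) ≤ (n:ℝ) ^ 2 := le_trans (by norm_num) (pow_le_pow_left₀ (by norm_num) hnR 2)
            have h4n : (n:ℝ) * 4 ≤ (n:ℝ) * (n:ℝ) ^ 2 := mul_le_mul_of_nonneg_left h2n (Nat.cast_nonneg n)
            rw [pow_succ' (n:ℝ) 2]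
            linarith
          simp only [Pi.smul_apply, smul_eq_mul]
          have hv0 : 0 ≤ v l := mul_nonneg (by linarith) hwd.1
          exact pow_le_one₀ (by linarith) (by linarith)
      _ ≤ _ := by simp
  obtain ⟨u0, hu0⟩ : (sec K ((2:ℝ) • v)).Nonempty := by
    refine nonempty_of_measure_ne_zero (μ := volume) fun h0 => ?_
    have := hsec _ hv2
    rw [measureReal_def, h0] at this
    simp at this
    linarith
  set c : Fin d → ℝ := y - (1/(n:ℝ)) • (cY0 + (1/2:ℝ) • u0) with hc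
  obtain ⟨G, g1, g2, g3⟩ := hG c
  set U0 : (Fin k → ℤ) → Finset (ZMod p) := fun w => if IsActive M w then
        uncovered (gridPts R (m^4) (S w)) h else univ with hU0
  set U := layered U0 (M:ℤ) k t w with hU
  have hlt : (U.card : ℝ) < G.card := by
    have h1 := ht w
    rw [ZMod.card] at h1
    refine h1.trans_lt (lt_of_lt_of_le ?_ g1)
    have hppos : (0:ℝ) < p := by exact_mod_cast (Fact.out : p.Prime).pos
    rw [mul_assoc]
    refine lt_of_le_of_lt (mul_le_mul_of_nonneg_left (mul_le_mul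
      (pow_le_pow_right₀ hMc1 (Nat.sub_le _ _))
      (pow_le_pow_of_le_one hη0.le hη1 (active_lower hk hj hMpos hwM hN0)) (by positivity)
      (by positivity)) hppos.le) (mul_lt_mul_of_pos_left hbig hppos)
  set φ : (Fin d → ℤ) → ZMod p := fun g =>
    ∑ i, h i * (g i : ZMod p) - ∑ l, (z0 l : ZMod p) * t l with hφ
  obtain ⟨g, hgG, hgU⟩ : ∃ g ∈ G, φ g ∉ U := by
    by_contra hno
    push Not at hno
    have : G.card ≤ U.card := card_le_card_of_injOn φ hno fun g hg g' hg' he =>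
      g3 hg hg' (sub_left_inj.1 he)
    exact absurd (Nat.cast_le.2 this) (not_le.2 hlt)
  simp only [hU, layered, mem_filter, mem_univ, true_and] at hgU
  push Not at hgU
  obtain ⟨T, -, hT⟩ := hgU
  set wT := shiftIdx (M:ℤ) w T with hwT
  have hTa : IsActive M wT := by
    by_contra hna
    simp only [hU0, if_neg hna] at hT
    exact hT (mem_univ _)
  simp only [hU0, if_pos hTa] at hT
  rw [mem_uncovered] at hT
  push Not at hT
  obtain ⟨b, hb, hbe⟩ := hT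
  set zz : Fin k → ℤ := fun l => z0 l + if l ∈ T then 1 else 0 with hzz
  obtain ⟨x, hx⟩ := hAlat (g - b) zz (by
    simp only [Pi.sub_apply, Int.cast_sub, mul_sub, sum_sub_distrib]
    rw [hbe]
    simp only [hφ, hzz, Int.cast_add, add_mul, sum_add_distrib]
    simp [apply_ite (Int.cast : ℤ → ZMod p)]
    ring)
  refine ⟨x, ?_⟩
  rw [hx]
  obtain ⟨a1, ha1, hae⟩ := hS wT hTa (toR_mem_of_gridPts hb)
  obtain ⟨y0, hy0, hy0e⟩ := g2 g hgG
  obtain ⟨b0, hb0, hb0e⟩ := hY0sub y0 hy0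
  refine cover_step hK (n := (n:ℝ)) (by linarith) ha1 (hB0sub hb0) hu0 hb0e ?_ ?_
  · funext i
    have h1 := congrFun hae i
    have h2 := congrFun hy0e i
    simp only [Pi.smul_apply, smul_eq_mul, toR, Pi.sub_apply, hc, Pi.add_apply, Nat.cast_pow]
      at h1 h2
    simp only [Pi.smul_apply, smul_eq_mul, Pi.sub_apply, Pi.add_apply, Sum.elim_inl, Int.cast_sub,
      sub_div]
    linarith
  · funext l
    have hn0 : (n:ℝ) ≠ 0 := by positivity
    have hσ : σ l = s' * ((z0 l : ℝ) + f l) := by simp only [f]; field_simp; ring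
    simp only [Sum.elim_inr, Pi.sub_apply, Pi.add_apply, Pi.smul_apply, smul_eq_mul, v]
    rw [hσ, hs', hzz, hwT, hc₁]
    simp only [wpt, shiftIdx]
    split_ifs <;> push_cast <;> field_simp <;> ring

open Classical in
theorem core_cover {d k j : ℕ} (hk : k = 4 * j) (hj : 0 < j) (hd : 100 ≤ d)
    (hd' : 24 ≤ tauC * d) (_hkd : k ≤ d) {N0 : ℕ}
    (hN0 : (N0:ℝ) < (k.choose j : ℝ) / (2 * (k:ℝ) + 1) + 1)
    (hη1 : baseEta d k ≤ 1)
    (hbig : meshCount d k ^ (2 ^ k) * baseEta d k ^ N0 < (1 / (16 * ((d + k : ℕ) : ℝ))) ^ d)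
    {K : Set ((Fin d → ℝ) × (Fin k → ℝ))} (hKc : IsCompact K) (hK : Convex ℝ K) {V0 : ℝ}
    (hV0 : 0 < V0) (hsec : ∀ w : Fin k → ℝ, ∑ l, w l ^ 2 ≤ (k:ℝ) + 1 → V0 ≤ volume.real (sec K w)) :
    ∃ A : Matrix (Fin d ⊕ Fin k) (Fin d ⊕ Fin k) ℝ, A.det ≠ 0 ∧
      (2:ℝ) ^ k * V0 ≤ 16 * tauC * d * |A.det| ∧
      ∀ (y : Fin d → ℝ) (σ : Fin k → ℝ), ∃ x : Fin d ⊕ Fin k → ℤ,
        (y - (fun i => (A *ᵥ fun i => (x i : ℝ)) (Sum.inl i)),
          σ - (fun l => (A *ᵥ fun i => (x i : ℝ)) (Sum.inr l))) ∈ K := by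
  have hd0 : 0 < d := by omega
  set n := d + k with hn
  have hn100 : 100 ≤ n := by omega
  have hnR : (100:ℝ) ≤ (n:ℝ) := by exact_mod_cast hn100
  set M := meshM d k with hM
  have hMpos : 0 < M := pow_pos (by omega) 3
  have hMR : (0:ℝ) < M := by exact_mod_cast hMpos
  set c₁ : ℝ := 1 - 1 / (n:ℝ) with hc₁
  have hc₁0 : 0 < c₁ := by
    rw [hc₁, sub_pos, div_lt_one (by positivity)]; linarith
  have hc₁1 : c₁ ≤ 1 := by
    rw [hc₁]; have : (0:ℝ) ≤ 1 / (n:ℝ) := by positivity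
    linarith
  obtain ⟨R, hRK⟩ : ∃ R : ℕ, K ⊆ Metric.closedBall 0 (R:ℝ) := by
    obtain ⟨r, hr⟩ := hKc.isBounded.subset_closedBall 0
    exact ⟨⌈r⌉₊, hr.trans (Metric.closedBall_subset_closedBall (Nat.le_ceil r))⟩
  have hsub : ∀ v : Fin k → ℝ, ∑ l, v l ^ 2 ≤ (k:ℝ) + 1 → ∃ B, B ⊆ sec K v ∧ Convex ℝ B ∧
      IsCompact B ∧ volume.real B = V0 := fun v hv =>
    exists_sub_body hd0 (sec_convex hK v) (sec_compact hKc v) hV0 (hsec v hv)
  obtain ⟨B0, hB0sub, hB0c, hB0k, hB0v⟩ := hsub 0 (by simp; positivity)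
  obtain ⟨cY0, Y0, hY0c, hY0k, hY0s, hY0sub, hY0lo, hY0hi, hY0R⟩ :=
    small_body (n := (n:ℝ)) hB0c hB0k hV0 hB0v (hB0sub.trans (sec_subset_ball hRK _)) (by linarith)
  let S : (Fin k → ℤ) → Set (Fin d → ℝ) := fun w =>
    if h : IsActive M w then c₁ • (hsub (wpt M w) h).choose else ∅
  have hS : ∀ w, IsActive M w → S w ⊆ c₁ • sec K (wpt M w) ∧ Convex ℝ (S w) ∧ IsCompact (S w) ∧
      volume.real (S w) = c₁ ^ d * V0 ∧ S w ⊆ Metric.closedBall 0 ((2 * R + 1 : ℕ):ℝ) := by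
    intro w hw
    obtain ⟨h1, h2, h3, h4⟩ := (hsub (wpt M w) hw).choose_spec
    have e : S w = c₁ • (hsub (wpt M w) hw).choose := by simp only [S]; rw [dif_pos hw]
    rw [e]
    refine ⟨Set.smul_set_mono h1, h2.smul _, h3.smul _, ?_, ?_⟩
    · rw [measureReal_def, Measure.addHaar_smul_of_nonneg _ hc₁0.le, ENNReal.toReal_mul,
        ENNReal.toReal_ofReal (by positivity), Module.finrank_fin_fun, ← measureReal_def, h4]
    · rintro _ ⟨x, hx, rfl⟩
      have := sec_subset_ball hRK _ (h1 hx)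
      rw [Metric.mem_closedBall, dist_zero_right] at this ⊢
      rw [norm_smul, Real.norm_eq_abs, abs_of_pos hc₁0]
      calc c₁ * ‖x‖ ≤ 1 * ‖x‖ := mul_le_mul_of_nonneg_right hc₁1 (norm_nonneg _)
        _ ≤ _ := by push_cast; linarith [norm_nonneg x]
  have hV1low : V0 / 4 ≤ c₁ ^ d * V0 := by
    calc V0 / 4 = 1/4 * V0 := by ring
      _ ≤ _ := mul_le_mul_of_nonneg_right (pow_one_sub_inv_ge hn100 (by omega)) hV0.le
  set I : Finset (Fin k → ℤ) := zbox (Fin k) ((k + 2) * M) with hI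
  have hIcard : (I.card : ℝ) ≤ meshCount d k := by
    rw [hI, zbox, Fintype.card_piFinset, prod_const, card_univ, Fintype.card_fin, Int.card_Icc,
      meshCount, ← hM]
    rw [show ((((k+2)*M : ℕ) : ℤ) + 1 - -(((k+2)*M : ℕ) : ℤ)).toNat = 2*((k+2)*M)+1 by omega]
    push_cast; exact le_rfl
  obtain ⟨m, p, hfp, h, hm, hpV, hne, hunc, hG⟩ := choose_scale hd hd'
    (I := I.filter (IsActive M)) (S := S) ((Nat.cast_le.2 (card_filter_le _ _)).trans hIcard)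
    (R := 2 * R + 1) (by omega) hV0 hV1low (mul_le_of_le_one_left hV0.le (pow_le_one₀ hc₁0.le hc₁1))
    (fun w hw => (hS w (mem_filter.1 hw).2).2) (hY0c.smul (1/(n:ℝ))) (hY0k.smul _)
    (by rintro _ ⟨y, hy, rfl⟩; exact ⟨-y, hY0s y hy, by simp⟩)
    (by push_cast; exact hY0R) hnR (by exact_mod_cast (by omega : d ≤ n))
    (by rw [measureReal_def, Measure.addHaar_smul_of_nonneg _ (by positivity), ENNReal.toReal_mul,
      ENNReal.toReal_ofReal (by positivity), Module.finrank_fin_fun, ← measureReal_def])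
    hY0lo hY0hi
  let U0 : (Fin k → ℤ) → Finset (ZMod p) := fun w =>
    if IsActive M w then uncovered (gridPts (2 * R + 1) (m^4) (S w)) h else univ
  have hact_mem : ∀ w, IsActive M w → w ∈ I := by
    intro w hw
    refine index_mem hMpos 0 w ?_
    have : shiftIdx (M:ℤ) w ∅ = w := by funext l; simp [shiftIdx]
    simp [activeCount, lowCube_zero, filter_singleton, this, hw]
  have hMc1 : 1 ≤ meshCount d k :=
    one_le_pow₀ (by exact_mod_cast (by omega : 1 ≤ 2 * ((k+2)*M) + 1))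
  have hη0 : 0 < baseEta d k := by unfold baseEta meshCount; positivity
  obtain ⟨t, ht⟩ := layering U0 (IsActive M) (M:ℤ) I (index_mem hMpos) hIcard hMc1 hη0
    (fun w hw => by
      simp only [U0, if_pos hw]
      refine (hunc w (mem_filter.2 ⟨hact_mem w hw, hw⟩)).trans_eq ?_
      rw [ZMod.card]) k le_rfl
  obtain ⟨A, hAdet, hAlat⟩ := exists_lattice_matrix h hne t ((m:ℝ)^4) (2 * c₁)
  have hmr : (0:ℝ) < m := by exact_mod_cast hm
  have hppos : (0:ℝ) < p := by exact_mod_cast hfp.out.pos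
  refine ⟨A, by rw [hAdet]; positivity, ?_, fun y σ => ?_⟩
  · rw [hAdet, one_div, inv_pow, abs_of_pos (by positivity), mul_pow (2:ℝ) c₁ k]
    calc (2:ℝ) ^ k * V0 = 16 * ((2:ℝ) ^ k * ((1/4) * (V0/4))) := by ring
      _ ≤ 16 * ((2:ℝ) ^ k * (c₁ ^ k * (tauC * d * ((p:ℝ) * (((m:ℝ)^4) ^ d)⁻¹)))) := by
          refine mul_le_mul_of_nonneg_left (mul_le_mul_of_nonneg_left ?_ (by positivity))
            (by norm_num)
          exact mul_le_mul (pow_one_sub_inv_ge hn100 (by omega)) (hV1low.trans hpV)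
            (by positivity) (by positivity)
      _ = _ := by ring
  exact cover_point hk hj hd hN0 hη1 hbig hK hV0 hsec hB0sub hY0sub S (fun w hw => (hS w hw).1)
    hMc1 hη0 ht hG hAlat y σ

end Vale.Agent.P230
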