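import Mathlib

/-! Gaussian estimates for projections of one and of two points. -/

namespace Vale.Agent.P230

open MeasureTheory ProbabilityTheory Set
open scoped ENNReal NNReal

/-- Standard one-dimensional Gaussian. -/
noncomputable abbrev γ1 : Measure ℝ := gaussianReal 0 1

/-- Standard Gaussian on `Fin n → ℝ`. -/
noncomputable abbrev γn (n : ℕ) : Measure (Fin n → ℝ) := Measure.pi fun _ => γ1

/-- `k` independent standard Gaussian vectors. -/
noncomputable abbrev γkn (k n : ℕ) : Measure (Fin k → Fin n → ℝ) := Measure.pi fun _ => γn n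

lemma charFunDual_γ1 (M : StrongDual ℝ ℝ) :
    charFunDual γ1 M = Complex.exp (-((M 1 : ℝ) : ℂ) ^ 2 / 2) := by
  have h : ∀ x : ℝ, M x = M 1 * x := by
    intro x
    rw [show M x = M (x • (1:ℝ)) by simp, map_smul, smul_eq_mul, mul_comm]
  have e : charFunDual γ1 M = charFun γ1 (M 1) := by
    rw [charFunDual_apply, charFun_apply_real]
    refine integral_congr_ae (Filter.Eventually.of_forall fun x => ?_)
    simp only [h x]
    push_cast
    ring_nf
  rw [e, charFun_gaussianReal]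
  push_cast
  ring_nf

lemma charFunDual_γn_map {n : ℕ} {F : Type*} [NormedAddCommGroup F] [NormedSpace ℝ F]
    [MeasurableSpace F] [BorelSpace F] (T : (Fin n → ℝ) →L[ℝ] F) (L : StrongDual ℝ F) :
    charFunDual ((γn n).map T) L =
      Complex.exp (-((∑ i, (L (T (Pi.single i 1))) ^ 2 : ℝ) : ℂ) / 2) := by
  classical
  rw [charFunDual_map, charFunDual_pi]
  simp_rw [charFunDual_γ1]
  rw [← Complex.exp_sum]
  congr 1
  push_cast
  rw [neg_div, Finset.sum_div, ← Finset.sum_neg_distrib]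
  exact Finset.sum_congr rfl fun i _ => by simp [neg_div]

/-- `g ↦ g · u`. -/
noncomputable def dotCLM {n : ℕ} (u : Fin n → ℝ) : (Fin n → ℝ) →L[ℝ] ℝ :=
  ∑ i, u i • ContinuousLinearMap.proj i

lemma dotCLM_apply {n : ℕ} (u g : Fin n → ℝ) : dotCLM u g = ∑ i, g i * u i := by
  simp [dotCLM, mul_comm]

lemma dotCLM_single {n : ℕ} (u : Fin n → ℝ) (i : Fin n) : dotCLM u (Pi.single i 1) = u i := by
  rw [dotCLM_apply, Finset.sum_eq_single i]
  · simp
  · intro j _ hj; simp [hj]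
  · simp

lemma map_dot_γn {n : ℕ} (u : Fin n → ℝ) (hu : ∑ i, u i ^ 2 = 1) :
    (γn n).map (dotCLM u) = γ1 := by
  refine Measure.ext_of_charFunDual (funext fun L => ?_)
  rw [charFunDual_γn_map, charFunDual_γ1]
  have h : ∀ x : ℝ, L x = L 1 * x := by
    intro x
    rw [show L x = L (x • (1:ℝ)) by simp, map_smul, smul_eq_mul, mul_comm]
  simp_rw [dotCLM_single]
  have e : ∑ i, (L (u i)) ^ 2 = L 1 ^ 2 := by
    simp_rw [h (u _), mul_pow]
    rw [← Finset.mul_sum, hu, mul_one]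
  rw [e]
  push_cast
  ring_nf

/-- `(z, z') ↦ (z, ρ z + σ z')`. -/
noncomputable def shearCLM (ρ σ : ℝ) : ℝ × ℝ →L[ℝ] ℝ × ℝ :=
  (ContinuousLinearMap.fst ℝ ℝ ℝ).prod
    (ρ • ContinuousLinearMap.fst ℝ ℝ ℝ + σ • ContinuousLinearMap.snd ℝ ℝ ℝ)

lemma shearCLM_apply (ρ σ : ℝ) (z : ℝ × ℝ) : shearCLM ρ σ z = (z.1, ρ * z.1 + σ * z.2) := by
  simp [shearCLM]

lemma map_dot₂_γn {n : ℕ} (u w : Fin n → ℝ) (hu : ∑ i, u i ^ 2 = 1) (hw : ∑ i, w i ^ 2 = 1)
    {σ : ℝ} (hσ : σ ^ 2 = 1 - (∑ i, u i * w i) ^ 2) :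
    (γn n).map ((dotCLM u).prod (dotCLM w)) =
      (γ1.prod γ1).map (shearCLM (∑ i, u i * w i) σ) := by
  refine Measure.ext_of_charFunDual (funext fun L => ?_)
  rw [charFunDual_γn_map, charFunDual_map, charFunDual_prod, charFunDual_γ1, charFunDual_γ1,
    ← Complex.exp_add]
  have h : ∀ x y : ℝ, L (x, y) = x * L (1, 0) + y * L (0, 1) := by
    intro x y
    rw [← smul_eq_mul, ← smul_eq_mul, ← map_smul, ← map_smul, ← map_add]
    simp
  simp only [ContinuousLinearMap.prod_apply, dotCLM_single, ContinuousLinearMap.comp_apply,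
    ContinuousLinearMap.inl_apply, ContinuousLinearMap.inr_apply, shearCLM_apply]
  set A := L (1, 0)
  set B := L (0, 1)
  set ρ := ∑ i, u i * w i with hρ
  simp_rw [h (u _) (w _), h 1, h 0]
  congr 1
  have e : ∑ i, (u i * A + w i * B) ^ 2 = (A + ρ * B) ^ 2 + (σ * B) ^ 2 := by
    calc ∑ i, (u i * A + w i * B) ^ 2
        = A ^ 2 * (∑ i, u i ^ 2) + 2 * A * B * ρ + B ^ 2 * (∑ i, w i ^ 2) := by
          rw [hρ, Finset.mul_sum, Finset.mul_sum, Finset.mul_sum, ← Finset.sum_add_distrib,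
            ← Finset.sum_add_distrib]
          exact Finset.sum_congr rfl fun i _ => by ring
      _ = _ := by rw [hu, hw, mul_pow σ, hσ]; ring
  rw [e]
  push_cast
  ring_nf

lemma gaussianPDF_le_one (t : ℝ) : gaussianPDFReal 0 1 t ≤ 1 := by
  simp only [gaussianPDFReal, NNReal.coe_one, mul_one]
  refine mul_le_one₀ ?_ (Real.exp_pos _).le ?_
  · refine inv_le_one_of_one_le₀ (Real.one_le_sqrt.2 ?_)
    linarith [Real.two_le_pi]
  · exact Real.exp_le_one_iff.2 (by nlinarith [sq_nonneg t])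

lemma γ1_uIcc_le (a b : ℝ) : γ1.real (uIcc a b) ≤ |a - b| := by
  rw [measureReal_def, gaussianReal_apply_eq_integral 0 one_ne_zero, ENNReal.toReal_ofReal
    (setIntegral_nonneg measurableSet_uIcc fun x _ => gaussianPDFReal_nonneg _ _ _)]
  calc ∫ x in uIcc a b, gaussianPDFReal 0 1 x ≤ ∫ _x in uIcc a b, (1:ℝ) := by
        refine setIntegral_mono_on (integrable_gaussianPDFReal 0 1).integrableOn
          (integrableOn_const isCompact_uIcc.measure_lt_top.ne) measurableSet_uIcc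
          fun x _ => gaussianPDF_le_one x
    _ = |a - b| := by
        rw [setIntegral_const, smul_eq_mul, mul_one, measureReal_def, Real.volume_interval,
          ENNReal.toReal_ofReal (abs_nonneg _), abs_sub_comm]

lemma γ1_Ico_shift (a b a' b' : ℝ) :
    |γ1.real (Ico a b) - γ1.real (Ico a' b')| ≤ |a - a'| + |b - b'| := by
  have key : ∀ p q p' q' : ℝ, γ1.real (Ico p q) ≤ γ1.real (Ico p' q') + (|p - p'| + |q - q'|) := by
    intro p q p' q'
    have hsub : Ico p q ⊆ Ico p' q' ∪ (uIcc p p' ∪ uIcc q q') := by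
      intro x hx
      by_cases h1 : p' ≤ x
      · by_cases h2 : x < q'
        · exact Or.inl ⟨h1, h2⟩
        · exact Or.inr (Or.inr (mem_uIcc.2 (Or.inr ⟨not_lt.1 h2, hx.2.le⟩)))
      · exact Or.inr (Or.inl (mem_uIcc.2 (Or.inl ⟨hx.1, (not_le.1 h1).le⟩)))
    refine (measureReal_mono hsub).trans ((measureReal_union_le _ _).trans ?_)
    gcongr
    exact (measureReal_union_le _ _).trans (add_le_add (γ1_uIcc_le _ _) (γ1_uIcc_le _ _))
  rw [abs_sub_le_iff]
  constructor
  · linarith [key a b a' b']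
  · have := key a' b' a b
    rw [abs_sub_comm a' a, abs_sub_comm b' b] at this
    linarith

lemma γ1_Ico_lower {a b M : ℝ} (hab : a ≤ b) (ha : |a| ≤ M) (hb : |b| ≤ M) :
    (b - a) * ((Real.sqrt (2 * Real.pi))⁻¹ * Real.exp (-(M ^ 2 / 2))) ≤ γ1.real (Ico a b) := by
  rw [measureReal_def, gaussianReal_apply_eq_integral 0 one_ne_zero, ENNReal.toReal_ofReal
    (setIntegral_nonneg measurableSet_Ico fun x _ => gaussianPDFReal_nonneg _ _ _)]
  calc (b - a) * ((Real.sqrt (2 * Real.pi))⁻¹ * Real.exp (-(M ^ 2 / 2)))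
      = ∫ _x in Ico a b, (Real.sqrt (2 * Real.pi))⁻¹ * Real.exp (-(M ^ 2 / 2)) := by
        rw [setIntegral_const, smul_eq_mul, Real.volume_real_Ico_of_le hab]
    _ ≤ ∫ x in Ico a b, gaussianPDFReal 0 1 x := by
        refine setIntegral_mono_on (integrableOn_const measure_Ico_lt_top.ne)
          (integrable_gaussianPDFReal 0 1).integrableOn measurableSet_Ico fun x hx => ?_
        have hx2 : |x| ≤ M := abs_le.2 ⟨by linarith [(abs_le.1 ha).1, hx.1],
          by linarith [(abs_le.1 hb).2, hx.2]⟩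
        have := pow_le_pow_left₀ (abs_nonneg x) hx2 2
        rw [sq_abs] at this
        simp only [gaussianPDFReal, NNReal.coe_one, mul_one, sub_zero, neg_div]
        gcongr

/-- Two standard Gaussians with correlation `ρ`: intervals are nearly independent. -/
lemma γn_two_Ico {n : ℕ} (u w : Fin n → ℝ) (hu : ∑ i, u i ^ 2 = 1) (hw : ∑ i, w i ^ 2 = 1)
    {W a b c e : ℝ} (hW : 1 ≤ W) (ha : |a| ≤ W) (hb : |b| ≤ W) (hc : |c| ≤ W) (he : |e| ≤ W) :
    |(γn n).real {g | (∑ i, g i * u i) ∈ Ico a b ∧ (∑ i, g i * w i) ∈ Ico c e}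
        - γ1.real (Ico a b) * γ1.real (Ico c e)| ≤ 8 * W * |∑ i, u i * w i| := by
  set ρ := ∑ i, u i * w i with hρ
  set P := γ1.real (Ico a b)
  set Q := γ1.real (Ico c e)
  have hP0 : 0 ≤ P := measureReal_nonneg
  have hP1 : P ≤ 1 := measureReal_le_one
  have hQ0 : 0 ≤ Q := measureReal_nonneg
  have hQ1 : Q ≤ 1 := measureReal_le_one
  rcases lt_or_ge (1/2) |ρ| with hbig | hsmall
  · have h1 : (γn n).real {g | (∑ i, g i * u i) ∈ Ico a b ∧ (∑ i, g i * w i) ∈ Ico c e} ≤ 1 :=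
      measureReal_le_one
    have h0 : 0 ≤ (γn n).real {g | (∑ i, g i * u i) ∈ Ico a b ∧ (∑ i, g i * w i) ∈ Ico c e} :=
      measureReal_nonneg
    have h2 : P * Q ≤ 1 := mul_le_one₀ hP1 hQ0 hQ1
    have h3 : 0 ≤ P * Q := mul_nonneg hP0 hQ0
    have h4 : 8 * (1:ℝ) * (1/2) ≤ 8 * W * |ρ| := by gcongr
    rw [abs_le]
    constructor <;> linarith
  set σ := Real.sqrt (1 - ρ ^ 2) with hσdef
  have hρ2 : ρ ^ 2 ≤ 1 / 4 := by
    have := pow_le_pow_left₀ (abs_nonneg ρ) hsmall 2
    rw [sq_abs] at this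
    linarith
  have hσ2 : σ ^ 2 = 1 - ρ ^ 2 := Real.sq_sqrt (by linarith)
  have hσp : 0 < σ := Real.sqrt_pos.2 (by linarith)
  have hσlo : 1/2 ≤ σ := Real.le_sqrt_of_sq_le (by linarith)
  have hσhi : σ ≤ 1 := Real.sqrt_le_one.2 (by nlinarith [sq_nonneg ρ])
  have hσinv : 1 / σ - 1 ≤ |ρ| := by
    rw [sub_le_iff_le_add, div_le_iff₀ hσp]
    have h5 : σ ^ 2 ≤ σ := by nlinarith
    nlinarith [sq_abs ρ, abs_nonneg ρ]
  set S : Set (ℝ × ℝ) := Ico a b ×ˢ Ico c e with hS
  have hSm : MeasurableSet S := measurableSet_Ico.prod measurableSet_Ico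
  have e1 : (γn n).real {g | (∑ i, g i * u i) ∈ Ico a b ∧ (∑ i, g i * w i) ∈ Ico c e}
      = (γ1.prod γ1).real (shearCLM ρ σ ⁻¹' S) := by
    rw [← map_measureReal_apply (shearCLM ρ σ).continuous.measurable hSm,
      ← map_dot₂_γn u w hu hw hσ2, map_measureReal_apply (by fun_prop) hSm]
    congr 1
    ext g
    simp [hS, dotCLM_apply]
  set sc : ℝ → ℝ := fun z => γ1.real (Ico ((c - ρ * z) / σ) ((e - ρ * z) / σ))
  have hTm : MeasurableSet (shearCLM ρ σ ⁻¹' S) := (shearCLM ρ σ).continuous.measurable hSm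
  have e2 : (γ1.prod γ1).real (shearCLM ρ σ ⁻¹' S) = ∫ z in Ico a b, sc z ∂γ1 := by
    rw [measureReal_def, Measure.prod_apply hTm, ← integral_toReal
      (measurable_measure_prodMk_left hTm).aemeasurable
      (Filter.Eventually.of_forall fun z => measure_lt_top _ _),
      ← integral_indicator measurableSet_Ico]
    refine integral_congr_ae (Filter.Eventually.of_forall fun z => ?_)
    by_cases hz : z ∈ Ico a b
    · rw [indicator_of_mem hz]
      simp only [sc, measureReal_def]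
      congr 2
      ext z'
      simp only [mem_preimage, shearCLM_apply, hS, mem_prod, hz, true_and, mem_Ico,
        div_le_iff₀ hσp, lt_div_iff₀ hσp]
      constructor <;> rintro ⟨h1, h2⟩ <;> constructor <;> linarith
    · rw [indicator_of_notMem hz]
      have : Prod.mk z ⁻¹' (shearCLM ρ σ ⁻¹' S) = ∅ := by
        ext z'
        simp [shearCLM_apply, hS, hz]
      simp [this]
  have hscb : ∀ z ∈ Ico a b, ‖sc z - Q‖ ≤ 8 * W * |ρ| := by
    intro z hz
    have hzW : |z| ≤ W := abs_le.2 ⟨by linarith [(abs_le.1 ha).1, hz.1],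
      by linarith [(abs_le.1 hb).2, hz.2]⟩
    have shift : ∀ t, |t| ≤ W → |(t - ρ * z) / σ - t| ≤ 4 * W * |ρ| := by
      intro t ht
      have e3 : (t - ρ * z) / σ - t = t * (1/σ - 1) - ρ * z * (1/σ) := by
        field_simp; ring
      rw [e3]
      refine (abs_sub _ _).trans ?_
      rw [abs_mul, abs_mul, abs_mul]
      have h6 : 0 ≤ 1/σ - 1 := by
        rw [sub_nonneg, le_div_iff₀ hσp]; linarith
      have h7 : |(1:ℝ)/σ| ≤ 2 := by
        rw [abs_of_pos (by positivity), div_le_iff₀ hσp]; linarith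
      rw [abs_of_nonneg h6]
      calc |t| * (1/σ - 1) + |ρ| * |z| * |1/σ| ≤ W * |ρ| + |ρ| * W * 2 := by gcongr
        _ ≤ 4 * W * |ρ| := by nlinarith [abs_nonneg ρ]
    rw [Real.norm_eq_abs]
    refine (γ1_Ico_shift _ _ _ _).trans ?_
    linarith [shift c hc, shift e he]
  have hscm : Integrable sc (γ1.restrict (Ico a b)) := by
    refine Integrable.of_bound ?_ 1 (Filter.Eventually.of_forall fun z => ?_)
    · have hl : LipschitzWith ((2 * |ρ| / σ).toNNReal) sc := by
        refine LipschitzWith.of_dist_le_mul fun z z' => ?_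
        rw [Real.dist_eq, Real.dist_eq, Real.coe_toNNReal _ (by positivity)]
        refine (γ1_Ico_shift _ _ _ _).trans (le_of_eq ?_)
        rw [show (c - ρ * z) / σ - (c - ρ * z') / σ = -(ρ / σ) * (z - z') by ring,
          show (e - ρ * z) / σ - (e - ρ * z') / σ = -(ρ / σ) * (z - z') by ring,
          abs_mul, abs_neg, abs_div, abs_of_pos hσp]
        ring
      exact hl.continuous.aestronglyMeasurable
    · rw [Real.norm_eq_abs, abs_of_nonneg measureReal_nonneg]
      exact measureReal_le_one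
  rw [e1, e2, ← Real.norm_eq_abs]
  have e4 : P * Q = ∫ _z in Ico a b, Q ∂γ1 := by rw [setIntegral_const, smul_eq_mul]
  rw [e4, ← integral_sub hscm (integrable_const _)]
  refine (norm_setIntegral_le_of_norm_le_const (measure_lt_top _ _) hscb).trans ?_
  exact mul_le_of_le_one_right (by positivity) measureReal_le_one

lemma abs_prod_sub_prod_le {ι : Type*} (s : Finset ι) (a b : ι → ℝ)
    (ha : ∀ i ∈ s, a i ∈ Icc (0:ℝ) 1) (hb : ∀ i ∈ s, b i ∈ Icc (0:ℝ) 1) :
    |∏ i ∈ s, a i - ∏ i ∈ s, b i| ≤ ∑ i ∈ s, |a i - b i| := by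
  classical
  induction s using Finset.induction_on with
  | empty => simp
  | insert i s hi ih =>
    rw [Finset.prod_insert hi, Finset.prod_insert hi, Finset.sum_insert hi]
    obtain ⟨hai, ha'⟩ := (Finset.forall_mem_insert _ _ _).1 ha
    obtain ⟨hbi, hb'⟩ := (Finset.forall_mem_insert _ _ _).1 hb
    have hA0 : 0 ≤ ∏ j ∈ s, a j := Finset.prod_nonneg fun j hj => (ha' j hj).1
    have hA1 : ∏ j ∈ s, a j ≤ 1 := Finset.prod_le_one (fun j hj => (ha' j hj).1) fun j hj => (ha' j hj).2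
    have e : a i * ∏ j ∈ s, a j - b i * ∏ j ∈ s, b j =
        (a i - b i) * ∏ j ∈ s, a j + b i * (∏ j ∈ s, a j - ∏ j ∈ s, b j) := by ring
    rw [e]
    refine (abs_add_le _ _).trans ?_
    rw [abs_mul, abs_mul, abs_of_nonneg hA0, abs_of_nonneg hbi.1]
    exact add_le_add (mul_le_of_le_one_right (abs_nonneg _) hA1)
      ((mul_le_of_le_one_left (abs_nonneg _) hbi.2).trans (ih ha' hb'))

/-- Event that `G x / R` lies in the box `∏ [c_l, e_l)`. -/
def boxEvent {k n : ℕ} (R : ℝ) (c e : Fin k → ℝ) (x : Fin n → ℝ) : Set (Fin k → Fin n → ℝ) :=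
  {G | ∀ l, (∑ i, G l i * x i) / R ∈ Ico (c l) (e l)}

lemma mem_scaled {t r R a b : ℝ} (hr : 0 < r) (hR : 0 < R) :
    t / R ∈ Ico a b ↔ t / r ∈ Ico (a * (R / r)) (b * (R / r)) := by
  simp only [mem_Ico]
  rw [le_div_iff₀ hR, div_lt_iff₀ hR, le_div_iff₀ hr, div_lt_iff₀ hr,
    show a * (R / r) * r = a * R by field_simp, show b * (R / r) * r = b * R by field_simp]

lemma sum_sq_div_norm {n : ℕ} (x : Fin n → ℝ) (hx : 0 < ∑ i, x i ^ 2) :
    ∑ i, (x i / Real.sqrt (∑ j, x j ^ 2)) ^ 2 = 1 := by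
  simp_rw [div_pow, Real.sq_sqrt hx.le]
  rw [← Finset.sum_div, div_self hx.ne']

lemma boxEvent_one {k n : ℕ} {R : ℝ} (hR : 0 < R) (c e : Fin k → ℝ) (x : Fin n → ℝ)
    (hx : 0 < ∑ i, x i ^ 2) :
    (γkn k n).real (boxEvent R c e x) = ∏ l, γ1.real
      (Ico (c l * (R / Real.sqrt (∑ i, x i ^ 2))) (e l * (R / Real.sqrt (∑ i, x i ^ 2)))) := by
  set r := Real.sqrt (∑ i, x i ^ 2) with hr
  have hrp : 0 < r := Real.sqrt_pos.2 hx
  have e1 : boxEvent R c e x = Set.pi univ fun l => dotCLM (fun i => x i / r) ⁻¹'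
      Ico (c l * (R / r)) (e l * (R / r)) := by
    ext G
    simp only [boxEvent, mem_ofPred_eq, Set.mem_pi, Set.mem_univ, true_implies, mem_preimage,
      dotCLM_apply]
    refine forall_congr' fun l => ?_
    rw [mem_scaled hrp hR, Finset.sum_div]
    simp_rw [mul_div_assoc]
  rw [e1, measureReal_def, Measure.pi_pi, ENNReal.toReal_prod]
  refine Finset.prod_congr rfl fun l _ => ?_
  rw [← measureReal_def, ← map_measureReal_apply (by fun_prop) measurableSet_Ico,
    map_dot_γn _ (sum_sq_div_norm x hx)]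

lemma boxEvent_two {k n : ℕ} {R W : ℝ} (hR : 0 < R) (hW : 1 ≤ W) (c e : Fin k → ℝ)
    (hc : ∀ l, |c l| ≤ W) (he : ∀ l, |e l| ≤ W) (x y : Fin n → ℝ)
    (hx : R ^ 2 ≤ ∑ i, x i ^ 2) (hy : R ^ 2 ≤ ∑ i, y i ^ 2) :
    |(γkn k n).real (boxEvent R c e x ∩ boxEvent R c e y) -
      (γkn k n).real (boxEvent R c e x) * (γkn k n).real (boxEvent R c e y)|
      ≤ 8 * W * k * (|∑ i, x i * y i| / R ^ 2) := by
  have hx0 : 0 < ∑ i, x i ^ 2 := lt_of_lt_of_le (by positivity) hx
  have hy0 : 0 < ∑ i, y i ^ 2 := lt_of_lt_of_le (by positivity) hy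
  set r := Real.sqrt (∑ i, x i ^ 2) with hr
  set s := Real.sqrt (∑ i, y i ^ 2) with hs
  have hrp : 0 < r := Real.sqrt_pos.2 hx0
  have hsp : 0 < s := Real.sqrt_pos.2 hy0
  have hrR : R ≤ r := Real.le_sqrt_of_sq_le hx
  have hsR : R ≤ s := Real.le_sqrt_of_sq_le hy
  set u := fun i => x i / r
  set w := fun i => y i / s
  have e1 : boxEvent R c e x ∩ boxEvent R c e y = Set.pi univ fun l =>
      {g : Fin n → ℝ | (∑ i, g i * u i) ∈ Ico (c l * (R / r)) (e l * (R / r)) ∧
        (∑ i, g i * w i) ∈ Ico (c l * (R / s)) (e l * (R / s))} := by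
    ext G
    simp only [boxEvent, mem_inter_iff, mem_ofPred_eq, Set.mem_pi, Set.mem_univ, true_implies,
      ← forall_and]
    refine forall_congr' fun l => ?_
    rw [mem_scaled hrp hR, mem_scaled hsp hR, Finset.sum_div, Finset.sum_div]
    simp_rw [u, w, mul_div_assoc]
  rw [e1, measureReal_def, Measure.pi_pi, ENNReal.toReal_prod, boxEvent_one hR c e x hx0,
    boxEvent_one hR c e y hy0, ← Finset.prod_mul_distrib]
  refine (abs_prod_sub_prod_le _ _ _ (fun l _ => ⟨ENNReal.toReal_nonneg, measureReal_le_one⟩)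
    (fun l _ => ⟨mul_nonneg measureReal_nonneg measureReal_nonneg,
      mul_le_one₀ measureReal_le_one measureReal_nonneg measureReal_le_one⟩)).trans ?_
  have hρ : |∑ i, u i * w i| ≤ |∑ i, x i * y i| / R ^ 2 := by
    have e2 : ∑ i, u i * w i = (∑ i, x i * y i) / (r * s) := by
      rw [Finset.sum_div]
      exact Finset.sum_congr rfl fun i _ => by simp only [u, w]; ring
    rw [e2, abs_div, abs_of_pos (by positivity : 0 < r * s)]
    exact div_le_div_of_nonneg_left (abs_nonneg _) (by positivity)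
      (by rw [sq]; exact mul_le_mul hrR hsR hR.le hrp.le)
  have hb : ∀ t, |t| ≤ W → ∀ q, R ≤ q → |t * (R / q)| ≤ W := by
    intro t ht q hq
    have hqp : 0 < q := hR.trans_le hq
    rw [abs_mul, abs_of_pos (by positivity : 0 < R / q)]
    exact (mul_le_of_le_one_right (abs_nonneg t) ((div_le_one hqp).2 hq)).trans ht
  calc _ ≤ ∑ _l : Fin k, 8 * W * (|∑ i, x i * y i| / R ^ 2) := by
        refine Finset.sum_le_sum fun l _ => ?_
        refine (γn_two_Ico u w (sum_sq_div_norm x hx0) (sum_sq_div_norm y hy0) hW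
          (hb _ (hc l) _ hrR) (hb _ (he l) _ hrR) (hb _ (hc l) _ hsR) (hb _ (he l) _ hsR)).trans ?_
        exact mul_le_mul_of_nonneg_left hρ (by positivity)
    _ = _ := by simp; ring

end Vale.Agent.P230
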