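import Mathlib
import Vale.Agent.P230.PL

/-! Isotropic position, and a thin shell of relative mass `1/polylog`. -/

namespace Vale.Agent.P230

open MeasureTheory Set Matrix
open scoped Pointwise ENNReal MatrixOrder ComplexOrder

variable {n : ℕ}

/-- Centred, unit covariance. -/
structure Iso (K : Set (Fin n → ℝ)) : Prop where
  compact : IsCompact K
  convex : Convex ℝ K
  pos : 0 < volume.real K
  mean : ∀ i, ∫ x in K, x i = 0
  second : ∀ i j, ∫ x in K, x i * x j = if i = j then volume.real K else 0

lemma volume_real_pos_of_interior {K : Set (Fin n → ℝ)} (hc : IsCompact K)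
    (hi : (interior K).Nonempty) : 0 < volume.real K := by
  rw [measureReal_def]
  refine ENNReal.toReal_pos ?_ hc.measure_lt_top.ne
  exact ne_of_gt ((isOpen_interior.measure_pos volume hi).trans_le (measure_mono interior_subset))

theorem exists_iso {K : Set (Fin n → ℝ)} (hc : IsCompact K) (hK : Convex ℝ K)
    (hi : (interior K).Nonempty) :
    ∃ (M : Matrix (Fin n) (Fin n) ℝ) (b : Fin n → ℝ), M.det ≠ 0 ∧
      Iso ((fun x => M *ᵥ x + b) '' K) ∧
      volume.real ((fun x => M *ᵥ x + b) '' K) = |M.det| * volume.real K := by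
  classical
  set V := volume.real K with hV
  have hVp : 0 < V := volume_real_pos_of_interior hc hi
  set c : Fin n → ℝ := fun i => (∫ x in K, x i) / V with hcdef
  have hint : ∀ f : (Fin n → ℝ) → ℝ, Continuous f → IntegrableOn f K :=
    fun f hf => hf.continuousOn.integrableOn_compact hc
  set S : Matrix (Fin n) (Fin n) ℝ :=
    Matrix.of fun i j => (∫ x in K, (x i - c i) * (x j - c j)) / V with hS
  have hquad : ∀ v : Fin n → ℝ, star v ⬝ᵥ (S *ᵥ v) =
      (∫ x in K, (∑ i, v i * (x i - c i)) ^ 2) / V := by
    intro v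
    simp only [star_trivial, dotProduct, mulVec, hS, Matrix.of_apply, sq, Finset.sum_mul_sum]
    rw [integral_finsetSum _ (fun i _ => hint _ (by fun_prop))]
    rw [Finset.sum_div]
    refine Finset.sum_congr rfl fun i _ => ?_
    rw [integral_finsetSum _ (fun j _ => hint _ (by fun_prop)), Finset.sum_div, Finset.mul_sum]
    refine Finset.sum_congr rfl fun j _ => ?_
    have e : (fun x : Fin n → ℝ => v i * (x i - c i) * (v j * (x j - c j))) =
        fun x => (v i * v j) * ((x i - c i) * (x j - c j)) := by funext x; ring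
    rw [e, integral_const_mul]
    ring
  have hpd : S.PosDef := by
    refine Matrix.PosDef.of_dotProduct_mulVec_pos ?_ fun v hv => ?_
    · ext i j
      simp [hS, mul_comm]
    · rw [hquad]
      refine div_pos ?_ hVp
      set f : (Fin n → ℝ) → ℝ := fun x => (∑ i, v i * (x i - c i)) ^ 2
      change 0 < ∫ x in K, f x
      rw [setIntegral_pos_iff_support_of_nonneg_ae
        (Filter.Eventually.of_forall fun x => sq_nonneg _) (hint f (by fun_prop))]
      have ho : IsOpen (Function.support f ∩ interior K) :=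
        (isOpen_compl_singleton.preimage (by fun_prop : Continuous f)).inter isOpen_interior
      refine lt_of_lt_of_le (ho.measure_pos volume ?_)
        (measure_mono (inter_subset_inter_right _ interior_subset))
      by_contra hne
      rw [not_nonempty_iff_eq_empty] at hne
      have hz : ∀ x ∈ interior K, (∑ i, v i * (x i - c i)) = 0 := by
        intro x hx
        by_contra h0
        have : x ∈ Function.support f ∩ interior K := ⟨pow_ne_zero 2 h0, hx⟩
        rw [hne] at this
        exact this
      obtain ⟨x0, hx0⟩ := hi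
      obtain ⟨e, he, hball⟩ := Metric.isOpen_iff.1 isOpen_interior x0 hx0
      set t : ℝ := e / (2 * (‖v‖ + 1))
      have ht : 0 < t := by positivity
      have hmem : x0 + t • v ∈ interior K := by
        refine hball ?_
        rw [Metric.mem_ball, dist_self_add_left, norm_smul, Real.norm_eq_abs, abs_of_pos ht]
        calc t * ‖v‖ ≤ t * (‖v‖ + 1) := by gcongr; linarith
          _ = e / 2 := by simp only [t]; field_simp
          _ < e := by linarith
      have h1 := hz _ hmem
      have h2 := hz _ hx0
      have h3 : t * ∑ i, v i * v i = 0 := by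
        calc t * ∑ i, v i * v i
            = (∑ i, v i * ((x0 + t • v) i - c i)) - ∑ i, v i * (x0 i - c i) := by
              rw [Finset.mul_sum, ← Finset.sum_sub_distrib]
              refine Finset.sum_congr rfl fun i _ => ?_
              simp only [Pi.add_apply, Pi.smul_apply, smul_eq_mul]
              ring
          _ = 0 := by rw [h1, h2, sub_zero]
      rcases mul_eq_zero.1 h3 with h4 | h4
      · exact ht.ne' h4
      · exact hv (dotProduct_self_eq_zero.1 h4)
  obtain ⟨C, hC⟩ := CStarAlgebra.nonneg_iff_eq_star_mul_self.mp hpd.posSemidef.nonneg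
  rw [Matrix.star_eq_conjTranspose, conjTranspose_eq_transpose_of_trivial] at hC
  have hCdet : Cᵀ.det ≠ 0 := by
    intro h
    have := hpd.det_pos
    rw [hC, det_mul, h, zero_mul] at this
    exact this.false
  set M := (Cᵀ)⁻¹ with hM
  have hMdet : M.det ≠ 0 := by
    rw [hM, det_nonsing_inv, Ring.inverse_eq_inv']
    exact inv_ne_zero hCdet
  have hMSM : M * S * Mᵀ = 1 := by
    rw [hC, hM, transpose_nonsing_inv, transpose_transpose, ← Matrix.mul_assoc _ Cᵀ C,
      nonsing_inv_mul _ (isUnit_iff_ne_zero.2 hCdet), Matrix.one_mul,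
      mul_nonsing_inv _ (by rw [← det_transpose]; exact isUnit_iff_ne_zero.2 hCdet)]
  set b := -(M *ᵥ c)
  set T : (Fin n → ℝ) → (Fin n → ℝ) := fun x => M *ᵥ x + b
  have hTd : ∀ x i, T x i = ∑ a, M i a * (x a - c a) := by
    intro x i
    simp [T, b, mulVec, dotProduct, mul_sub, Finset.sum_sub_distrib, ← sub_eq_add_neg]
  set L := (Matrix.toLin' M).toContinuousLinearMap with hL
  have hLd : L.det = M.det := by
    rw [hL, ContinuousLinearMap.det, LinearMap.coe_toContinuousLinearMap, LinearMap.det_toLin']
  have hTc : Continuous T := by fun_prop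
  have hTi : Function.Injective T := by
    intro x y hxy
    have : M *ᵥ x = M *ᵥ y := add_right_cancel hxy
    exact (Matrix.mulVec_injective_iff_isUnit.2
      ((Matrix.isUnit_iff_isUnit_det M).2 (isUnit_iff_ne_zero.2 hMdet))) this
  have hcv : ∀ g : (Fin n → ℝ) → ℝ, ∫ y in T '' K, g y = |M.det| * ∫ x in K, g (T x) := by
    intro g
    rw [integral_image_eq_integral_abs_det_fderiv_smul volume hc.measurableSet
      (f' := fun _ => L) (fun x _ => ?_) hTi.injOn g]
    · simp only [smul_eq_mul, hLd]
      rw [integral_const_mul]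
    · exact (L.hasFDerivAt.add_const b).hasFDerivWithinAt
  have hvol : volume.real (T '' K) = |M.det| * V := by
    have h := hcv fun _ => 1
    simpa [setIntegral_const, smul_eq_mul] using h
  refine ⟨M, b, hMdet, ⟨hc.image hTc, ?_, ?_, ?_, ?_⟩, hvol⟩
  · have e : T '' K = (fun z => b + z) '' (Matrix.toLin' M '' K) := by
      rw [image_image]
      refine image_congr fun x _ => ?_
      simp [T, Matrix.toLin'_apply, add_comm]
    rw [e]
    exact (hK.linear_image _).translate b
  · rw [hvol]; positivity
  · intro i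
    rw [hcv]
    simp_rw [hTd]
    rw [integral_finsetSum _ (fun a _ => hint _ (by fun_prop))]
    have hz : ∀ a, ∫ x in K, M i a * (x a - c a) = 0 := by
      intro a
      rw [integral_const_mul, integral_sub (hint _ (by fun_prop)) (hint _ (by fun_prop)),
        setIntegral_const, smul_eq_mul, ← hV, hcdef]
      field_simp
      ring
    simp [hz]
  · intro i j
    rw [hcv, hvol]
    simp_rw [hTd, Finset.sum_mul_sum]
    rw [integral_finsetSum _ (fun a _ => hint _ (by fun_prop))]
    have hz : ∀ a, ∫ x in K, ∑ a', M i a * (x a - c a) * (M j a' * (x a' - c a')) =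
        V * ∑ a', M i a * S a a' * M j a' := by
      intro a
      rw [integral_finsetSum _ (fun a' _ => hint _ (by fun_prop)), Finset.mul_sum]
      refine Finset.sum_congr rfl fun a' _ => ?_
      have e : (fun x : Fin n → ℝ => M i a * (x a - c a) * (M j a' * (x a' - c a'))) =
          fun x => (M i a * M j a') * ((x a - c a) * (x a' - c a')) := by funext x; ring
      rw [e, integral_const_mul, hS]
      simp only [Matrix.of_apply]
      field_simp
    simp_rw [hz, ← Finset.mul_sum]
    have e : ∑ a, ∑ a', M i a * S a a' * M j a' = (M * S * Mᵀ) i j := by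
      simp only [Matrix.mul_apply, Matrix.transpose_apply, Finset.sum_mul]
      rw [Finset.sum_comm]
    rw [e, hMSM, Matrix.one_apply]
    split_ifs <;> ring

lemma Iso.coord_le {K : Set (Fin n → ℝ)} (h : Iso K) (hn : 2 ≤ n) {x : Fin n → ℝ} (hx : x ∈ K)
    (i : Fin n) : |x i| ≤ 3 * n := by
  set V := volume.real K with hV
  have hn' : (2:ℝ) ≤ n := by exact_mod_cast hn
  set a : ℝ := 1 - 1 / n with ha
  have hin : (1:ℝ) / n ≤ 1 / 2 := one_div_le_one_div_of_le (by norm_num) hn'
  have ha0 : 0 < a := by linarith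
  set T : (Fin n → ℝ) → (Fin n → ℝ) := fun y => a • y + (1 / n : ℝ) • x
  set L : (Fin n → ℝ) →L[ℝ] (Fin n → ℝ) := a • ContinuousLinearMap.id ℝ _
  have hLd : L.det = a ^ n := by
    simp [L, ContinuousLinearMap.det, LinearMap.det_smul]
  have hsub : T '' K ⊆ K := by
    rintro _ ⟨y, hy, rfl⟩
    exact h.convex hy hx ha0.le (by positivity) (by rw [ha]; ring)
  have hTi : Function.Injective T := fun y z hyz => smul_right_injective _ ha0.ne' (add_right_cancel hyz)
  have hint : ∀ f : (Fin n → ℝ) → ℝ, Continuous f → IntegrableOn f K :=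
    fun f hf => hf.continuousOn.integrableOn_compact h.compact
  have h1 : ∫ y in T '' K, y i ^ 2 ≤ ∫ y in K, y i ^ 2 :=
    setIntegral_mono_set (hint _ (by fun_prop)) (Filter.Eventually.of_forall fun y => sq_nonneg _)
      (Filter.Eventually.of_forall hsub)
  rw [integral_image_eq_integral_abs_det_fderiv_smul volume h.compact.measurableSet
    (f' := fun _ => L) (fun y _ => ?_) hTi.injOn (fun y => y i ^ 2)] at h1
  swap
  · exact (L.hasFDerivAt.add_const _).hasFDerivWithinAt
  simp only [hLd, smul_eq_mul, integral_const_mul] at h1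
  rw [abs_of_pos (by positivity : 0 < a ^ n)] at h1
  have h2 : ∫ y in K, T y i ^ 2 = a ^ 2 * V + (x i / n) ^ 2 * V := by
    have e : (fun y : Fin n → ℝ => T y i ^ 2) =
        fun y => a ^ 2 * (y i * y i) + (2 * a * (x i / n)) * y i + (x i / n) ^ 2 := by
      funext y
      simp only [T, Pi.add_apply, Pi.smul_apply, smul_eq_mul]
      ring
    have i1 : IntegrableOn (fun y : Fin n → ℝ => a ^ 2 * (y i * y i)) K := hint _ (by fun_prop)
    have i2 : IntegrableOn (fun y : Fin n → ℝ => (2 * a * (x i / n)) * y i) K := hint _ (by fun_prop)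
    have i3 : IntegrableOn (fun y : Fin n → ℝ => a ^ 2 * (y i * y i) + (2 * a * (x i / n)) * y i) K :=
      i1.add i2
    rw [e, integral_add i3 (hint _ (by fun_prop)), integral_add i1 i2,
      integral_const_mul, integral_const_mul, h.mean, h.second, setIntegral_const, if_pos rfl,
      smul_eq_mul, ← hV]
    ring
  have h3 : ∫ y in K, y i ^ 2 = V := by
    simp_rw [sq]
    rw [h.second, if_pos rfl]
  rw [h2, h3] at h1
  have h4 : a ^ n * (x i / n) ^ 2 ≤ 1 := by
    refine le_of_mul_le_mul_right ?_ h.pos
    rw [← hV]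
    calc a ^ n * (x i / n) ^ 2 * V ≤ a ^ n * (a ^ 2 * V + (x i / n) ^ 2 * V) := by
          have : 0 ≤ a ^ n * (a ^ 2 * V) :=
            mul_nonneg (by positivity) (mul_nonneg (sq_nonneg _) h.pos.le)
          nlinarith
      _ ≤ 1 * V := by linarith
  have h5 : 1 / 9 ≤ a ^ n := by
    have e1 : a⁻¹ ≤ Real.exp (2 / n) := by
      have e2 : a⁻¹ ≤ 1 + 2 / n := by
        rw [inv_le_iff_one_le_mul₀ ha0, ha]
        have e3 : (1 + 2 / (n:ℝ)) * (1 - 1 / n) - 1 = (1 / n) * (1 - 2 * (1/n)) := by ring
        have : 0 ≤ (1 / (n:ℝ)) * (1 - 2 * (1/n)) := mul_nonneg (by positivity) (by linarith)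
        nlinarith
      have := Real.add_one_le_exp (2 / (n:ℝ))
      linarith
    have e4 : (a ^ n)⁻¹ ≤ 9 := by
      rw [← inv_pow]
      calc (a⁻¹) ^ n ≤ Real.exp (2 / n) ^ n := pow_le_pow_left₀ (by positivity) e1 n
        _ = Real.exp 2 := by rw [← Real.exp_nat_mul]; congr 1; field_simp
        _ ≤ 9 := by
          rw [show (2:ℝ) = 1 + 1 by norm_num, Real.exp_add]
          nlinarith [Real.exp_one_lt_three, Real.exp_pos (1:ℝ)]
    calc (1:ℝ) / 9 = 9⁻¹ := one_div _
      _ ≤ _ := by
        rw [inv_le_comm₀ (by norm_num) (by positivity)]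
        exact e4
  have h6 : (x i / n) ^ 2 ≤ 3 ^ 2 := by
    nlinarith [mul_le_mul_of_nonneg_right h5 (sq_nonneg (x i / n))]
  have h7 := abs_le_of_sq_le_sq h6 (by norm_num)
  rw [abs_div, abs_of_pos (by positivity : (0:ℝ) < n), div_le_iff₀ (by positivity)] at h7
  exact h7

/-- A ball of three quarters of the mass has radius at least `√n / (9m)`. -/
lemma Iso.small_ball {K : Set (Fin n → ℝ)} (h : Iso K) (hn : 2 ≤ n) {m : ℕ} (hm : 1 ≤ m)
    (hm' : 36 * (n:ℝ) ^ 2 * (2/3:ℝ) ^ m ≤ 1) {r : ℝ} (hr : 0 < r)
    (hball : 3/4 * volume.real K ≤ volume.real (K ∩ {x | ∑ i, x i ^ 2 ≤ r ^ 2})) :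
    (n:ℝ) ≤ 72 * m ^ 2 * r ^ 2 := by
  classical
  set V := volume.real K with hV
  have hVp : 0 < V := h.pos
  have hn' : (2:ℝ) ≤ n := by exact_mod_cast hn
  set s : ℝ := Real.sqrt (9 * r ^ 2 / n) with hs
  have hs2 : s ^ 2 = 9 * r ^ 2 / n := Real.sq_sqrt (by positivity)
  have hsp : 0 < s := by positivity
  set Bl := K ∩ {x | ∑ i, x i ^ 2 ≤ r ^ 2} with hBl
  have hBlm : MeasurableSet Bl :=
    h.compact.measurableSet.inter (measurableSet_le (by fun_prop) measurable_const)
  have hfinK : ∀ A ⊆ K, volume A ≠ ∞ := fun A hA =>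
    ((measure_mono hA).trans_lt h.compact.measure_lt_top).ne
  have hint : ∀ f : (Fin n → ℝ) → ℝ, Continuous f → IntegrableOn f K :=
    fun f hf => hf.continuousOn.integrableOn_compact h.compact
  have hBlK : Bl ⊆ K := inter_subset_left
  have hBl_fin : IsFiniteMeasure (volume.restrict Bl) :=
    isFiniteMeasure_restrict.2 (hfinK _ hBlK)
  -- some coordinate is small on most of the ball
  have hmG : ∀ i, MeasurableSet {x : Fin n → ℝ | s < |x i|} := fun i =>
    measurableSet_lt measurable_const (by fun_prop)
  obtain ⟨i, hi⟩ : ∃ i, volume.real (Bl ∩ {x | s < |x i|}) ≤ V / 9 := by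
    by_contra hno
    push Not at hno
    have h1 : ∀ i, ∫ x in Bl, {x : Fin n → ℝ | s < |x i|}.indicator (fun _ => s ^ 2) x
        = volume.real (Bl ∩ {x | s < |x i|}) * s ^ 2 := by
      intro i
      rw [setIntegral_indicator (hmG i), setIntegral_const, smul_eq_mul]
    have h2 : ∑ i, volume.real (Bl ∩ {x | s < |x i|}) * s ^ 2 ≤ r ^ 2 * V := by
      simp_rw [← h1]
      rw [← integral_finsetSum]
      · calc ∫ x in Bl, ∑ i, {x : Fin n → ℝ | s < |x i|}.indicator (fun _ => s ^ 2) x
            ≤ ∫ _x in Bl, r ^ 2 := by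
              refine setIntegral_mono_on (integrable_finsetSum _ fun i _ =>
                (integrable_const _).indicator (hmG i)) (integrable_const _) hBlm fun x hx => ?_
              refine le_trans (Finset.sum_le_sum fun i _ => ?_) hx.2
              simp only [indicator_apply, mem_ofPred_eq]
              split_ifs with hh
              · exact (pow_le_pow_left₀ hsp.le hh.le 2).trans_eq (sq_abs _)
              · exact sq_nonneg _
          _ ≤ r ^ 2 * V := by
              rw [setIntegral_const, smul_eq_mul, mul_comm]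
              exact mul_le_mul_of_nonneg_left
                (measureReal_mono hBlK h.compact.measure_lt_top.ne) (sq_nonneg _)
      · exact fun i _ => (integrable_const _).indicator (hmG i)
    have h3 : (n:ℝ) * (V / 9) * s ^ 2 < ∑ i, volume.real (Bl ∩ {x | s < |x i|}) * s ^ 2 := by
      calc (n:ℝ) * (V / 9) * s ^ 2 = ∑ _i : Fin n, V / 9 * s ^ 2 := by simp; ring
        _ < _ := by
          refine Finset.sum_lt_sum_of_nonempty ?_ fun i _ => ?_
          · have : NeZero n := ⟨by omega⟩
            exact Finset.univ_nonempty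
          · exact mul_lt_mul_of_pos_right (hno i) (by positivity)
    have h4 : (n:ℝ) * (V / 9) * s ^ 2 = r ^ 2 * V := by
      rw [hs2]; field_simp
    linarith
  set S0 := K ∩ {x | |x i| ≤ s} with hS0
  have hS0m : MeasurableSet S0 :=
    h.compact.measurableSet.inter (measurableSet_le (by fun_prop) measurable_const)
  have hS0v : 3/5 * V ≤ volume.real S0 := by
    have h1 : volume.real Bl ≤ volume.real S0 + volume.real (Bl ∩ {x | s < |x i|}) := by
      refine le_trans (measureReal_mono (fun x hx => ?_) ?_) (measureReal_union_le _ _)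
      · by_cases hh : |x i| ≤ s
        · exact Or.inl ⟨hx.1, hh⟩
        · exact Or.inr ⟨hx, not_le.1 hh⟩
      · exact hfinK _ (union_subset inter_subset_left (inter_subset_left.trans hBlK))
    linarith
  -- the tail of that coordinate
  have htail : ∀ σ : ℝ, (σ = 1 ∨ σ = -1) →
      volume.real (K ∩ {x | 2 * m * s ≤ σ * x i}) ≤ (2/3:ℝ) ^ m * V := by
    intro σ hσ
    set T := K ∩ {x | 2 * m * s ≤ σ * x i} with hT
    have hTm : MeasurableSet T :=
      h.compact.measurableSet.inter (measurableSet_le measurable_const (by fun_prop))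
    set Co := K ∩ {x | s < σ * x i} with hCo
    have hCom : MeasurableSet Co :=
      h.compact.measurableSet.inter (measurableSet_lt measurable_const (by fun_prop))
    rcases eq_or_lt_of_le (measureReal_nonneg (μ := volume) (s := T)) with h0 | h0
    · rw [← h0]; positivity
    rcases Nat.lt_or_ge m 2 with hm2 | hm2
    · exfalso
      have hm1 : m = 1 := by omega
      subst hm1
      nlinarith
    set a : ℝ := 1 / m with ha
    have hmR : (2:ℝ) ≤ m := by exact_mod_cast hm2
    have ha0 : 0 < a := by positivity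
    have ha1 : a < 1 := by rw [ha, div_lt_one (by positivity)]; linarith
    have hsub : ∀ u ∈ T, ∀ v ∈ S0, a • u + (1 - a) • v ∈ Co := by
      intro u hu v hv
      refine ⟨h.convex hu.1 hv.1 ha0.le (by linarith) (by ring), ?_⟩
      simp only [mem_ofPred_eq, Pi.add_apply, Pi.smul_apply, smul_eq_mul]
      have h1 : 2 * s ≤ a * (σ * u i) := by
        calc 2 * s = a * (2 * m * s) := by rw [ha]; field_simp
          _ ≤ _ := mul_le_mul_of_nonneg_left hu.2 ha0.le
      have h2 : -s ≤ σ * v i := by
        have := hv.2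
        simp only [mem_ofPred_eq] at this
        obtain ⟨t1, t2⟩ := abs_le.1 this
        rcases hσ with rfl | rfl <;> linarith
      have h3 : -s ≤ (1 - a) * (σ * v i) := by
        rcases le_or_gt 0 (σ * v i) with h4 | h4
        · nlinarith
        · nlinarith
      rcases hσ with rfl | rfl <;> nlinarith
    have hbm := brunn_minkowski_mul (a := a) (b := 1 - a) ha0 (by linarith) (by ring)
      hTm hS0m hCom hsub
    have hbm' : volume.real T ^ a * volume.real S0 ^ (1 - a) ≤ volume.real Co := by
      have := ENNReal.toReal_mono (hfinK Co inter_subset_left) hbm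
      simpa [ENNReal.toReal_mul, ← ENNReal.toReal_rpow, measureReal_def] using this
    have hCov : volume.real Co ≤ 2/5 * V := by
      have hd : Disjoint Co S0 := by
        rw [Set.disjoint_left]
        intro x hx hx'
        have := hx'.2
        simp only [mem_ofPred_eq] at this
        obtain ⟨t1, t2⟩ := abs_le.1 this
        have := hx.2
        simp only [mem_ofPred_eq] at this
        rcases hσ with rfl | rfl <;> linarith
      have := measureReal_union (μ := volume) hd hS0m
        (h₁ := hfinK _ inter_subset_left) (h₂ := hfinK _ inter_subset_left)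
      have : volume.real (Co ∪ S0) ≤ V :=
        measureReal_mono (union_subset inter_subset_left inter_subset_left)
          h.compact.measure_lt_top.ne
      linarith
    set y := volume.real T / V with hy
    have hyp : 0 < y := by positivity
    have h5 : y ^ a ≤ 2/3 := by
      have e1 : (3/5 * V) ^ (1-a) ≤ volume.real S0 ^ (1-a) :=
        Real.rpow_le_rpow (by positivity) hS0v (by linarith)
      have e2 : (3/5:ℝ) ≤ (3/5) ^ (1-a) :=
        Real.self_le_rpow_of_le_one (by norm_num) (by norm_num) (by linarith)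
      have e3 : volume.real T ^ a * (3/5 * V) ^ (1-a) = y ^ a * (3/5) ^ (1-a) * V := by
        rw [hy, Real.div_rpow h0.le hVp.le, Real.mul_rpow (by norm_num) hVp.le,
          Real.rpow_sub hVp, Real.rpow_one]
        ring
      have e4 : y ^ a * (3/5) * V ≤ 2/5 * V := by
        calc y ^ a * (3/5) * V ≤ y ^ a * (3/5) ^ (1-a) * V := by gcongr
          _ = _ := e3.symm
          _ ≤ _ := (mul_le_mul_of_nonneg_left e1 (Real.rpow_nonneg h0.le _)).trans
              (hbm'.trans hCov)
      have := le_of_mul_le_mul_right e4 hVp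
      linarith
    have h6 : y ≤ (2/3:ℝ) ^ m := by
      calc y = (y ^ a) ^ m := by
            rw [← Real.rpow_natCast, ← Real.rpow_mul hyp.le, ha,
              div_mul_cancel₀ _ (by positivity), Real.rpow_one]
        _ ≤ _ := pow_le_pow_left₀ (by positivity) h5 m
    rwa [hy, div_le_iff₀ hVp] at h6
  -- compare with the second moment
  set P := {x : Fin n → ℝ | 2 * m * s ≤ |x i|}
  have hPm : MeasurableSet P := measurableSet_le measurable_const (by fun_prop)
  have hPv : volume.real (K ∩ P) ≤ 2 * ((2/3:ℝ) ^ m * V) := by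
    refine le_trans (measureReal_mono (fun x hx => ?_) ?_) ((measureReal_union_le
      (K ∩ {x | 2 * m * s ≤ 1 * x i}) (K ∩ {x | 2 * m * s ≤ (-1) * x i})).trans ?_)
    · rcases le_abs.1 (show 2 * (m:ℝ) * s ≤ |x i| from hx.2) with h1 | h1
      · exact Or.inl ⟨hx.1, by simpa using h1⟩
      · exact Or.inr ⟨hx.1, by simpa using h1⟩
    · exact hfinK _ (union_subset inter_subset_left inter_subset_left)
    · linarith [htail 1 (Or.inl rfl), htail (-1) (Or.inr rfl)]
  have hKf : IsFiniteMeasure (volume.restrict K) :=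
    isFiniteMeasure_restrict.2 h.compact.measure_lt_top.ne
  have hmain : V ≤ 4 * m ^ 2 * s ^ 2 * V + 9 * (n:ℝ) ^ 2 * volume.real (K ∩ P) := by
    have e : ∫ x in K, x i * x i = V := by rw [h.second, if_pos rfl]
    calc V = ∫ x in K, x i * x i := e.symm
      _ ≤ ∫ x in K, (4 * m ^ 2 * s ^ 2 + P.indicator (fun _ => 9 * (n:ℝ) ^ 2) x) := by
        refine setIntegral_mono_on (hint _ (by fun_prop))
          ((integrable_const _).add ((integrable_const _).indicator hPm))
          h.compact.measurableSet fun x hx => ?_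
        by_cases hp : x ∈ P
        · rw [indicator_of_mem hp]
          have h1 := h.coord_le hn hx i
          have h2 := pow_le_pow_left₀ (abs_nonneg _) h1 2
          rw [sq_abs] at h2
          nlinarith [sq_nonneg (2 * (m:ℝ) * s)]
        · rw [indicator_of_notMem hp]
          have h1 : |x i| ≤ 2 * m * s := (not_le.1 hp).le
          have h2 := pow_le_pow_left₀ (abs_nonneg _) h1 2
          rw [sq_abs] at h2
          nlinarith
      _ = _ := by
        rw [integral_add (integrable_const _) ((integrable_const _).indicator hPm),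
          setIntegral_indicator hPm, setIntegral_const, setIntegral_const, smul_eq_mul,
          smul_eq_mul]
        ring
  have h7 : 18 * (n:ℝ) ^ 2 * (2/3:ℝ) ^ m ≤ 1/2 := by linarith
  have h8 : V * (1/2) ≤ V * (4 * m ^ 2 * s ^ 2) := by
    nlinarith [mul_le_mul_of_nonneg_left hPv (by positivity : (0:ℝ) ≤ 9 * (n:ℝ) ^ 2),
      mul_le_mul_of_nonneg_right h7 hVp.le]
  have h9 := le_of_mul_le_mul_left h8 hVp
  rw [hs2] at h9
  field_simp at h9
  nlinarith

/-- Some thin shell at radius at least `√n / (10 m)` carries mass at least `1/(8B)`. -/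
theorem Iso.exists_shell {K : Set (Fin n → ℝ)} (h : Iso K) (hn : 2 ≤ n) {m : ℕ} (hm : 1 ≤ m)
    (hm' : 36 * (n:ℝ) ^ 2 * (2/3:ℝ) ^ m ≤ 1) {k : ℕ} (hk : 1 ≤ k) :
    ∃ R : ℝ, Real.sqrt n / (10 * m) ≤ R ∧
      volume.real K / (8 * (⌈2 * (k:ℝ) * Real.log (40 * m)⌉₊ : ℝ)) ≤
        volume.real (K ∩ {x | R ^ 2 ≤ ∑ i, x i ^ 2 ∧
          ∑ i, x i ^ 2 ≤ ((1 + 1 / (k:ℝ)) * R) ^ 2}) := by
  classical
  set V := volume.real K with hV
  have hVp : 0 < V := h.pos
  have hn' : (2:ℝ) ≤ n := by exact_mod_cast hn
  have hmR : (1:ℝ) ≤ m := by exact_mod_cast hm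
  have hkR : (1:ℝ) ≤ k := by exact_mod_cast hk
  set lo := Real.sqrt n / (10 * m) with hlo
  have hlop : 0 < lo := by positivity
  set q : ℝ := 1 + 1 / (k:ℝ) with hq
  have hqp : 0 < q := by positivity
  set B := ⌈2 * (k:ℝ) * Real.log (40 * m)⌉₊ with hB
  have hlog : 0 < Real.log (40 * m) := Real.log_pos (by linarith)
  have hBp : 0 < B := Nat.ceil_pos.2 (by positivity)
  have hqB : 40 * m ≤ q ^ B := by
    have h1 : 1 / (2 * (k:ℝ)) ≤ Real.log q := by
      refine le_trans ?_ (Real.one_sub_inv_le_log_of_pos hqp)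
      have e : 1 - q⁻¹ = 1 / ((k:ℝ) + 1) := by
        rw [hq]; field_simp; ring
      rw [e]
      exact one_div_le_one_div_of_le (by positivity) (by linarith)
    rw [← Real.log_le_log_iff (by positivity) (by positivity), Real.log_pow]
    calc Real.log (40 * m) = (2 * k * Real.log (40 * m)) * (1 / (2 * k)) := by field_simp
      _ ≤ (B:ℝ) * Real.log q :=
        mul_le_mul (Nat.le_ceil _) h1 (by positivity) (Nat.cast_nonneg _)
  have hint : ∀ f : (Fin n → ℝ) → ℝ, Continuous f → IntegrableOn f K :=
    fun f hf => hf.continuousOn.integrableOn_compact h.compact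
  have hfinK : ∀ A ⊆ K, volume A ≠ ∞ := fun A hA =>
    ((measure_mono hA).trans_lt h.compact.measure_lt_top).ne
  have hKf : IsFiniteMeasure (volume.restrict K) :=
    isFiniteMeasure_restrict.2 h.compact.measure_lt_top.ne
  -- the large tail
  set Hi := {x : Fin n → ℝ | 16 * (n:ℝ) < ∑ i, x i ^ 2}
  have hHim : MeasurableSet Hi := measurableSet_lt measurable_const (by fun_prop)
  have hhi : volume.real (K ∩ Hi) * (16 * n) ≤ n * V := by
    calc volume.real (K ∩ Hi) * (16 * n) = ∫ x in K, Hi.indicator (fun _ => 16 * (n:ℝ)) x := by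
          rw [setIntegral_indicator hHim, setIntegral_const, smul_eq_mul]
      _ ≤ ∫ x in K, ∑ i, x i ^ 2 := by
          refine setIntegral_mono_on ((integrable_const _).indicator hHim) (hint _ (by fun_prop))
            h.compact.measurableSet fun x _ => ?_
          by_cases hp : x ∈ Hi
          · rw [indicator_of_mem hp]; exact (mem_ofPred_eq ▸ hp).le
          · rw [indicator_of_notMem hp]; positivity
      _ = n * V := by
          rw [integral_finsetSum _ (fun i _ => hint _ (by fun_prop))]
          have e : ∀ i, ∫ x in K, x i ^ 2 = V := fun i => by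
            simp_rw [sq]; rw [h.second, if_pos rfl]
          simp [e]
  set Lo := K ∩ {x | ∑ i, x i ^ 2 ≤ lo ^ 2}
  have hlow : volume.real Lo < 3/4 * V := by
    by_contra hno
    have := h.small_ball hn hm hm' hlop (not_lt.1 hno)
    rw [hlo, div_pow, Real.sq_sqrt (by positivity)] at this
    field_simp at this
    nlinarith
  set bin : ℕ → Set (Fin n → ℝ) := fun b => K ∩ {x | (lo * q ^ b) ^ 2 ≤ ∑ i, x i ^ 2 ∧
      ∑ i, x i ^ 2 ≤ (q * (lo * q ^ b)) ^ 2}
  have hcover : K ⊆ (Lo ∪ (K ∩ Hi)) ∪ ⋃ b ∈ Finset.range B, bin b := by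
    intro x hx
    set E := ∑ i, x i ^ 2 with hE
    by_cases h1 : E ≤ lo ^ 2
    · exact Or.inl (Or.inl ⟨hx, h1⟩)
    by_cases h2 : 16 * (n:ℝ) < E
    · exact Or.inl (Or.inr ⟨hx, h2⟩)
    push Not at h1 h2
    have hex : ∃ b, E ≤ (lo * q ^ (b+1)) ^ 2 := by
      refine ⟨B - 1, ?_⟩
      rw [Nat.sub_add_cancel hBp]
      refine h2.trans ?_
      have : 4 * Real.sqrt n ≤ lo * q ^ B := by
        calc 4 * Real.sqrt n = lo * (40 * m) := by rw [hlo]; field_simp; ring
          _ ≤ _ := mul_le_mul_of_nonneg_left hqB hlop.le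
      calc 16 * (n:ℝ) = (4 * Real.sqrt n) ^ 2 := by
            rw [mul_pow, Real.sq_sqrt (by positivity)]; norm_num
        _ ≤ _ := pow_le_pow_left₀ (by positivity) this 2
    have hb2 := Nat.find_spec hex
    have hbB : Nat.find hex < B := by
      refine lt_of_le_of_lt (Nat.find_min' hex ?_) (Nat.sub_lt hBp Nat.one_pos)
      rw [Nat.sub_add_cancel hBp]
      refine h2.trans ?_
      have : 4 * Real.sqrt n ≤ lo * q ^ B := by
        calc 4 * Real.sqrt n = lo * (40 * m) := by rw [hlo]; field_simp; ring
          _ ≤ _ := mul_le_mul_of_nonneg_left hqB hlop.le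
      calc 16 * (n:ℝ) = (4 * Real.sqrt n) ^ 2 := by
            rw [mul_pow, Real.sq_sqrt (by positivity)]; norm_num
        _ ≤ _ := pow_le_pow_left₀ (by positivity) this 2
    refine Or.inr (mem_iUnion₂.2 ⟨Nat.find hex, Finset.mem_range.2 hbB, hx, ?_, ?_⟩)
    · cases hf : Nat.find hex with
      | zero => simpa using h1.le
      | succ b =>
        have := Nat.find_min hex (m := b) (by omega)
        exact (not_le.1 this).le
    · calc E ≤ _ := hb2
        _ = _ := by rw [pow_succ]; ring
  by_contra hno
  push Not at hno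
  have hbins : volume.real (⋃ b ∈ Finset.range B, bin b) ≤ V / 8 := by
    calc _ ≤ ∑ b ∈ Finset.range B, volume.real (bin b) :=
          measureReal_biUnion_finset_le _ _
      _ ≤ ∑ _b ∈ Finset.range B, V / (8 * B) := by
          refine Finset.sum_le_sum fun b _ => (hno (lo * q ^ b) ?_).le
          exact le_mul_of_one_le_right hlop.le (one_le_pow₀ (by rw [hq]; linarith [show (0:ℝ) ≤ 1 / k by positivity]))
      _ = V / 8 := by simp; field_simp
  have hfinU : volume ((Lo ∪ (K ∩ Hi)) ∪ ⋃ b ∈ Finset.range B, bin b) ≠ ∞ :=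
    hfinK _ (union_subset (union_subset inter_subset_left inter_subset_left)
      (iUnion₂_subset fun _ _ => inter_subset_left))
  have h1 := measureReal_mono (μ := volume) hcover hfinU
  have h2 := measureReal_union_le (μ := volume) (Lo ∪ (K ∩ Hi)) (⋃ b ∈ Finset.range B, bin b)
  have h3 := measureReal_union_le (μ := volume) Lo (K ∩ Hi)
  have h4 : volume.real (K ∩ Hi) ≤ V / 16 := by
    rw [le_div_iff₀ (by norm_num : (0:ℝ) < 16)]
    exact le_of_mul_le_mul_left (by linarith) (by positivity : (0:ℝ) < n)
  linarith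

end Vale.Agent.P230
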