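import Mathlib
import Vale.Agent.P230.Isotropic
import Vale.Agent.P230.Gauss
import Vale.Agent.P230.Body

/-! A projection of a thin shell with large mass in every small box near a ball. -/

namespace Vale.Agent.P230

open MeasureTheory Set Matrix
open scoped Pointwise ENNReal

/-- Mesh of the boxes. -/
noncomputable def etaB (k : ℕ) : ℝ := 1 / (k:ℝ) ^ 2

/-- Indices of the boxes. -/
noncomputable def gridZ (k : ℕ) : Finset (Fin k → ℤ) :=
  (Fintype.piFinset fun _ => Finset.Icc (-((k:ℤ)^2 * (k + 6))) ((k:ℤ)^2 * (k + 6))).filter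
    fun z => ∑ l, (|(z l : ℝ)| * etaB k + etaB k / 2) ^ 2 ≤ (k:ℝ) + 34

noncomputable def boxLo {k : ℕ} (z : Fin k → ℤ) (l : Fin k) : ℝ := z l * etaB k - etaB k / 2

noncomputable def boxHi {k : ℕ} (z : Fin k → ℤ) (l : Fin k) : ℝ := z l * etaB k + etaB k / 2

/-- Lower bound for the chance of landing in a box. -/
noncomputable def mu0 (k : ℕ) : ℝ :=
  (etaB k / Real.sqrt (2 * Real.pi)) ^ k * Real.exp (-1) * Real.exp (-(((k:ℝ) + 34) / 2))

lemma etaB_pos {k : ℕ} (hk : 1 ≤ k) : 0 < etaB k := by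
  have : (0:ℝ) < k := by exact_mod_cast hk
  unfold etaB
  positivity

lemma mu0_pos {k : ℕ} (hk : 1 ≤ k) : 0 < mu0 k := by
  have := etaB_pos hk
  unfold mu0
  positivity

lemma card_gridZ_le (k : ℕ) : ((gridZ k).card : ℝ) ≤ (2 * (k:ℝ) ^ 2 * (k + 6) + 1) ^ k := by
  have h := Finset.card_filter_le (Fintype.piFinset fun _ : Fin k =>
    Finset.Icc (-((k:ℤ)^2 * (k + 6))) ((k:ℤ)^2 * (k + 6)))
    (fun z : Fin k → ℤ => ∑ l, (|(z l : ℝ)| * etaB k + etaB k / 2) ^ 2 ≤ (k:ℝ) + 34)
  have h' : (gridZ k).card ≤ (2 * k ^ 2 * (k + 6) + 1) ^ k := by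
    refine h.trans (le_of_eq ?_)
    rw [Fintype.card_piFinset]
    simp only [Int.card_Icc, Finset.prod_const, Finset.card_univ, Fintype.card_fin]
    congr 1
    have : ((k:ℤ) ^ 2 * (k + 6) + 1 - -((k:ℤ) ^ 2 * (k + 6))) = ((2 * k ^ 2 * (k + 6) + 1 : ℕ) : ℤ) := by
      push_cast; ring
    rw [this, Int.toNat_natCast]
  calc ((gridZ k).card : ℝ) ≤ (((2 * k ^ 2 * (k + 6) + 1) ^ k : ℕ) : ℝ) := by exact_mod_cast h'
    _ = _ := by push_cast; ring

lemma abs_box_le {k : ℕ} (hk : 4 ≤ k) {z : Fin k → ℤ} (hz : z ∈ gridZ k) (l : Fin k) :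
    |boxLo z l| ≤ 2 * k ∧ |boxHi z l| ≤ 2 * k := by
  have hη := etaB_pos (k := k) (by omega)
  have hk' : (4:ℝ) ≤ k := by exact_mod_cast hk
  have h := (Finset.mem_filter.1 hz).2
  have h1 : (|(z l : ℝ)| * etaB k + etaB k / 2) ^ 2 ≤ (2 * (k:ℝ)) ^ 2 := by
    refine le_trans (le_trans ?_ h) (by nlinarith)
    exact Finset.single_le_sum (f := fun l => (|(z l : ℝ)| * etaB k + etaB k / 2) ^ 2)
      (fun i _ => sq_nonneg _) (Finset.mem_univ l)
  have h2 := abs_le_of_sq_le_sq h1 (by linarith)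
  rw [abs_of_nonneg (by positivity)] at h2
  have h3 : |(z l : ℝ) * etaB k| = |(z l : ℝ)| * etaB k := by rw [abs_mul, abs_of_pos hη]
  constructor
  · refine (abs_sub _ _).trans ?_
    rw [h3, abs_of_pos (by positivity : 0 < etaB k / 2)]
    exact h2
  · refine (abs_add_le _ _).trans ?_
    rw [h3, abs_of_pos (by positivity : 0 < etaB k / 2)]
    exact h2

lemma mu0_le {k n : ℕ} (hk : 1 ≤ k) {R : ℝ} (hR : 0 < R) {z : Fin k → ℤ} (hz : z ∈ gridZ k)
    {x : Fin n → ℝ} (hx1 : R ^ 2 ≤ ∑ i, x i ^ 2)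
    (hx2 : ∑ i, x i ^ 2 ≤ ((1 + 1 / (k:ℝ)) * R) ^ 2) :
    mu0 k ≤ (γkn k n).real (boxEvent R (boxLo z) (boxHi z) x) := by
  have hη := etaB_pos hk
  have hkR : (1:ℝ) ≤ k := by exact_mod_cast hk
  have hx0 : 0 < ∑ i, x i ^ 2 := lt_of_lt_of_le (by positivity) hx1
  rw [boxEvent_one hR _ _ x hx0]
  set r := Real.sqrt (∑ i, x i ^ 2) with hr
  have hrp : 0 < r := Real.sqrt_pos.2 hx0
  set q : ℝ := 1 + 1 / (k:ℝ)
  have hqp : 0 < q := by positivity
  have hrR : R ≤ r := Real.le_sqrt_of_sq_le hx1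
  have hrq : r ≤ q * R := Real.sqrt_le_iff.2 ⟨by positivity, hx2⟩
  set t : ℝ := R / r
  have ht0 : 0 < t := by positivity
  have ht1 : t ≤ 1 := (div_le_one hrp).2 hrR
  have htq : 1 / q ≤ t := by
    rw [div_le_div_iff₀ hqp hrp]; linarith
  set M : Fin k → ℝ := fun l => |(z l : ℝ)| * etaB k + etaB k / 2
  have step : ∀ l, etaB k * t * ((Real.sqrt (2 * Real.pi))⁻¹ * Real.exp (-(M l ^ 2 / 2)))
      ≤ γ1.real (Ico (boxLo z l * t) (boxHi z l * t)) := by
    intro l
    refine le_trans (le_of_eq ?_) (γ1_Ico_lower (M := M l) ?_ ?_ ?_)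
    · simp only [boxLo, boxHi]; ring
    · exact mul_le_mul_of_nonneg_right (by simp only [boxLo, boxHi]; linarith) ht0.le
    all_goals
      rw [abs_mul, abs_of_pos ht0]
      refine (mul_le_of_le_one_right (abs_nonneg _) ht1).trans ?_
      simp only [boxLo, boxHi, M]
    · refine (abs_sub _ _).trans ?_
      rw [abs_mul, abs_of_pos hη, abs_of_pos (by positivity : 0 < etaB k / 2)]
    · refine (abs_add_le _ _).trans ?_
      rw [abs_mul, abs_of_pos hη, abs_of_pos (by positivity : 0 < etaB k / 2)]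
  refine le_trans ?_ (Finset.prod_le_prod (fun l _ => by positivity) fun l _ => step l)
  have e : ∏ l, etaB k * t * ((Real.sqrt (2 * Real.pi))⁻¹ * Real.exp (-(M l ^ 2 / 2)))
      = (etaB k / Real.sqrt (2 * Real.pi)) ^ k * t ^ k * Real.exp (-((∑ l, M l ^ 2) / 2)) := by
    rw [Finset.prod_mul_distrib, Finset.prod_mul_distrib, Finset.prod_const, Finset.prod_const,
      Finset.card_univ, Fintype.card_fin, Finset.prod_mul_distrib, Finset.prod_const, Finset.card_univ,
      Fintype.card_fin, ← Real.exp_sum, Finset.sum_neg_distrib, Finset.sum_div,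
      div_eq_mul_inv, mul_pow]
    ring
  rw [e, mu0]
  gcongr
  · calc Real.exp (-1) ≤ (1 / q) ^ k := by
          rw [one_div, inv_pow, Real.exp_neg]
          refine inv_anti₀ (by positivity) ?_
          calc q ^ k ≤ Real.exp (1 / k) ^ k :=
                pow_le_pow_left₀ hqp.le (by linarith [Real.add_one_le_exp (1 / (k:ℝ))]) k
            _ = Real.exp 1 := by rw [← Real.exp_nat_mul]; congr 1; field_simp
      _ ≤ t ^ k := pow_le_pow_left₀ (by positivity) htq k
  · exact (Finset.mem_filter.1 hz).2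

lemma Iso.integral_prod_inner_le {n : ℕ} {K : Set (Fin n → ℝ)} (h : Iso K) :
    ∫ p in K ×ˢ K, |∑ i, p.1 i * p.2 i| ≤ Real.sqrt n * volume.real K ^ 2 := by
  set V := volume.real K with hV
  rcases Nat.eq_zero_or_pos n with hn | hn
  · subst hn; simp
  have hn' : (0:ℝ) < n := by exact_mod_cast hn
  set c := Real.sqrt n with hc
  have hcp : 0 < c := Real.sqrt_pos.2 hn'
  have hint : ∀ f : (Fin n → ℝ) × (Fin n → ℝ) → ℝ, Continuous f → IntegrableOn f (K ×ˢ K) :=
    fun f hf => hf.continuousOn.integrableOn_compact (h.compact.prod h.compact)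
  have hsq : ∫ p in K ×ˢ K, (∑ i, p.1 i * p.2 i) ^ 2 = n * V ^ 2 := by
    have e : ∀ p : (Fin n → ℝ) × (Fin n → ℝ), (∑ i, p.1 i * p.2 i) ^ 2 =
        ∑ i, ∑ j, (p.1 i * p.1 j) * (p.2 i * p.2 j) := by
      intro p
      rw [sq, Finset.sum_mul_sum]
      exact Finset.sum_congr rfl fun i _ => Finset.sum_congr rfl fun j _ => by ring
    simp_rw [e]
    rw [integral_finsetSum _ (fun i _ => hint _ (by fun_prop))]
    have e2 : ∀ i, ∫ p in K ×ˢ K, ∑ j, (p.1 i * p.1 j) * (p.2 i * p.2 j) = V ^ 2 := by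
      intro i
      rw [integral_finsetSum _ (fun j _ => hint _ (by fun_prop))]
      have e3 : ∀ j, ∫ p in K ×ˢ K, (p.1 i * p.1 j) * (p.2 i * p.2 j) =
          (if i = j then V else 0) * (if i = j then V else 0) := by
        intro j
        rw [Measure.volume_eq_prod, setIntegral_prod_mul (fun x : Fin n → ℝ => x i * x j)
          (fun y : Fin n → ℝ => y i * y j), h.second]
      simp [e3, sq]
    simp [e2]
  have hvol : volume.real (K ×ˢ K) = V ^ 2 := by
    rw [Measure.volume_eq_prod, measureReal_prod_prod, ← hV, sq]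
  calc ∫ p in K ×ˢ K, |∑ i, p.1 i * p.2 i|
      ≤ ∫ p in K ×ˢ K, ((∑ i, p.1 i * p.2 i) ^ 2 / (2 * c) + c / 2) := by
        refine setIntegral_mono_on (hint _ (by fun_prop)) (hint _ (by fun_prop))
          (h.compact.prod h.compact).measurableSet fun p _ => ?_
        rw [div_add_div _ _ (by positivity) (by norm_num : (2:ℝ) ≠ 0), le_div_iff₀ (by positivity)]
        nlinarith [sq_nonneg (|∑ i, p.1 i * p.2 i| - c), sq_abs (∑ i, p.1 i * p.2 i)]
    _ = (n * V ^ 2) / (2 * c) + c / 2 * V ^ 2 := by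
        rw [integral_add (hint _ (by fun_prop)) (hint _ (by fun_prop)), integral_div, hsq,
          setIntegral_const, hvol, smul_eq_mul]
        ring
    _ = c * V ^ 2 := by
        field_simp
        rw [hc, Real.sq_sqrt hn'.le]
        ring

/-- A second-moment bound for the mass caught by a random event. -/
theorem mass_second_moment {Ω X : Type*} [MeasurableSpace Ω] [MeasurableSpace X] {Γ : Measure Ω}
    [IsProbabilityMeasure Γ] {ν : Measure X} [IsFiniteMeasure ν] {E : Set (Ω × X)}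
    (hE : MeasurableSet E) {c : ℝ} (hc : 0 ≤ c)
    (hlow : ∀ᵐ x ∂ν, c ≤ Γ.real ((fun G => (G, x)) ⁻¹' E)) {g : X × X → ℝ}
    (hg : Integrable g (ν.prod ν))
    (hcov : ∀ᵐ q ∂ν.prod ν,
      Γ.real ((fun G => (G, q.1)) ⁻¹' E ∩ (fun G => (G, q.2)) ⁻¹' E) -
        Γ.real ((fun G => (G, q.1)) ⁻¹' E) * Γ.real ((fun G => (G, q.2)) ⁻¹' E) ≤ g q) :
    Γ.real {G | ν.real (Prod.mk G ⁻¹' E) < c * ν.real univ / 2} * (c * ν.real univ / 2) ^ 2
      ≤ ∫ q, g q ∂(ν.prod ν) := by
  set f : Ω → X → ℝ := fun G x => E.indicator 1 (G, x) with hf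
  have hfm : Measurable (fun q : Ω × X => f q.1 q.2) := measurable_one.indicator hE
  have hfb : ∀ G x, ‖f G x‖ ≤ 1 := by
    intro G x
    simp only [hf, Real.norm_eq_abs]
    by_cases hx : (G, x) ∈ E <;> simp [hx]
  set σ := ν.real univ with hσ
  set N : Ω → ℝ := fun G => ν.real (Prod.mk G ⁻¹' E) with hN
  have hNm : Measurable N := (measurable_measure_prodMk_left hE).ennreal_toReal
  have hNb : ∀ G, ‖N G‖ ≤ σ := fun G => by
    rw [Real.norm_eq_abs, abs_of_nonneg measureReal_nonneg]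
    exact measureReal_mono (subset_univ _)
  have hNf : ∀ G, N G = ∫ x, f G x ∂ν := by
    intro G
    have : (fun x => f G x) = (Prod.mk G ⁻¹' E).indicator 1 :=
      funext fun x => (indicator_comp_right (s := E) (g := (1 : Ω × X → ℝ)) (Prod.mk G)).symm
    rw [this, integral_indicator_one (measurable_prodMk_left hE)]
  set p : X → ℝ := fun x => Γ.real ((fun G => (G, x)) ⁻¹' E) with hp
  have hpe : ∀ x, ∫ G, f G x ∂Γ = p x := by
    intro x
    have : (fun G => f G x) = ((fun G => (G, x)) ⁻¹' E).indicator 1 :=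
      funext fun G => (indicator_comp_right (s := E) (g := (1 : Ω × X → ℝ))
        (fun G => (G, x))).symm
    rw [this, integral_indicator_one (measurable_prodMk_right hE)]
  have hqe : ∀ x y, ∫ G, f G x * f G y ∂Γ =
      Γ.real ((fun G => (G, x)) ⁻¹' E ∩ (fun G => (G, y)) ⁻¹' E) := by
    intro x y
    rw [← integral_indicator_one ((measurable_prodMk_right hE).inter (measurable_prodMk_right hE))]
    refine integral_congr_ae (Filter.Eventually.of_forall fun G => ?_)
    rw [inter_indicator_one]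
    rfl
  have hpm : Measurable p := (measurable_measure_prodMk_right hE).ennreal_toReal
  have hpb : ∀ x, ‖p x‖ ≤ 1 := fun x => by
    rw [Real.norm_eq_abs, abs_of_nonneg measureReal_nonneg]; exact measureReal_le_one
  set m := ∫ G, N G ∂Γ with hm
  have hm1 : m = ∫ x, p x ∂ν := by
    rw [hm]
    simp_rw [hNf, ← hpe]
    exact integral_integral_swap
      (Integrable.of_bound hfm.aestronglyMeasurable 1 (Filter.Eventually.of_forall fun q => hfb _ _))
  have hmlo : c * σ ≤ m := by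
    rw [hm1]
    calc c * σ = ∫ _x, c ∂ν := by rw [integral_const, smul_eq_mul, mul_comm]
      _ ≤ _ := integral_mono_ae (integrable_const _)
          (Integrable.of_bound hpm.aestronglyMeasurable 1 (Filter.Eventually.of_forall hpb)) hlow
  have hfm1 : Measurable fun w : Ω × (X × X) => f w.1 w.2.1 :=
    hfm.comp (measurable_fst.prodMk (measurable_fst.comp measurable_snd))
  have hfm2 : Measurable fun w : Ω × (X × X) => f w.1 w.2.2 :=
    hfm.comp (measurable_fst.prodMk (measurable_snd.comp measurable_snd))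
  have hff : Integrable (Function.uncurry fun G (q : X × X) => f G q.1 * f G q.2)
      (Γ.prod (ν.prod ν)) :=
    Integrable.of_bound (hfm1.mul hfm2).aestronglyMeasurable 1
      (Filter.Eventually.of_forall fun w => by
        rw [Function.uncurry, norm_mul]; exact mul_le_one₀ (hfb _ _) (norm_nonneg _) (hfb _ _))
  have hN2 : ∫ G, N G ^ 2 ∂Γ = ∫ q, (∫ G, f G q.1 * f G q.2 ∂Γ) ∂(ν.prod ν) := by
    simp_rw [hNf, sq, ← integral_prod_mul]
    exact integral_integral_swap hff
  have hm2 : m ^ 2 = ∫ q, p q.1 * p q.2 ∂(ν.prod ν) := by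
    rw [integral_prod_mul, ← hm1, sq]
  have i1 : Integrable (fun q : X × X => ∫ G, f G q.1 * f G q.2 ∂Γ) (ν.prod ν) :=
    hff.integral_prod_right
  have i2 : Integrable (fun q : X × X => p q.1 * p q.2) (ν.prod ν) :=
    Integrable.of_bound ((hpm.comp measurable_fst).mul (hpm.comp measurable_snd)).aestronglyMeasurable
      1 (Filter.Eventually.of_forall fun q => by
        rw [norm_mul]; exact mul_le_one₀ (hpb _) (norm_nonneg _) (hpb _))
  have hvar : ∫ G, N G ^ 2 ∂Γ - m ^ 2 ≤ ∫ q, g q ∂(ν.prod ν) := by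
    rw [hN2, hm2, ← integral_sub i1 i2]
    refine integral_mono_ae (i1.sub i2) hg (hcov.mono fun q hq => ?_)
    simp only
    rw [hqe]
    exact hq
  set Bad := {G | N G < c * σ / 2}
  have hBm : MeasurableSet Bad := measurableSet_lt hNm measurable_const
  have hNint : Integrable N Γ :=
    Integrable.of_bound hNm.aestronglyMeasurable σ (Filter.Eventually.of_forall hNb)
  have hNint2 : Integrable (fun G => N G ^ 2) Γ :=
    Integrable.of_bound (hNm.pow_const 2).aestronglyMeasurable (σ ^ 2)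
      (Filter.Eventually.of_forall fun G => by
        rw [norm_pow]; exact pow_le_pow_left₀ (norm_nonneg _) (hNb G) 2)
  have i3 : Integrable (fun G => N G ^ 2 + (-2 * m) * N G) Γ := hNint2.add (hNint.const_mul _)
  calc Γ.real Bad * (c * σ / 2) ^ 2
      = ∫ G, Bad.indicator (fun _ => (c * σ / 2) ^ 2) G ∂Γ := by
        rw [integral_indicator_const _ hBm, smul_eq_mul]
    _ ≤ ∫ G, (N G ^ 2 + (-2 * m) * N G + m ^ 2) ∂Γ := by
        refine integral_mono ((integrable_const _).indicator hBm)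
          (i3.add (integrable_const _)) fun G => ?_
        by_cases hG : G ∈ Bad
        · rw [indicator_of_mem hG]
          have hG' : N G < c * σ / 2 := hG
          have h1 : c * σ / 2 ≤ m - N G := by linarith
          have hσ0 : 0 ≤ σ := measureReal_nonneg
          have h2 := pow_le_pow_left₀ (by positivity) h1 2
          nlinarith
        · rw [indicator_of_notMem hG]
          nlinarith [sq_nonneg (N G - m)]
    _ = ∫ G, N G ^ 2 ∂Γ - m ^ 2 := by
        rw [integral_add i3 (integrable_const _), integral_add hNint2 (hNint.const_mul _),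
          integral_const_mul, integral_const, probReal_univ, ← hm, smul_eq_mul]
        ring
    _ ≤ _ := hvar

/-- The covariance bound summed over pairs of points of the shell. -/
lemma box_deficit {n k : ℕ} (hk : 4 ≤ k) {K S : Set (Fin n → ℝ)} (h : Iso K)
    (hS : S ⊆ K) (hSm : MeasurableSet S) {R : ℝ} (hR : 0 < R)
    (hshell : ∀ x ∈ S, R ^ 2 ≤ ∑ i, x i ^ 2 ∧ ∑ i, x i ^ 2 ≤ ((1 + 1 / (k:ℝ)) * R) ^ 2)
    {z : Fin k → ℤ} (hz : z ∈ gridZ k) :
    (γkn k n).real {G | volume.real (S ∩ {x | ∀ l, (∑ i, G l i * x i) / R ∈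
        Ico (boxLo z l) (boxHi z l)}) < mu0 k * volume.real S / 2} *
      (mu0 k * volume.real S / 2) ^ 2 ≤ 16 * (k:ℝ) ^ 2 / R ^ 2 * (Real.sqrt n * volume.real K ^ 2) := by
  have hSfin : volume S ≠ ∞ := ((measure_mono hS).trans_lt h.compact.measure_lt_top).ne
  have hνf : IsFiniteMeasure (volume.restrict S) := isFiniteMeasure_restrict.2 hSfin
  set E : Set ((Fin k → Fin n → ℝ) × (Fin n → ℝ)) :=
    {q | ∀ l, (∑ i, q.1 l i * q.2 i) / R ∈ Ico (boxLo z l) (boxHi z l)} with hE
  have hEm : MeasurableSet E := by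
    simp only [hE, Set.ofPred_forall]
    exact MeasurableSet.iInter fun l => measurableSet_Ico.preimage
      (f := fun q : (Fin k → Fin n → ℝ) × (Fin n → ℝ) => (∑ i, q.1 l i * q.2 i) / R) (by fun_prop)
  have hνν : (volume.restrict S).prod (volume.restrict S) = volume.restrict (S ×ˢ S) := by
    rw [Measure.prod_restrict, Measure.volume_eq_prod]
  have hKK : IntegrableOn (fun q : (Fin n → ℝ) × (Fin n → ℝ) =>
      16 * (k:ℝ) ^ 2 / R ^ 2 * |∑ i, q.1 i * q.2 i|) (K ×ˢ K) :=
    (Continuous.continuousOn (by fun_prop)).integrableOn_compact (h.compact.prod h.compact)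
  have main := mass_second_moment (Γ := γkn k n) (ν := volume.restrict S) hEm
    (mu0_pos (k := k) (by omega)).le
    ((ae_restrict_mem hSm).mono fun x hx => mu0_le (by omega) hR hz (hshell x hx).1 (hshell x hx).2)
    (g := fun q => 16 * (k:ℝ) ^ 2 / R ^ 2 * |∑ i, q.1 i * q.2 i|)
    (by rw [hνν]; exact hKK.mono_set (prod_mono hS hS))
    (by
      rw [hνν]
      refine (ae_restrict_mem (hSm.prod hSm)).mono fun q hq => ?_
      refine (le_abs_self _).trans ((boxEvent_two hR (by
        have : (4:ℝ) ≤ k := by exact_mod_cast hk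
        linarith) _ _ (fun l => (abs_box_le hk hz l).1) (fun l => (abs_box_le hk hz l).2)
        q.1 q.2 (hshell _ hq.1).1 (hshell _ hq.2).1).trans (le_of_eq ?_))
      ring)
  rw [measureReal_restrict_apply_univ, hνν] at main
  refine le_trans (le_of_eq ?_) (main.trans ?_)
  · congr 2
    ext G
    simp only [mem_ofPred_eq]
    rw [measureReal_restrict_apply (measurable_prodMk_left hEm), inter_comm]
    rfl
  · refine (setIntegral_mono_set hKK (Filter.Eventually.of_forall fun q => by positivity)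
      (Filter.Eventually.of_forall (prod_mono hS hS))).trans ?_
    rw [integral_const_mul]
    exact mul_le_mul_of_nonneg_left h.integral_prod_inner_le (by positivity)

/-- Some linear map sends the shell to all boxes with their typical mass. -/
theorem exists_good_projection {n k : ℕ} (hk : 4 ≤ k) {K S : Set (Fin n → ℝ)} (h : Iso K)
    (hS : S ⊆ K) (hSm : MeasurableSet S) {R : ℝ} (hR : 0 < R)
    (hshell : ∀ x ∈ S, R ^ 2 ≤ ∑ i, x i ^ 2 ∧ ∑ i, x i ^ 2 ≤ ((1 + 1 / (k:ℝ)) * R) ^ 2)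
    (hvar : ((gridZ k).card : ℝ) * (64 * k ^ 2 * Real.sqrt n * volume.real K ^ 2)
      < R ^ 2 * (mu0 k * volume.real S) ^ 2) :
    ∃ G : Fin k → Fin n → ℝ, ∀ z ∈ gridZ k,
      mu0 k * volume.real S / 2 ≤
        volume.real (S ∩ {x | ∀ l, (∑ i, G l i * x i) / R ∈ Ico (boxLo z l) (boxHi z l)}) := by
  set c := mu0 k * volume.real S
  set Bad : (Fin k → ℤ) → Set (Fin k → Fin n → ℝ) := fun z =>
    {G | volume.real (S ∩ {x | ∀ l, (∑ i, G l i * x i) / R ∈ Ico (boxLo z l) (boxHi z l)}) < c / 2}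
  by_contra hno
  push Not at hno
  have hu : (univ : Set (Fin k → Fin n → ℝ)) ⊆ ⋃ z ∈ gridZ k, Bad z := fun G _ => by
    obtain ⟨z, hz, hzG⟩ := hno G
    exact mem_iUnion₂.2 ⟨z, hz, hzG⟩
  have h1 := (measureReal_mono (μ := γkn k n) hu (measure_ne_top _ _)).trans (measureReal_biUnion_finset_le _ Bad)
  rw [probReal_univ] at h1
  have h2 : (c / 2) ^ 2 ≤
      ((gridZ k).card : ℝ) * (16 * (k:ℝ) ^ 2 / R ^ 2 * (Real.sqrt n * volume.real K ^ 2)) := by
    calc (c / 2) ^ 2 = 1 * (c / 2) ^ 2 := (one_mul _).symm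
      _ ≤ (∑ z ∈ gridZ k, (γkn k n).real (Bad z)) * (c / 2) ^ 2 :=
          mul_le_mul_of_nonneg_right h1 (sq_nonneg _)
      _ ≤ _ := by
          rw [Finset.sum_mul]
          refine (Finset.sum_le_sum fun z hz => box_deficit hk h hS hSm hR hshell hz).trans
            (le_of_eq ?_)
          rw [Finset.sum_const, nsmul_eq_mul]
  field_simp at h2
  nlinarith

end Vale.Agent.P230
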