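import Mathlib
import Vale.Agent.P230.Marginal
import Vale.Agent.P230.PL

/-! Every body has, in suitable coordinates, large sections over a ball of heights. -/

namespace Vale.Agent.P230

open MeasureTheory Set Matrix
open scoped Pointwise ENNReal

/-- A convex set meeting every closed orthant around `w` contains `w`. -/
lemma mem_of_orthants {k : ℕ} {L : Set (Fin k → ℝ)} (hL : Convex ℝ L) {w : Fin k → ℝ}
    (h : ∀ s : Fin k → Bool, ∃ p ∈ L, ∀ l, if s l then w l ≤ p l else p l ≤ w l) : w ∈ L := by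
  classical
  suffices H : ∀ J : Finset (Fin k), ∀ s : Fin k → Bool, ∃ p ∈ L, (∀ l ∈ J, p l = w l) ∧
      ∀ l ∉ J, if s l then w l ≤ p l else p l ≤ w l by
    obtain ⟨p, hp, hpw, -⟩ := H Finset.univ fun _ => true
    rwa [← funext fun l => hpw l (Finset.mem_univ l)]
  intro J
  induction J using Finset.induction_on with
  | empty =>
    intro s
    obtain ⟨p, hp, hps⟩ := h s
    exact ⟨p, hp, by simp, fun l _ => hps l⟩
  | insert a J ha ih =>
    intro s
    obtain ⟨p, hp, hpJ, hps⟩ := ih (Function.update s a true)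
    obtain ⟨q, hq, hqJ, hqs⟩ := ih (Function.update s a false)
    have hpa : w a ≤ p a := by simpa using hps a ha
    have hqa : q a ≤ w a := by simpa using hqs a ha
    have hmem : w a ∈ segment ℝ (q a) (p a) := by
      rw [segment_eq_Icc (hqa.trans hpa)]; exact ⟨hqa, hpa⟩
    obtain ⟨c, e, hc, he, hce, hwa⟩ := hmem
    refine ⟨c • q + e • p, hL hq hp hc he hce, fun l hl => ?_, fun l hl => ?_⟩
    · rcases Finset.mem_insert.1 hl with rfl | hl
      · simpa using hwa
      · simp [hpJ l hl, hqJ l hl, ← add_mul, hce]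
    · rw [Finset.mem_insert, not_or] at hl
      have h1 := hps l hl.2
      have h2 := hqs l hl.2
      rw [Function.update_of_ne hl.1] at h1 h2
      simp only [Pi.add_apply, Pi.smul_apply, smul_eq_mul]
      have e1 : w l = c * w l + e * w l := by rw [← add_mul, hce, one_mul]
      split_ifs at h1 h2 ⊢
      · have := mul_le_mul_of_nonneg_left h1 he
        have := mul_le_mul_of_nonneg_left h2 hc
        linarith
      · have := mul_le_mul_of_nonneg_left h1 he
        have := mul_le_mul_of_nonneg_left h2 hc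
        linarith

/-- The corner boxes around a point of the ball are on the grid. -/
lemma exists_corner_box {k : ℕ} (hk : 4 ≤ k) {w : Fin k → ℝ} (hw : ∑ l, w l ^ 2 ≤ (k:ℝ) + 1)
    (s : Fin k → Bool) : ∃ z ∈ gridZ k, ∀ p : Fin k → ℝ,
      (∀ l, p l ∈ Ico (boxLo z l) (boxHi z l)) →
      ∀ l, if s l then w l ≤ p l else p l ≤ w l := by
  have hη := etaB_pos (k := k) (by omega)
  set η := etaB k with hηdef
  have hkR : (4:ℝ) ≤ k := by exact_mod_cast hk
  set z : Fin k → ℤ := fun l => if s l then ⌊w l / η⌋ + 2 else ⌊w l / η⌋ - 1 with hz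
  have hfl : ∀ l, (⌊w l / η⌋ : ℝ) * η ≤ w l ∧ w l < ((⌊w l / η⌋ : ℝ) + 1) * η := fun l =>
    ⟨(le_div_iff₀ hη).1 (Int.floor_le _), (div_lt_iff₀ hη).1 (Int.lt_floor_add_one _)⟩
  have hzb : ∀ l, |(z l : ℝ)| * η ≤ |w l| + 2 * η := by
    intro l
    rw [← abs_of_pos hη, ← abs_mul, abs_of_pos hη, abs_le]
    obtain ⟨h1, h2⟩ := hfl l
    simp only [hz]
    split_ifs <;> push_cast <;>
      exact ⟨by linarith [neg_abs_le (w l)], by linarith [le_abs_self (w l)]⟩
  refine ⟨z, ?_, fun p hp l => ?_⟩
  · have hnorm : ∑ l, (|(z l : ℝ)| * η + η / 2) ^ 2 ≤ (k:ℝ) + 34 := by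
      calc ∑ l, (|(z l : ℝ)| * η + η / 2) ^ 2
          ≤ ∑ l, (w l ^ 2 + 3 * η * (w l ^ 2 + 1) + 9 * η ^ 2) := by
            refine Finset.sum_le_sum fun l _ => ?_
            have h1 : |(z l : ℝ)| * η + η / 2 ≤ |w l| + 3 * η := by linarith [hzb l]
            refine (pow_le_pow_left₀ (by positivity) h1 2).trans ?_
            nlinarith [sq_abs (w l), sq_nonneg (|w l| - 1), abs_nonneg (w l)]
        _ = (1 + 3 * η) * ∑ l, w l ^ 2 + (3 * η + 9 * η ^ 2) * k := by
            simp only [Finset.sum_add_distrib, ← Finset.mul_sum, Finset.sum_const, Finset.card_univ,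
              Fintype.card_fin, nsmul_eq_mul]
            ring
        _ ≤ (1 + 3 * η) * ((k:ℝ) + 1) + (3 * η + 9 * η ^ 2) * k := by gcongr
        _ ≤ (k:ℝ) + 34 := by
            have h1 : η * k ≤ 1 := by
              rw [hηdef, etaB]; field_simp; nlinarith
            have h2 : η ≤ 1 := by nlinarith
            nlinarith
    refine Finset.mem_filter.2 ⟨Fintype.mem_piFinset.2 fun l => ?_, hnorm⟩
    rw [Finset.mem_Icc, ← abs_le]
    have h1 : (|(z l : ℝ)| * η) ^ 2 ≤ ((k:ℝ) + 6) ^ 2 := by
      refine le_trans ?_ (le_trans hnorm (by nlinarith))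
      refine le_trans (pow_le_pow_left₀ (by positivity) (by linarith : |(z l : ℝ)| * η ≤
        |(z l : ℝ)| * η + η / 2) 2) ?_
      exact Finset.single_le_sum (f := fun l => (|(z l : ℝ)| * η + η / 2) ^ 2)
        (fun i _ => sq_nonneg _) (Finset.mem_univ l)
    have h2 := abs_le_of_sq_le_sq h1 (by positivity)
    rw [abs_of_nonneg (by positivity), hηdef, etaB, mul_one_div,
      div_le_iff₀ (by positivity)] at h2
    have h3 : ((|z l| : ℤ) : ℝ) ≤ (((k:ℤ) ^ 2 * (k + 6) : ℤ) : ℝ) := by
      push_cast; linarith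
    exact_mod_cast h3
  · obtain ⟨h1, h2⟩ := hfl l
    have h3 := hp l
    simp only [boxLo, boxHi, mem_Ico, hz, ← hηdef] at h3
    split_ifs with hs <;> simp only [hs, if_true, Bool.false_eq_true, if_false] at h3 <;>
      push_cast at h3 <;> linarith [h3.1, h3.2]

/-- The splitting of coordinates. -/
def splitM (d k : ℕ) : (Fin (d + k) → ℝ) ≃ᵐ (Fin d → ℝ) × (Fin k → ℝ) :=
  (MeasurableEquiv.piCongrLeft (fun _ => ℝ) finSumFinEquiv).symm.trans
    (MeasurableEquiv.sumPiEquivProdPi fun _ => ℝ)

lemma splitM_apply (d k : ℕ) (x : Fin (d + k) → ℝ) :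
    splitM d k x = (fun i => x (Fin.castAdd k i), fun l => x (Fin.natAdd d l)) := by
  refine Prod.ext (funext fun i => ?_) (funext fun l => ?_)
  · simp [splitM, MeasurableEquiv.piCongrLeft, MeasurableEquiv.sumPiEquivProdPi,
      Equiv.piCongrLeft_symm_apply, Equiv.sumPiEquivProdPi]
  · simp [splitM, MeasurableEquiv.piCongrLeft, MeasurableEquiv.sumPiEquivProdPi,
      Equiv.piCongrLeft_symm_apply, Equiv.sumPiEquivProdPi]

lemma splitM_preserving (d k : ℕ) : MeasurePreserving (splitM d k) volume volume := by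
  refine (volume_measurePreserving_sumPiEquivProdPi (fun _ : Fin d ⊕ Fin k => ℝ)).comp ?_
  exact (volume_measurePreserving_piCongrLeft (fun _ : Fin (d + k) => ℝ) finSumFinEquiv).symm _

lemma splitM_convex {d k : ℕ} {K : Set (Fin (d + k) → ℝ)} (h : Convex ℝ K) :
    Convex ℝ (splitM d k '' K) := by
  intro p hp q hq a b ha hb hab
  obtain ⟨x, hx, rfl⟩ := hp
  obtain ⟨y, hy, rfl⟩ := hq
  exact ⟨a • x + b • y, h hx hy ha hb hab, by simp [splitM_apply]; constructor <;> rfl⟩

lemma splitM_compact {d k : ℕ} {K : Set (Fin (d + k) → ℝ)} (h : IsCompact K) :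
    IsCompact (splitM d k '' K) := by
  have hc : Continuous (splitM d k) := by
    have : (splitM d k : (Fin (d + k) → ℝ) → _) =
        fun x => (fun i => x (Fin.castAdd k i), fun l => x (Fin.natAdd d l)) :=
      funext (splitM_apply d k)
    rw [this]; fun_prop
  exact h.image hc

/-- Extend a surjective projection to an invertible matrix. -/
lemma exists_matrix_extension {d k : ℕ} (P : (Fin (d + k) → ℝ) →ₗ[ℝ] (Fin k → ℝ))
    (hP : Function.Surjective P) :
    ∃ N : Matrix (Fin (d + k)) (Fin (d + k)) ℝ, N.det ≠ 0 ∧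
      ∀ x l, (N *ᵥ x) (Fin.natAdd d l) = P x l := by
  obtain ⟨Q, hQ⟩ := LinearMap.exists_rightInverse_of_surjective P (LinearMap.range_eq_top.2 hP)
  have hker : Module.finrank ℝ (LinearMap.ker P) = d := by
    have h := P.finrank_range_add_finrank_ker
    rw [LinearMap.range_eq_top.2 hP, finrank_top, Module.finrank_fin_fun,
      Module.finrank_fin_fun] at h
    omega
  obtain ⟨e⟩ := FiniteDimensional.nonempty_linearEquiv_of_finrank_eq
    (hker.trans (Module.finrank_fin_fun (R := ℝ) (n := d)).symm)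
  have hQ' : ∀ x, P (Q x) = x := fun x => LinearMap.congr_fun hQ x
  set proj : (Fin (d + k) → ℝ) →ₗ[ℝ] LinearMap.ker P :=
    (LinearMap.id - Q ∘ₗ P).codRestrict _ fun x => by simp [hQ']
  set J : (Fin d → ℝ) × (Fin k → ℝ) →ₗ[ℝ] (Fin (d + k) → ℝ) :=
    { toFun := fun q => Fin.append q.1 q.2
      map_add' := fun p q => by
        funext i
        induction i using Fin.addCases <;> simp
      map_smul' := fun c q => by
        funext i
        induction i using Fin.addCases <;> simp }
  set Φ := J ∘ₗ ((e.toLinearMap ∘ₗ proj).prod P) with hΦ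
  have happ : ∀ x l, Φ x (Fin.natAdd d l) = P x l := fun x l => by simp [hΦ, J]
  have hinj : Function.Injective Φ := by
    rw [← LinearMap.ker_eq_bot, LinearMap.ker_eq_bot']
    intro x hx
    have h1 : P x = 0 := funext fun l => by rw [← happ x l, hx]; rfl
    have h2 : e (proj x) = 0 := funext fun i => by
      have := congrFun hx (Fin.castAdd k i)
      simpa [hΦ, J] using this
    have h3 : proj x = 0 := e.map_eq_zero_iff.1 h2
    have h4 : x - Q (P x) = 0 := congrArg Subtype.val h3
    simpa [h1] using h4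
  refine ⟨LinearMap.toMatrix' Φ, ?_, fun x l => ?_⟩
  · rw [LinearMap.det_toMatrix']
    exact fun h => (LinearMap.isUnit_iff_isUnit_det Φ).1
      (LinearMap.isUnit_iff_ker_eq_bot Φ |>.2 (LinearMap.ker_eq_bot.2 hinj)) |>.ne_zero h
  · rw [LinearMap.toMatrix'_mulVec, happ]

/-- Coordinates in which all sections over the ball of radius `√(k+1)` are large. -/
theorem exists_large_sections {d k : ℕ} (hk : 4 ≤ k) {K S : Set (Fin (d + k) → ℝ)} (h : Iso K)
    (hS : S ⊆ K) (hSm : MeasurableSet S) {R : ℝ} (hR : 0 < R)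
    (hshell : ∀ x ∈ S, R ^ 2 ≤ ∑ i, x i ^ 2 ∧ ∑ i, x i ^ 2 ≤ ((1 + 1 / (k:ℝ)) * R) ^ 2)
    (hSp : 0 < volume.real S)
    (hvar : ((gridZ k).card : ℝ) * (64 * k ^ 2 * Real.sqrt ((d + k : ℕ) : ℝ) * volume.real K ^ 2)
      < R ^ 2 * (mu0 k * volume.real S) ^ 2) :
    ∃ N : Matrix (Fin (d + k)) (Fin (d + k)) ℝ, N.det ≠ 0 ∧
      ∀ w : Fin k → ℝ, ∑ l, w l ^ 2 ≤ (k:ℝ) + 1 →
        |N.det| * (mu0 k * volume.real S) / (4 * etaB k ^ k) ≤
          volume.real (sec (splitM d k '' ((fun x => N *ᵥ x) '' K)) w) := by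
  have hη := etaB_pos (k := k) (by omega)
  have hμ := mu0_pos (k := k) (by omega)
  obtain ⟨G, hG⟩ := exists_good_projection hk h hS hSm hR hshell hvar
  set P : (Fin (d + k) → ℝ) →ₗ[ℝ] (Fin k → ℝ) :=
    LinearMap.pi fun l => (1 / R) • ∑ i, G l i • LinearMap.proj i with hP
  have hPa : ∀ x l, P x l = (∑ i, G l i * x i) / R := by
    intro x l
    simp [hP, div_eq_inv_mul]
  have hcorner : ∀ w : Fin k → ℝ, ∑ l, w l ^ 2 ≤ (k:ℝ) + 1 → ∀ s : Fin k → Bool,
      ∃ z ∈ gridZ k, ∀ p : Fin k → ℝ, (∀ l, p l ∈ Ico (boxLo z l) (boxHi z l)) →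
        ∀ l, if s l then w l ≤ p l else p l ≤ w l := fun w hw s => exists_corner_box hk hw s
  have hsurj : Function.Surjective P := by
    rw [← LinearMap.range_eq_top, eq_top_iff]
    intro v _
    have hball : ∀ w : Fin k → ℝ, ∑ l, w l ^ 2 ≤ (k:ℝ) + 1 → w ∈ LinearMap.range P := by
      intro w hw
      refine mem_of_orthants (LinearMap.range P).convex fun s => ?_
      obtain ⟨z, hz, hzp⟩ := hcorner w hw s
      obtain ⟨x, hx⟩ := nonempty_of_measure_ne_zero (μ := volume)
        (s := S ∩ {x | ∀ l, (∑ i, G l i * x i) / R ∈ Ico (boxLo z l) (boxHi z l)}) (by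
          intro h0
          have := hG z hz
          rw [measureReal_def volume (S ∩ _), h0, ENNReal.toReal_zero] at this
          linarith [mul_pos hμ hSp])
      exact ⟨P x, ⟨x, rfl⟩, hzp _ fun l => by rw [hPa]; exact hx.2 l⟩
    have e : v = ∑ l, v l • (Pi.single l (1:ℝ) : Fin k → ℝ) := by
      funext j
      simp [Finset.sum_apply, Pi.single_apply]
    rw [e]
    refine Submodule.sum_mem _ fun l _ => Submodule.smul_mem _ _ (hball _ ?_)
    have : (4:ℝ) ≤ k := by exact_mod_cast hk
    simp [Pi.single_apply]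
  obtain ⟨N, hN, hNP⟩ := exists_matrix_extension P hsurj
  refine ⟨N, hN, fun w hw => ?_⟩
  set t := |N.det| * (mu0 k * volume.real S) / (4 * etaB k ^ k) with ht
  have htp : 0 < t := by
    have := abs_pos.2 hN
    positivity
  set K2 := (fun x => N *ᵥ x) '' K
  have hK2c : IsCompact K2 := h.compact.image (by fun_prop)
  have hK2v : Convex ℝ K2 := h.convex.linear_image N.mulVecLin
  set K3 := splitM d k '' K2 with hK3
  have hK3c : IsCompact K3 := splitM_compact hK2c
  have hK3v : Convex ℝ K3 := splitM_convex hK2v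
  have hfin : ∀ u, volume (sec K3 u) ≠ ∞ := fun u => (sec_compact hK3c u).measure_lt_top.ne
  set L := {u : Fin k → ℝ | t ≤ volume.real (sec K3 u)}
  have hLc : Convex ℝ L := by
    refine convex_iff_forall_pos.2 fun u hu v hv a b ha hb hab => ?_
    have h1 := brunn_minkowski_min ha hb hab (sec_compact hK3c u).measurableSet
      (sec_compact hK3c v).measurableSet (sec_compact hK3c (a • u + b • v)).measurableSet
      (fun x hx y hy => by
        have := hK3v hx hy ha.le hb.le hab
        simpa [sec] using this)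
    have h2 := ENNReal.toReal_mono (hfin _) h1
    rw [ENNReal.toReal_min (hfin u) (hfin v)] at h2
    exact le_trans (le_min hu hv) h2
  refine mem_of_orthants hLc fun s => ?_
  obtain ⟨z, hz, hzp⟩ := hcorner w hw s
  set W := Set.pi univ fun l => Ico (boxLo z l) (boxHi z l) with hW
  have hWm : MeasurableSet W := MeasurableSet.univ_pi fun _ => measurableSet_Ico
  have hWv : volume.real W = etaB k ^ k := by
    rw [measureReal_def, volume_pi_pi, ENNReal.toReal_prod]
    simp only [Real.volume_Ico, boxHi, boxLo]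
    rw [Finset.prod_eq_pow_card (b := etaB k)]
    · simp
    · intro l _
      rw [ENNReal.toReal_ofReal (by linarith)]
      ring
  by_contra hno
  push Not at hno
  have hsmall : ∀ u ∈ W, volume.real (sec K3 u) < t := by
    intro u hu
    by_contra h'
    obtain ⟨l, hl⟩ := hno u (not_lt.1 h')
    have h2 := hzp u (fun l => hu l (mem_univ l)) l
    cases hb : s l <;> simp [hb] at h2 hl <;> linarith
  set T := S ∩ {x | ∀ l, (∑ i, G l i * x i) / R ∈ Ico (boxLo z l) (boxHi z l)}
  have hsub : splitM d k '' ((fun x => N *ᵥ x) '' T) ⊆ K3 ∩ (univ ×ˢ W) := by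
    rintro _ ⟨_, ⟨x, hx, rfl⟩, rfl⟩
    refine ⟨⟨_, ⟨x, hS hx.1, rfl⟩, rfl⟩, ?_⟩
    simp only [splitM_apply, mem_prod, mem_univ, true_and, hW, Set.mem_pi, true_implies]
    intro l
    rw [hNP, hPa]
    exact hx.2 l
  have hTv : volume.real (splitM d k '' ((fun x => N *ᵥ x) '' T)) = |N.det| * volume.real T := by
    rw [measureReal_def, (splitM d k).image_eq_preimage_symm,
      ((splitM_preserving d k).symm _).measure_preimage_equiv,
      show (fun x => N *ᵥ x) '' T = Matrix.toLin' N '' T from rfl,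
      Measure.addHaar_image_linearMap, LinearMap.det_toLin', ENNReal.toReal_mul,
      ENNReal.toReal_ofReal (abs_nonneg _), ← measureReal_def]
  have hKW : volume (K3 ∩ (univ ×ˢ W)) ≤ ENNReal.ofReal t * volume W := by
    rw [Measure.volume_eq_prod,
      Measure.prod_apply_symm (hK3c.measurableSet.inter (MeasurableSet.univ.prod hWm)),
      ← setLIntegral_const, ← lintegral_indicator hWm]
    refine lintegral_mono fun u => ?_
    by_cases hu : u ∈ W
    · rw [indicator_of_mem hu]
      refine le_trans (measure_mono (t := sec K3 u) fun x hx => hx.1) ?_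
      rw [← ofReal_measureReal (hfin u)]
      exact ENNReal.ofReal_le_ofReal (hsmall u hu).le
    · rw [indicator_of_notMem hu]
      have : (fun x : Fin d → ℝ => (x, u)) ⁻¹' (K3 ∩ univ ×ˢ W) = ∅ := by
        ext x; simp [hu]
      simp [this]
  have h1 : |N.det| * volume.real T ≤ t * etaB k ^ k := by
    rw [← hTv, ← hWv]
    refine (measureReal_mono hsub ?_).trans ?_
    · exact ((measure_mono inter_subset_left).trans_lt hK3c.measure_lt_top).ne
    · rw [measureReal_def, measureReal_def]
      refine le_trans (ENNReal.toReal_mono ?_ hKW) (le_of_eq ?_)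
      · refine ENNReal.mul_ne_top ENNReal.ofReal_ne_top ?_
        rw [hW, volume_pi_pi]
        exact ENNReal.prod_ne_top fun l _ => by simp [Real.volume_Ico]
      · rw [ENNReal.toReal_mul, ENNReal.toReal_ofReal htp.le]
  have h2 := mul_le_mul_of_nonneg_left (hG z hz) (abs_nonneg N.det)
  rw [ht, div_mul_eq_mul_div, le_div_iff₀ (by positivity)] at h1
  have h3 : 0 < |N.det| * (mu0 k * volume.real S) := by
    have := abs_pos.2 hN
    positivity
  nlinarith [pow_pos hη k]

end Vale.Agent.P230
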