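import Mathlib
import Vale.Agent.P230.Core
import Vale.Agent.P230.Sections

/-! Parameters, and the lattice covering bound. -/

namespace Vale.Agent.P230

open MeasureTheory Set Matrix Filter Topology

lemma choose_lower (j : ℕ) : (256/27:ℝ) ^ j ≤ (4 * (j:ℝ) + 1) * ((4 * j).choose j : ℝ) := by
  induction j with
  | zero => simp
  | succ j ih =>
    have h1 : ((4 * (j+1)).choose (j+1) : ℝ) =
        (4 * (j:ℝ) + 4) * (4 * j + 3) * (4 * j + 2) * (4 * j + 1) /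
          ((j + 1) * (3 * j + 3) * (3 * j + 2) * (3 * j + 1)) * ((4 * j).choose j : ℝ) := by
      rw [Nat.cast_choose ℝ (by omega : j + 1 ≤ 4 * (j + 1)), Nat.cast_choose ℝ (by omega : j ≤ 4 * j),
        show 4 * (j + 1) - (j + 1) = (3 * j + 2) + 1 by omega, show 4 * j - j = 3 * j by omega,
        show 4 * (j + 1) = (4 * j + 3) + 1 by omega]
      simp only [Nat.factorial_succ, show 4 * j + 3 = (4 * j + 2) + 1 by omega,
        show 4 * j + 2 = (4 * j + 1) + 1 by omega, show 3 * j + 2 = (3 * j + 1) + 1 by omega]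
      push_cast
      field_simp
      ring
    have hC : (0:ℝ) ≤ ((4 * j).choose j : ℝ) := Nat.cast_nonneg _
    have hj : (0:ℝ) ≤ (j:ℝ) := Nat.cast_nonneg _
    have key : (256/27:ℝ) * (4 * (j:ℝ) + 1) ≤ (4 * ((j:ℝ)+1) + 1) *
        ((4 * (j:ℝ) + 4) * (4 * j + 3) * (4 * j + 2) * (4 * j + 1) /
          ((j + 1) * (3 * j + 3) * (3 * j + 2) * (3 * j + 1))) := by
      rw [mul_div_assoc', div_mul_eq_mul_div, div_le_div_iff₀ (by norm_num) (by positivity)]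
      nlinarith [pow_nonneg hj 2, pow_nonneg hj 3, pow_nonneg hj 4, pow_nonneg hj 5]
    calc (256/27:ℝ) ^ (j+1) = 256/27 * (256/27:ℝ) ^ j := pow_succ' _ _
      _ ≤ 256/27 * ((4 * (j:ℝ) + 1) * ((4 * j).choose j : ℝ)) :=
          mul_le_mul_of_nonneg_left ih (by norm_num)
      _ ≤ (4 * ((j:ℝ)+1) + 1) * ((4 * (j:ℝ) + 4) * (4 * j + 3) * (4 * j + 2) * (4 * j + 1) /
          ((j + 1) * (3 * j + 3) * (3 * j + 2) * (3 * j + 1))) * ((4 * j).choose j : ℝ) := by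
          rw [← mul_assoc]; exact mul_le_mul_of_nonneg_right key hC
      _ = _ := by rw [h1]; push_cast; ring

lemma exists_choose_index (N0 : ℕ) (hN : 2 ≤ N0) : ∃ j : ℕ, 0 < j ∧
    N0 * (8 * j + 1) ≤ (4 * j).choose j ∧
    (256/27:ℝ) ^ j ≤ 304 * (j:ℝ) ^ 2 * N0 := by
  have hex : ∃ j : ℕ, N0 * (8 * j + 1) ≤ (4 * j).choose j := by
    have h : Tendsto (fun j : ℕ => ((j:ℝ) ^ 2 * (27/256:ℝ) ^ j)) atTop (𝓝 0) :=
      tendsto_pow_const_mul_const_pow_of_lt_one 2 (by norm_num) (by norm_num)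
    have hN' : (0:ℝ) < 45 * N0 := by
      have : (2:ℝ) ≤ N0 := by exact_mod_cast hN
      linarith
    obtain ⟨j, hj1, hj⟩ := ((eventually_ge_atTop 1).and
      (h.eventually_le_const (by positivity : (0:ℝ) < 1 / (45 * N0)))).exists
    refine ⟨j, ?_⟩
    have hjR : (1:ℝ) ≤ j := by exact_mod_cast hj1
    have h2 : (45 * (N0:ℝ)) * (j:ℝ) ^ 2 ≤ (256/27:ℝ) ^ j := by
      rw [le_div_iff₀ hN', show (27/256:ℝ) = (256/27:ℝ)⁻¹ by norm_num, inv_pow] at hj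
      field_simp at hj
      linarith
    have h3 := choose_lower j
    have h4 : ((N0:ℝ) * (8 * j + 1)) * (4 * j + 1) ≤ ((4 * j).choose j : ℝ) * (4 * j + 1) := by
      calc ((N0:ℝ) * (8 * j + 1)) * (4 * j + 1) ≤ ((N0:ℝ) * (9 * j)) * (5 * j) := by
            gcongr <;> linarith
        _ = (45 * (N0:ℝ)) * (j:ℝ) ^ 2 := by ring
        _ ≤ _ := by linarith
    have h5 := le_of_mul_le_mul_right h4 (by positivity)
    exact_mod_cast h5
  classical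
  have hpos : 0 < Nat.find hex := by
    rcases Nat.eq_zero_or_pos (Nat.find hex) with h | h
    · have := Nat.find_spec hex
      rw [h] at this
      simp at this
      omega
    · exact h
  refine ⟨Nat.find hex, hpos, Nat.find_spec hex, ?_⟩
  obtain ⟨i, hi⟩ : ∃ i, Nat.find hex = i + 1 := ⟨Nat.find hex - 1, by omega⟩
  have hmin := Nat.find_min hex (show i < Nat.find hex by omega)
  rw [hi]
  have h1 : ((4 * i).choose i : ℝ) ≤ (N0:ℝ) * (8 * i + 1) := by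
    exact_mod_cast (not_le.1 hmin).le
  have hiR : (0:ℝ) ≤ (i:ℝ) := Nat.cast_nonneg _
  calc (256/27:ℝ) ^ (i+1) = 256/27 * (256/27:ℝ) ^ i := pow_succ' _ _
    _ ≤ 256/27 * ((4 * (i:ℝ) + 1) * ((N0:ℝ) * (8 * i + 1))) := by
        refine mul_le_mul_of_nonneg_left ((choose_lower i).trans ?_) (by norm_num)
        exact mul_le_mul_of_nonneg_left h1 (by positivity)
    _ ≤ 256/27 * ((4 * ((i:ℝ) + 1)) * ((N0:ℝ) * (8 * (i + 1)))) := by
        gcongr <;> linarith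
    _ = 8192/27 * ((i:ℝ) + 1) ^ 2 * N0 := by ring
    _ ≤ _ := by
        push_cast
        gcongr
        norm_num

lemma geometric_trade : ∃ C : ℝ, 0 < C ∧ ∀ j : ℕ, (73/4:ℝ) ^ j * ((j:ℝ) + 1) ^ 5 ≤ C * 20 ^ j := by
  have h : Tendsto (fun j : ℕ => ((j:ℝ)) ^ 5 * (73/80:ℝ) ^ j) atTop (𝓝 0) :=
    tendsto_pow_const_mul_const_pow_of_lt_one 5 (by norm_num) (by norm_num)
  have h' : Tendsto (fun j : ℕ => (((j + 1 : ℕ) : ℝ)) ^ 5 * (73/80:ℝ) ^ (j+1) * (80/73)) atTop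
      (𝓝 0) := by
    simpa using ((h.comp (tendsto_add_atTop_nat 1)).mul_const (80/73:ℝ))
  obtain ⟨C, hC⟩ := h'.bddAbove_range
  refine ⟨max C 1, by positivity, fun j => ?_⟩
  have h1 : (((j + 1 : ℕ) : ℝ)) ^ 5 * (73/80:ℝ) ^ (j+1) * (80/73) ≤ max C 1 :=
    (hC ⟨j, rfl⟩).trans (le_max_left _ _)
  calc (73/4:ℝ) ^ j * ((j:ℝ) + 1) ^ 5
      = ((((j + 1 : ℕ) : ℝ)) ^ 5 * (73/80:ℝ) ^ (j+1) * (80/73)) * 20 ^ j := by
        rw [show (73/4:ℝ) = 73/80 * 20 by norm_num, mul_pow, pow_succ (73/80:ℝ) j]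
        push_cast
        ring
    _ ≤ _ := mul_le_mul_of_nonneg_right h1 (by positivity)

lemma polylog_le (C : ℝ) (p : ℕ) {s : ℝ} (hs : 0 < s) :
    ∀ᶠ n : ℕ in atTop, C * Real.log n ^ p ≤ (n:ℝ) ^ s := by
  have h := ((isLittleO_log_rpow_rpow_atTop (p:ℝ) hs).bound
    (show (0:ℝ) < 1 / (|C| + 1) by positivity))
  filter_upwards [tendsto_natCast_atTop_atTop.eventually h, eventually_ge_atTop 1] with n hn hn1
  have hn1' : (1:ℝ) ≤ n := by exact_mod_cast hn1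
  have hL : 0 ≤ Real.log n := Real.log_nonneg hn1'
  rw [Real.rpow_natCast, Real.norm_eq_abs, Real.norm_eq_abs, abs_of_nonneg (pow_nonneg hL p),
    abs_of_nonneg (Real.rpow_nonneg (Nat.cast_nonneg n) s)] at hn
  have h1 : C * Real.log n ^ p ≤ (|C| + 1) * Real.log n ^ p :=
    mul_le_mul_of_nonneg_right (by linarith [le_abs_self C]) (by positivity)
  refine h1.trans ?_
  have h2 : (0:ℝ) < |C| + 1 := by positivity
  calc (|C| + 1) * Real.log n ^ p ≤ (|C| + 1) * (1 / (|C| + 1) * (n:ℝ) ^ s) :=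
        mul_le_mul_of_nonneg_left hn h2.le
    _ = _ := by field_simp

lemma tauC_le_one : tauC ≤ 1 := by
  unfold tauC
  rw [div_le_one (by norm_num)]
  linarith [etaC_lt]

/-- The loss per four dimensions. -/
lemma gauss_loss {k j : ℕ} (hk : k = 4 * j) (hk1 : 1 ≤ k) :
    etaB k ^ k / (2 ^ k * mu0 k) ≤ Real.exp 18 * (73/4:ℝ) ^ j := by
  have hη := etaB_pos hk1
  have hs : (0:ℝ) < Real.sqrt (2 * Real.pi) := by positivity
  have e : etaB k ^ k / (2 ^ k * mu0 k) =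
      Real.exp 18 * ((Real.sqrt (2 * Real.pi) * Real.exp (1/2) / 2) ^ 4) ^ j := by
    rw [← pow_mul, ← hk, mu0, div_pow, div_pow, mul_pow, ← Real.exp_nat_mul]
    have e2 : Real.exp (-((k:ℝ) + 34) / 2) * Real.exp (-1) * Real.exp ((k:ℝ) * (1/2)) * Real.exp 18
        = 1 := by
      rw [← Real.exp_add, ← Real.exp_add, ← Real.exp_add, Real.exp_eq_one_iff]
      ring
    rw [show -(((k:ℝ) + 34) / 2) = -((k:ℝ) + 34) / 2 by ring]
    have ha := Real.exp_pos (-((k:ℝ) + 34) / 2)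
    have hb := Real.exp_pos (-1 : ℝ)
    generalize Real.exp (-((k:ℝ) + 34) / 2) = a at e2 ha ⊢
    generalize Real.exp (-1 : ℝ) = b at e2 hb ⊢
    generalize Real.exp ((k:ℝ) * (1/2)) = c at e2 ⊢
    field_simp
    linear_combination -e2
  rw [e]
  refine mul_le_mul_of_nonneg_left (pow_le_pow_left₀ (by positivity) ?_ j) (Real.exp_pos _).le
  rw [div_pow, mul_pow, show Real.sqrt (2 * Real.pi) ^ 4 = (Real.sqrt (2 * Real.pi) ^ 2) ^ 2 by ring,
    Real.sq_sqrt (by positivity), ← Real.exp_nat_mul]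
  have h1 : Real.exp (((4:ℕ):ℝ) * (1/2)) = Real.exp 1 * Real.exp 1 := by
    rw [← Real.exp_add]; norm_num
  rw [h1]
  have hp := Real.pi_lt_d6
  have he := Real.exp_one_lt_d9
  calc (2 * Real.pi) ^ 2 * (Real.exp 1 * Real.exp 1) / 2 ^ 4
      ≤ (2 * 3.141593) ^ 2 * (2.7182818286 * 2.7182818286) / 2 ^ 4 := by gcongr
    _ ≤ 73/4 := by norm_num

/-- The smallness needed for the second-moment argument. -/
lemma variance_condition {n k m B : ℕ} {V σ R : ℝ} (hn : 2 ≤ n) (hk : 4 ≤ k) (hm : 1 ≤ m)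
    (hB : 1 ≤ B) (hV : 0 < V) (hσ : V / (8 * B) ≤ σ) (hR : Real.sqrt n / (10 * m) ≤ R)
    (h1 : 14 * (k:ℝ) ^ 2 ≤ Real.log n / 16)
    (h2 : 409600 * Real.exp 36 * ((k:ℝ) ^ 2 * (m:ℝ) ^ 2 * (B:ℝ) ^ 2) ≤ (n:ℝ) ^ (1/16:ℝ)) :
    ((gridZ k).card : ℝ) * (64 * k ^ 2 * Real.sqrt n * V ^ 2) < R ^ 2 * (mu0 k * σ) ^ 2 := by
  have hnR : (2:ℝ) ≤ n := by exact_mod_cast hn
  have hkR : (4:ℝ) ≤ k := by exact_mod_cast hk
  have hmR : (1:ℝ) ≤ m := by exact_mod_cast hm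
  have hBR : (1:ℝ) ≤ B := by exact_mod_cast hB
  have hμ := mu0_pos (k := k) (by omega)
  have hcard : ((gridZ k).card : ℝ) ≤ (2 * (k:ℝ) ^ 4) ^ k := by
    refine (card_gridZ_le k).trans (pow_le_pow_left₀ (by positivity) ?_ k)
    nlinarith [pow_le_pow_left₀ (by norm_num : (0:ℝ) ≤ 4) hkR 2,
      pow_le_pow_left₀ (by norm_num : (0:ℝ) ≤ 4) hkR 3]
  have hmu : (1 / (27 * (k:ℝ) ^ 4)) ^ k * Real.exp (-36) ≤ mu0 k ^ 2 := by
    have hs : Real.sqrt (2 * Real.pi) ≤ 3 := Real.sqrt_le_iff.2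
      ⟨by norm_num, by linarith [Real.pi_lt_d2]⟩
    have h3 : (1 / (3 * (k:ℝ) ^ 2)) ^ k ≤ (etaB k / Real.sqrt (2 * Real.pi)) ^ k := by
      refine pow_le_pow_left₀ (by positivity) ?_ k
      rw [etaB, div_div, mul_comm (3:ℝ)]
      gcongr
    have h4 : (1/3:ℝ) ^ k ≤ Real.exp (-(k:ℝ)) := by
      rw [show -(k:ℝ) = (k:ℝ) * (-1) by ring, Real.exp_nat_mul]
      refine pow_le_pow_left₀ (by norm_num) ?_ k
      rw [Real.exp_neg, one_div]
      exact inv_anti₀ (Real.exp_pos 1) Real.exp_one_lt_three.le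
    calc (1 / (27 * (k:ℝ) ^ 4)) ^ k * Real.exp (-36)
        = ((1 / (3 * (k:ℝ) ^ 2)) ^ k) ^ 2 * ((1/3:ℝ) ^ k * Real.exp (-36)) := by
          rw [← pow_mul, mul_comm k 2, pow_mul, ← mul_assoc, ← mul_pow]
          congr 2
          field_simp
          ring
      _ ≤ ((etaB k / Real.sqrt (2 * Real.pi)) ^ k) ^ 2 * (Real.exp (-(k:ℝ)) * Real.exp (-36)) := by
          gcongr
      _ = mu0 k ^ 2 := by
          rw [mu0, mul_pow, mul_pow, ← Real.exp_nat_mul, ← Real.exp_nat_mul, mul_assoc, ← Real.exp_add,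
            ← Real.exp_add]
          congr 2
          push_cast
          ring
  have hexp : (54 * (k:ℝ) ^ 8) ^ k ≤ Real.exp (14 * (k:ℝ) ^ 2) := by
    rw [show 14 * (k:ℝ) ^ 2 = (k:ℝ) * (14 * k) by ring, Real.exp_nat_mul]
    refine pow_le_pow_left₀ (by positivity) ?_ k
    have h5 : (k:ℝ) ≤ Real.exp k := (by linarith [Real.add_one_le_exp (k:ℝ)])
    have h6 : (54:ℝ) ≤ Real.exp (6 * k) := by
      refine le_trans ?_ (Real.exp_le_exp.2 (show (6:ℝ) ≤ 6 * k by linarith))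
      rw [show (6:ℝ) = (6:ℕ) * (1:ℝ) by norm_num, Real.exp_nat_mul]
      refine le_trans (by norm_num : (54:ℝ) ≤ 2 ^ 6) (pow_le_pow_left₀ (by norm_num) ?_ 6)
      linarith [Real.add_one_le_exp (1:ℝ)]
    calc 54 * (k:ℝ) ^ 8 ≤ Real.exp (6 * k) * Real.exp k ^ 8 := by gcongr
      _ = Real.exp (14 * k) := by
          rw [← Real.exp_nat_mul, ← Real.exp_add]; congr 1; push_cast; ring
  -- the key product
  have hkey : (2 * (k:ℝ) ^ 4) ^ k * (409600 * ((k:ℝ) ^ 2 * (m:ℝ) ^ 2 * (B:ℝ) ^ 2))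
      < Real.sqrt n * ((1 / (27 * (k:ℝ) ^ 4)) ^ k * Real.exp (-36)) := by
    have e : (2 * (k:ℝ) ^ 4) ^ k * (409600 * ((k:ℝ) ^ 2 * (m:ℝ) ^ 2 * (B:ℝ) ^ 2)) =
        ((54 * (k:ℝ) ^ 8) ^ k * (409600 * Real.exp 36 * ((k:ℝ) ^ 2 * (m:ℝ) ^ 2 * (B:ℝ) ^ 2))) *
          ((1 / (27 * (k:ℝ) ^ 4)) ^ k * Real.exp (-36)) := by
      rw [Real.exp_neg, show (2 * (k:ℝ) ^ 4) = (54 * (k:ℝ) ^ 8) * (1 / (27 * (k:ℝ) ^ 4)) by
        field_simp; ring, mul_pow]
      field_simp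
    rw [e]
    refine mul_lt_mul_of_pos_right ?_ (by positivity)
    have h7 : Real.exp (14 * (k:ℝ) ^ 2) ≤ (n:ℝ) ^ (1/16:ℝ) := by
      rw [Real.rpow_def_of_pos (by linarith)]
      exact Real.exp_le_exp.2 (by linarith)
    calc (54 * (k:ℝ) ^ 8) ^ k * (409600 * Real.exp 36 * ((k:ℝ) ^ 2 * (m:ℝ) ^ 2 * (B:ℝ) ^ 2))
        ≤ (n:ℝ) ^ (1/16:ℝ) * (n:ℝ) ^ (1/16:ℝ) :=
          mul_le_mul (hexp.trans h7) h2 (by positivity) (by positivity)
      _ = (n:ℝ) ^ (1/8:ℝ) := by rw [← Real.rpow_add (by linarith)]; norm_num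
      _ < Real.sqrt n := by
          rw [Real.sqrt_eq_rpow]
          exact Real.rpow_lt_rpow_of_exponent_lt (by linarith) (by norm_num)
  have hR0 : 0 < R := lt_of_lt_of_le (by positivity) hR
  have hR2 : (n:ℝ) / (100 * (m:ℝ) ^ 2) ≤ R ^ 2 := by
    refine le_trans (le_of_eq ?_) (pow_le_pow_left₀ (by positivity) hR 2)
    rw [div_pow, Real.sq_sqrt (by positivity)]
    ring
  have hs2 : (V / (8 * B)) ^ 2 ≤ σ ^ 2 := pow_le_pow_left₀ (by positivity) hσ 2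
  have hsn : Real.sqrt n * Real.sqrt n = n := Real.mul_self_sqrt (by positivity)
  calc ((gridZ k).card : ℝ) * (64 * k ^ 2 * Real.sqrt n * V ^ 2)
      ≤ (2 * (k:ℝ) ^ 4) ^ k * (64 * k ^ 2 * Real.sqrt n * V ^ 2) :=
        mul_le_mul_of_nonneg_right hcard (by positivity)
    _ = ((2 * (k:ℝ) ^ 4) ^ k * (409600 * ((k:ℝ) ^ 2 * (m:ℝ) ^ 2 * (B:ℝ) ^ 2))) *
          (Real.sqrt n * V ^ 2 / (6400 * (m:ℝ) ^ 2 * (B:ℝ) ^ 2)) := by field_simp; ring
    _ < (Real.sqrt n * ((1 / (27 * (k:ℝ) ^ 4)) ^ k * Real.exp (-36))) *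
          (Real.sqrt n * V ^ 2 / (6400 * (m:ℝ) ^ 2 * (B:ℝ) ^ 2)) :=
        mul_lt_mul_of_pos_right hkey (by positivity)
    _ ≤ (Real.sqrt n * mu0 k ^ 2) * (Real.sqrt n * V ^ 2 / (6400 * (m:ℝ) ^ 2 * (B:ℝ) ^ 2)) :=
        mul_le_mul_of_nonneg_right (mul_le_mul_of_nonneg_left hmu (by positivity)) (by positivity)
    _ = (n:ℝ) / (100 * (m:ℝ) ^ 2) * (mu0 k ^ 2 * (V / (8 * B)) ^ 2) := by
        field_simp
        rw [Real.sq_sqrt (by positivity)]
        ring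
    _ ≤ R ^ 2 * (mu0 k ^ 2 * σ ^ 2) := by gcongr
    _ = _ := by ring

/-- The parameters for dimension `n`. -/
structure Params (n : ℕ) (C : ℝ) where
  j : ℕ
  d : ℕ
  m : ℕ
  N0 : ℕ
  hjd : n = d + 4 * j
  hj : 0 < j
  hn : 2 ≤ n
  hd : 100 ≤ d
  hd' : 24 ≤ tauC * d
  hkd : 4 * j ≤ d
  hm : 1 ≤ m
  hm' : 36 * (n:ℝ) ^ 2 * (2/3:ℝ) ^ m ≤ 1
  hN0 : (N0:ℝ) < ((4 * j).choose j : ℝ) / (2 * ((4 * j : ℕ) : ℝ) + 1) + 1
  hη : baseEta d (4 * j) ≤ 1
  hbig : meshCount d (4 * j) ^ (2 ^ (4 * j)) * baseEta d (4 * j) ^ N0 <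
    (1 / (16 * ((d + 4 * j : ℕ) : ℝ))) ^ d
  hk2 : 14 * ((4 * j : ℕ) : ℝ) ^ 2 ≤ Real.log n / 16
  hpoly : 409600 * Real.exp 36 * (((4 * j : ℕ) : ℝ) ^ 2 * (m:ℝ) ^ 2 *
    (⌈2 * ((4 * j : ℕ) : ℝ) * Real.log (40 * m)⌉₊ : ℝ) ^ 2) ≤ (n:ℝ) ^ (1/16:ℝ)
  hloss : (73/4:ℝ) ^ j * (⌈2 * ((4 * j : ℕ) : ℝ) * Real.log (40 * m)⌉₊ : ℝ) ≤
    C * Real.log n ^ (4/3:ℝ)

lemma sixteen_sq_le (i : ℕ) : 16 * (i:ℝ) ^ 2 ≤ 9 * 4 ^ i := by
  induction i with
  | zero => norm_num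
  | succ i ih =>
    rcases Nat.lt_or_ge i 3 with h | h
    · interval_cases i <;> norm_num
    · have : (3:ℝ) ≤ i := by exact_mod_cast h
      push_cast
      rw [pow_succ (4:ℝ)]
      nlinarith [mul_le_mul_of_nonneg_left this (by linarith : (0:ℝ) ≤ i)]

/-- Size of the index `j`. -/
lemma index_small {j N0 : ℕ} {c L X : ℝ} (hjhi : (256/27:ℝ) ^ j ≤ 304 * (j:ℝ) ^ 2 * N0)
    (hN : (N0:ℝ) ≤ c * L) (hX : 256 * (c * L) = X) : (2:ℝ) ^ j ≤ X := by
  have h0 : 0 ≤ c * L := le_trans (Nat.cast_nonneg _) hN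
  have h8 : (8:ℝ) ^ j ≤ 304 * (j:ℝ) ^ 2 * N0 :=
    (pow_le_pow_left₀ (by norm_num) (by norm_num) j).trans hjhi
  have h4 : (0:ℝ) < 4 ^ j := by positivity
  have h9 : (4:ℝ) ^ j * 2 ^ j ≤ 4 ^ j * X := by
    calc (4:ℝ) ^ j * 2 ^ j = 8 ^ j := by rw [← mul_pow]; norm_num
      _ ≤ 304 * (j:ℝ) ^ 2 * N0 := h8
      _ ≤ 304 * (j:ℝ) ^ 2 * (c * L) := mul_le_mul_of_nonneg_left hN (by positivity)
      _ ≤ 256 * 4 ^ j * (c * L) :=
          mul_le_mul_of_nonneg_right (by linarith [sixteen_sq_le j]) h0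
      _ = 4 ^ j * X := by rw [← hX]; ring
  exact le_of_mul_le_mul_left h9 h4

/-- The loss is `(log n) ^ (4/3)`. -/
lemma loss_bound {j N0 : ℕ} {Cg c L B : ℝ} (hj : 1 ≤ j) (hc : 0 < c) (hL : 0 < L)
    (hCg : 0 ≤ Cg) (htrade : (73/4:ℝ) ^ j * ((j:ℝ) + 1) ^ 5 ≤ Cg * 20 ^ j)
    (hjhi : (256/27:ℝ) ^ j ≤ 304 * (j:ℝ) ^ 2 * N0) (hN : (N0:ℝ) ≤ c * L)
    (hB : B ≤ 145 * (j:ℝ) ^ 2) :
    (73/4:ℝ) ^ j * B ≤ 145 * Cg * (304 * c) ^ (4/3:ℝ) * L ^ (4/3:ℝ) := by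
  have hjR : (1:ℝ) ≤ j := by exact_mod_cast hj
  set b : ℝ := 256/27 with hb
  have hq : (20:ℝ) ≤ b ^ (4/3:ℝ) := by
    rw [← pow_le_pow_iff_left₀ (by norm_num) (by positivity) (by norm_num : (3:ℕ) ≠ 0),
      ← Real.rpow_natCast (b ^ (4/3:ℝ)), ← Real.rpow_mul (by positivity)]
    norm_num [hb]
  have h1 : (20:ℝ) ^ j ≤ (304 * c) ^ (4/3:ℝ) * L ^ (4/3:ℝ) * ((j:ℝ) + 1) ^ 3 := by
    have h2 : b ^ j ≤ (304 * c) * L * (j:ℝ) ^ 2 := by
      calc b ^ j ≤ 304 * (j:ℝ) ^ 2 * N0 := hjhi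
        _ ≤ 304 * (j:ℝ) ^ 2 * (c * L) := by gcongr
        _ = _ := by ring
    calc (20:ℝ) ^ j ≤ (b ^ (4/3:ℝ)) ^ j := pow_le_pow_left₀ (by norm_num) hq j
      _ = (b ^ j) ^ (4/3:ℝ) := by
          rw [← Real.rpow_natCast, ← Real.rpow_mul (by positivity), mul_comm, Real.rpow_mul
            (by positivity), Real.rpow_natCast]
      _ ≤ ((304 * c) * L * (j:ℝ) ^ 2) ^ (4/3:ℝ) :=
          Real.rpow_le_rpow (by positivity) h2 (by norm_num)
      _ = (304 * c) ^ (4/3:ℝ) * L ^ (4/3:ℝ) * ((j:ℝ) ^ 2) ^ (4/3:ℝ) := by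
          rw [Real.mul_rpow (by positivity) (by positivity),
            Real.mul_rpow (by positivity) (by positivity)]
      _ ≤ _ := by
          refine mul_le_mul_of_nonneg_left ?_ (by positivity)
          rw [← Real.rpow_natCast (j:ℝ) 2, ← Real.rpow_mul (by positivity),
            ← Real.rpow_natCast ((j:ℝ) + 1) 3]
          refine le_trans (Real.rpow_le_rpow_of_exponent_le hjR
            (by norm_num : ((2:ℕ):ℝ) * (4/3) ≤ ((3:ℕ):ℝ))) ?_
          exact Real.rpow_le_rpow (by positivity) (by linarith) (by positivity)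
  have hj2 : B ≤ 145 * ((j:ℝ) + 1) ^ 2 := hB.trans (by gcongr; linarith)
  have hp : (0:ℝ) < ((j:ℝ) + 1) ^ 3 := by positivity
  refine le_of_mul_le_mul_right ?_ hp
  calc (73/4:ℝ) ^ j * B * ((j:ℝ) + 1) ^ 3
      ≤ (73/4:ℝ) ^ j * (145 * ((j:ℝ) + 1) ^ 2) * ((j:ℝ) + 1) ^ 3 := by gcongr
    _ = 145 * ((73/4:ℝ) ^ j * ((j:ℝ) + 1) ^ 5) := by ring
    _ ≤ 145 * (Cg * 20 ^ j) := mul_le_mul_of_nonneg_left htrade (by norm_num)
    _ ≤ 145 * (Cg * ((304 * c) ^ (4/3:ℝ) * L ^ (4/3:ℝ) * ((j:ℝ) + 1) ^ 3)) := by gcongr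
    _ = _ := by ring

/-- The two smallness conditions for the second moment. -/
lemma second_moment_small {j k m B : ℕ} {cX L X T : ℝ} (hcX : 0 ≤ cX) (hL : 0 ≤ L) (hX : X = cX * L)
    (hX1 : 1 ≤ X) (hk : (k:ℝ) = 4 * j) (hkX : (k:ℝ) ≤ 8 * Real.log X)
    (hLbig : (16 * 14 * 64 * 16) ^ 2 * cX ≤ L) (hm : (m:ℝ) ≤ 11 * L)
    (hB : (B:ℝ) ≤ 145 * (j:ℝ) ^ 2)
    (hT : 409600 * Real.exp 36 * (64 * cX ^ 2 * 121 * (145 * 64) ^ 2 * cX ^ 4) * L ^ 8 ≤ T) :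
    14 * (k:ℝ) ^ 2 ≤ L / 16 ∧
      409600 * Real.exp 36 * ((k:ℝ) ^ 2 * (m:ℝ) ^ 2 * (B:ℝ) ^ 2) ≤ T := by
  have hkX' : (k:ℝ) ≤ 8 * X :=
    hkX.trans (by linarith [Real.log_le_sub_one_of_pos (by linarith : 0 < X)])
  constructor
  · have h1 : Real.log X ≤ X ^ (1/4:ℝ) / (1/4) := Real.log_le_rpow_div (by linarith) (by norm_num)
    have h2 : Real.log X ^ 2 ≤ 16 * Real.sqrt X := by
      refine (pow_le_pow_left₀ (Real.log_nonneg hX1) h1 2).trans (le_of_eq ?_)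
      rw [div_pow, ← Real.rpow_natCast (X ^ (1/4:ℝ)), ← Real.rpow_mul (by linarith),
        Real.sqrt_eq_rpow]
      norm_num
      ring
    have h3 : (k:ℝ) ^ 2 ≤ (8 * Real.log X) ^ 2 := pow_le_pow_left₀ (Nat.cast_nonneg _) hkX 2
    have h4 : 16 * 14 * 64 * 16 * Real.sqrt cX ≤ Real.sqrt L := by
      rw [← Real.sqrt_sq (by norm_num : (0:ℝ) ≤ 16 * 14 * 64 * 16),
        ← Real.sqrt_mul (by positivity)]
      exact Real.sqrt_le_sqrt hLbig
    have h5 : Real.sqrt X * (16 * 14 * 64 * 16) ≤ L := by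
      rw [hX, Real.sqrt_mul hcX]
      calc Real.sqrt cX * Real.sqrt L * (16 * 14 * 64 * 16)
          = (16 * 14 * 64 * 16 * Real.sqrt cX) * Real.sqrt L := by ring
        _ ≤ Real.sqrt L * Real.sqrt L := mul_le_mul_of_nonneg_right h4 (Real.sqrt_nonneg _)
        _ = L := Real.mul_self_sqrt hL
    nlinarith
  · refine le_trans ?_ hT
    have h1 : (k:ℝ) ^ 2 ≤ 64 * cX ^ 2 * L ^ 2 := by
      refine (pow_le_pow_left₀ (Nat.cast_nonneg _) hkX' 2).trans (le_of_eq ?_); rw [hX]; ring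
    have h2 : (m:ℝ) ^ 2 ≤ 121 * L ^ 2 :=
      (pow_le_pow_left₀ (Nat.cast_nonneg _) hm 2).trans (le_of_eq (by ring))
    have hjk : (j:ℝ) ^ 2 ≤ (k:ℝ) ^ 2 := pow_le_pow_left₀ (Nat.cast_nonneg _) (by rw [hk]; linarith [(Nat.cast_nonneg j : (0:ℝ) ≤ j)]) 2
    have h3 : (B:ℝ) ≤ 145 * 64 * (cX ^ 2 * L ^ 2) := by linarith
    calc 409600 * Real.exp 36 * ((k:ℝ) ^ 2 * (m:ℝ) ^ 2 * (B:ℝ) ^ 2)
        ≤ 409600 * Real.exp 36 * ((64 * cX ^ 2 * L ^ 2) * (121 * L ^ 2) *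
            (145 * 64 * (cX ^ 2 * L ^ 2)) ^ 2) := by gcongr
      _ = _ := by ring

/-- The two smallness conditions of the core. -/
lemma core_small {d j k N0 : ℕ} {cX L X n : ℝ} (hn : (n:ℝ) = ((d + k : ℕ) : ℝ)) (hn200 : 200 ≤ n)
    (hL : L = Real.log n) (hL1 : 1 ≤ L) (_hcX : 0 ≤ cX) (hX : X = cX * L) (hk : k = 4 * j)
    (hk' : (k:ℝ) + 2 ≤ n) (hd2 : n / 2 ≤ d) (h2j : (2:ℝ) ^ j ≤ X) (hkX : (k:ℝ) ≤ 8 * X)
    (hN0 : 32 * Real.log (16 * n) / tauC ≤ N0)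
    (hp2 : 32 * (2 + 40 * cX) / tauC * L ^ 2 ≤ n) (hp3 : 81 * cX ^ 5 * L ^ 6 ≤ n) :
    baseEta d k ≤ 1 ∧
      meshCount d k ^ (2 ^ k) * baseEta d k ^ N0 < (1 / (16 * ((d + k : ℕ) : ℝ))) ^ d := by
  have hτ := tauC_pos
  have hM : meshCount d k ≤ Real.exp (5 * k * L) := by
    rw [show 5 * (k:ℝ) * L = (k:ℝ) * (((5:ℕ):ℝ) * L) by push_cast; ring, Real.exp_nat_mul,
      Real.exp_nat_mul, hL, Real.exp_log (by linarith), meshCount]
    refine pow_le_pow_left₀ (Nat.cast_nonneg _) ?_ k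
    rw [meshM, Nat.cast_add, Nat.cast_mul, Nat.cast_mul, Nat.cast_pow, ← hn]
    push_cast
    have h2 : 2 * ((k:ℝ) + 2) * n ^ 3 ≤ 2 * n * n ^ 3 := by gcongr
    nlinarith [pow_le_pow_left₀ (by norm_num : (0:ℝ) ≤ 1) (show (1:ℝ) ≤ n by linarith) 4]
  have hM0 : 0 ≤ meshCount d k := by unfold meshCount; positivity
  have hkL : 2 + 5 * (k:ℝ) * L ≤ tauC * d / 16 := by
    have h1 : 32 * (2 + 40 * cX) * L ^ 2 ≤ tauC * n := by
      rw [div_mul_eq_mul_div, div_le_iff₀ hτ] at hp2; linarith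
    have h2 : 5 * (k:ℝ) * L ≤ 40 * cX * L ^ 2 := by
      calc 5 * (k:ℝ) * L ≤ 5 * (8 * X) * L := by gcongr
        _ = _ := by rw [hX]; ring
    have h3 : 1 ≤ L ^ 2 := one_le_pow₀ hL1
    have h4 : tauC * (n / 2) ≤ tauC * d := mul_le_mul_of_nonneg_left hd2 hτ.le
    linarith
  have hbe : baseEta d k ≤ Real.exp (-(tauC * d / 16)) := by
    have h4 : (4:ℝ) ≤ Real.exp 2 := by
      rw [show (2:ℝ) = 1 + 1 by norm_num, Real.exp_add]
      nlinarith [Real.add_one_le_exp (1:ℝ)]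
    calc baseEta d k ≤ Real.exp 2 * Real.exp (5 * k * L) * Real.exp (-(tauC * d / 8)) := by
          rw [baseEta]; gcongr
      _ ≤ _ := by rw [← Real.exp_add, ← Real.exp_add]; exact Real.exp_le_exp.2 (by linarith)
  have hbe0 : 0 ≤ baseEta d k := by unfold baseEta; positivity
  refine ⟨hbe.trans (Real.exp_le_one_iff.2 (by
    have : (0:ℝ) ≤ tauC * d := mul_nonneg hτ.le (Nat.cast_nonneg _)
    linarith)), ?_⟩
  rw [← hn]
  calc meshCount d k ^ (2 ^ k) * baseEta d k ^ N0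
      ≤ Real.exp (5 * k * L) ^ (2 ^ k) * Real.exp (-(tauC * d / 16)) ^ N0 :=
        mul_le_mul (pow_le_pow_left₀ hM0 hM _) (pow_le_pow_left₀ hbe0 hbe _)
          (pow_nonneg hbe0 _) (pow_nonneg (Real.exp_pos _).le _)
    _ < (1 / (16 * n)) ^ d := by
      rw [← Real.exp_nat_mul, ← Real.exp_nat_mul, ← Real.exp_add,
        show (1 / (16 * n)) = Real.exp (-Real.log (16 * n)) by
          rw [Real.exp_neg, Real.exp_log (by linarith), one_div],
        ← Real.exp_nat_mul]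
      refine Real.exp_lt_exp.2 ?_
      have h1 : 2 * (d:ℝ) * Real.log (16 * n) ≤ (N0:ℝ) * (tauC * d / 16) := by
        rw [div_le_iff₀ hτ] at hN0
        have := mul_le_mul_of_nonneg_right hN0 (Nat.cast_nonneg d : (0:ℝ) ≤ d)
        linarith
      have h2 : ((2 ^ k : ℕ) : ℝ) * (5 * k * L) < (d:ℝ) * 1 := by
        have hk4 : ((2 ^ k : ℕ) : ℝ) ≤ X ^ 4 := by
          rw [Nat.cast_pow, hk, mul_comm 4 j, pow_mul]
          exact pow_le_pow_left₀ (pow_nonneg (Nat.cast_nonneg _) _) (by push_cast; exact h2j) 4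
        have h3 : ((2 ^ k : ℕ) : ℝ) * (5 * k * L) ≤ X ^ 4 * (5 * (8 * X) * L) :=
          mul_le_mul hk4 (by gcongr) (by positivity) (by positivity)
        have h4 : X ^ 4 * (5 * (8 * X) * L) = 40 * (cX ^ 5 * L ^ 6) := by rw [hX]; ring
        linarith
      have h3 : (d:ℝ) * 1 ≤ (d:ℝ) * Real.log (16 * n) := by
        refine mul_le_mul_of_nonneg_left ?_ (Nat.cast_nonneg d)
        rw [Real.log_mul (by norm_num) (by linarith), ← hL]
        linarith [Real.log_nonneg (show (1:ℝ) ≤ 16 by norm_num)]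
      linarith

/-- The choice of `m`. -/
lemma m_facts {n : ℕ} (hn : 1 ≤ n) (hL : 4 ≤ Real.log n) :
    1 ≤ ⌈10 * Real.log n⌉₊ ∧ (⌈10 * Real.log n⌉₊ : ℝ) ≤ 11 * Real.log n ∧
      36 * (n:ℝ) ^ 2 * (2/3:ℝ) ^ ⌈10 * Real.log n⌉₊ ≤ 1 := by
  have hn' : (0:ℝ) < n := by exact_mod_cast hn
  set m := ⌈10 * Real.log n⌉₊
  have hm10 : 10 * Real.log n ≤ m := Nat.le_ceil _
  refine ⟨Nat.ceil_pos.2 (by linarith), ?_, ?_⟩
  · have := Nat.ceil_lt_add_one (show 0 ≤ 10 * Real.log n by linarith)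
    linarith
  · rw [← Real.log_le_log_iff (by positivity) one_pos, Real.log_one,
      Real.log_mul (by positivity) (by positivity), Real.log_mul (by norm_num) (by positivity),
      Real.log_pow, Real.log_pow]
    have h1 : Real.log (2/3:ℝ) ≤ -(1/3) := by
      linarith [Real.log_le_sub_one_of_pos (show (0:ℝ) < 2/3 by norm_num)]
    have h2 : Real.log 36 ≤ 5 := by
      rw [Real.log_le_iff_le_exp (by norm_num), show (5:ℝ) = (5:ℕ) * (1:ℝ) by norm_num,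
        Real.exp_nat_mul]
      exact le_trans (by norm_num : (36:ℝ) ≤ 2.7 ^ 5)
        (pow_le_pow_left₀ (by norm_num) (by linarith [Real.exp_one_gt_d9]) 5)
    have h3 := mul_le_mul_of_nonneg_left h1 (Nat.cast_nonneg m : (0:ℝ) ≤ m)
    push_cast
    linarith

/-- The bound on the number of bins. -/
lemma bins_bound {j k m N0 : ℕ} {L : ℝ} (hj : 1 ≤ j) (hk : (k:ℝ) = 4 * j) (hm1 : 1 ≤ m)
    (hm : (m:ℝ) ≤ 11 * L) (_hL : 0 ≤ L) (hN0 : 32 * L / tauC ≤ N0)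
    (hjlo : N0 * (8 * j + 1) ≤ (4 * j).choose j) :
    (⌈2 * (k:ℝ) * Real.log (40 * m)⌉₊ : ℝ) ≤ 145 * (j:ℝ) ^ 2 := by
  have hjR : (1:ℝ) ≤ j := by exact_mod_cast hj
  have hmR : (1:ℝ) ≤ m := by exact_mod_cast hm1
  have hL16 : 440 * L ≤ 14 * 16 ^ j := by
    have h1 : ((4 * j).choose j : ℝ) ≤ 16 ^ j := by
      rw [show (16:ℝ) ^ j = ((2 ^ (4 * j) : ℕ) : ℝ) by push_cast; rw [pow_mul]; norm_num]
      exact_mod_cast Nat.choose_le_two_pow _ _
    have h2 : (N0:ℝ) ≤ ((4 * j).choose j : ℝ) := by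
      exact_mod_cast le_trans (Nat.le_mul_of_pos_right N0 (by omega)) hjlo
    have h3 : 32 * L ≤ 32 * L / tauC := le_div_self (by linarith) tauC_pos tauC_le_one
    have h4 : (0:ℝ) < 16 ^ j := by positivity
    linarith
  have hlog40 : Real.log (40 * m) ≤ 14 + 4 * j := by
    calc Real.log (40 * m) ≤ Real.log (14 * 16 ^ j) :=
          Real.log_le_log (by linarith) (by linarith)
      _ = Real.log 14 + j * Real.log 16 := by
          rw [Real.log_mul (by norm_num) (by positivity), Real.log_pow]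
      _ ≤ 14 + j * 4 := by
          refine add_le_add (by linarith [Real.log_le_sub_one_of_pos (show (0:ℝ) < 14 by norm_num)])
            (mul_le_mul_of_nonneg_left ?_ (Nat.cast_nonneg _))
          rw [show (16:ℝ) = 2 ^ 4 by norm_num, Real.log_pow]
          push_cast
          linarith [Real.log_two_lt_d9]
      _ = _ := by ring
  have hlog0 : 0 ≤ Real.log (40 * m) := Real.log_nonneg (by linarith)
  have h := Nat.ceil_lt_add_one (show 0 ≤ 2 * (k:ℝ) * Real.log (40 * m) by positivity)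
  have h2 : 2 * (k:ℝ) * Real.log (40 * m) ≤ 2 * (k:ℝ) * (14 + 4 * j) :=
    mul_le_mul_of_nonneg_left hlog40 (by positivity)
  rw [hk] at h h2
  rw [hk]
  nlinarith

theorem exists_params : ∃ C : ℝ, 0 < C ∧ ∀ᶠ n : ℕ in atTop, Nonempty (Params n C) := by
  obtain ⟨Cg, hCg, htrade⟩ := geometric_trade
  have hτ := tauC_pos
  have hτ1 := tauC_le_one
  set c1 : ℝ := 64 / tauC + 1 with hc1
  have hc1p : 0 < c1 := by positivity
  have hc1one : 1 ≤ c1 := by rw [hc1]; linarith [show (0:ℝ) ≤ 64 / tauC by positivity]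
  set cX : ℝ := 256 * c1 with hcX
  refine ⟨145 * Cg * (304 * c1) ^ (4/3:ℝ), by positivity, ?_⟩
  have hlogT : Tendsto (fun n : ℕ => Real.log n) atTop atTop :=
    Real.tendsto_log_atTop.comp tendsto_natCast_atTop_atTop
  filter_upwards [hlogT.eventually_ge_atTop 4,
    hlogT.eventually_ge_atTop ((16 * 14 * 64 * 16) ^ 2 * cX),
    eventually_ge_atTop 200, eventually_ge_atTop ⌈48 / tauC⌉₊,
    polylog_le (16 * cX) 1 (s := 1) one_pos,
    polylog_le (32 * (2 + 40 * cX) / tauC) 2 (s := 1) one_pos,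
    polylog_le (81 * cX ^ 5) 6 (s := 1) one_pos,
    polylog_le (409600 * Real.exp 36 * (64 * cX ^ 2 * 121 * (145 * 64) ^ 2 * cX ^ 4)) 8
      (s := 1/16) (by norm_num)]
    with n hL4 hLbig hn200 hn48 hp1 hp2 hp3 hp4
  rw [Real.rpow_one] at hp1 hp2 hp3
  rw [pow_one] at hp1
  set L := Real.log n with hL
  have hnR : (200:ℝ) ≤ n := by exact_mod_cast hn200
  have hL1 : 1 ≤ L := by linarith
  set N0 := ⌈32 * Real.log (16 * n) / tauC⌉₊ with hN0def
  have hlog16 : Real.log (16 * n) = Real.log 16 + L := Real.log_mul (by norm_num) (by linarith)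
  have hlog16a : 0 ≤ Real.log 16 := Real.log_nonneg (by norm_num)
  have hlog16b : Real.log 16 ≤ 4 := by
    rw [show (16:ℝ) = 2 ^ 4 by norm_num, Real.log_pow]
    push_cast
    linarith [Real.log_two_lt_d9]
  have hN0lo : 32 * Real.log (16 * n) / tauC ≤ N0 := Nat.le_ceil _
  have hN0L : 32 * L / tauC ≤ N0 :=
    le_trans (div_le_div_of_nonneg_right (by linarith) hτ.le) hN0lo
  have hN2 : 2 ≤ N0 := by
    have h : 32 * L ≤ 32 * L / tauC := le_div_self (by linarith) hτ hτ1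
    have : (2:ℝ) ≤ N0 := by linarith
    exact_mod_cast this
  have hN0hi : (N0:ℝ) ≤ c1 * L := by
    have h := Nat.ceil_lt_add_one (show 0 ≤ 32 * Real.log (16 * n) / tauC by
      rw [hlog16]; positivity)
    have h2 : 32 * Real.log (16 * n) / tauC ≤ 64 / tauC * L := by
      rw [div_mul_eq_mul_div]; exact div_le_div_of_nonneg_right (by linarith) hτ.le
    rw [hc1, add_mul, one_mul]
    linarith
  obtain ⟨j, hj, hjlo, hjhi⟩ := exists_choose_index N0 hN2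
  have hjR : (1:ℝ) ≤ j := by exact_mod_cast hj
  obtain ⟨X, hX⟩ : ∃ X, X = cX * L := ⟨_, rfl⟩
  have hX1 : 1 ≤ X := by
    rw [hX, hcX]
    have := mul_le_mul hc1one hL1 zero_le_one hc1p.le
    linarith
  have h2j : (2:ℝ) ^ j ≤ X := index_small hjhi hN0hi (by rw [hX, hcX]; ring)
  obtain ⟨k, hk⟩ : ∃ k, k = 4 * j := ⟨_, rfl⟩
  have hkj : (k:ℝ) = 4 * j := by rw [hk]; push_cast; ring
  have hkX : (k:ℝ) ≤ 8 * Real.log X := by
    have := Real.log_le_log (by positivity) h2j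
    rw [Real.log_pow] at this
    have h2 := mul_le_mul_of_nonneg_left Real.log_two_gt_d9.le (Nat.cast_nonneg j : (0:ℝ) ≤ j)
    rw [hkj]
    linarith
  have hkX' : (k:ℝ) ≤ 8 * X :=
    hkX.trans (by linarith [Real.log_le_sub_one_of_pos (by linarith : 0 < X)])
  have hkn : (k:ℝ) ≤ n / 2 := by linarith
  have hkle : k ≤ n := by
    have : (k:ℝ) ≤ n := by linarith
    exact_mod_cast this
  obtain ⟨d, hdn⟩ : ∃ d, n = d + k := ⟨n - k, by omega⟩
  have hdn' : (n:ℝ) = ((d + k : ℕ) : ℝ) := by exact_mod_cast hdn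
  have hd2 : (n:ℝ) / 2 ≤ d := by rw [Nat.cast_add] at hdn'; linarith
  have hd100 : 100 ≤ d := by
    have : (100:ℝ) ≤ d := by linarith
    exact_mod_cast this
  have hd' : 24 ≤ tauC * d := by
    have h48 : 48 / tauC ≤ n := (Nat.le_ceil _).trans (by exact_mod_cast hn48)
    rw [div_le_iff₀ hτ] at h48
    have := mul_le_mul_of_nonneg_left hd2 hτ.le
    linarith
  have hkd : k ≤ d := by
    have : (k:ℝ) ≤ d := by linarith
    exact_mod_cast this
  obtain ⟨hm1, hm11, hm'⟩ := m_facts (n := n) (by omega) hL4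
  have hBj := bins_bound hj hkj hm1 hm11 (by linarith) hN0L hjlo
  obtain ⟨hk2, hpoly⟩ := second_moment_small (B := ⌈2 * (k:ℝ) * Real.log
    (40 * (⌈10 * Real.log n⌉₊ : ℝ))⌉₊) (by positivity) (by linarith) hX hX1 hkj hkX hLbig hm11
    hBj hp4
  obtain ⟨hη, hbig⟩ := core_small hdn' hnR hL hL1 (by positivity) hX hk (by linarith) hd2 h2j
    hkX' hN0lo hp2 hp3
  subst hk
  refine ⟨⟨j, d, _, N0, hdn, hj, by omega, hd100, hd', hkd, hm1, hm', ?_, hη, hbig, hk2, hpoly,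
    loss_bound hj hc1p (by linarith) hCg.le (htrade j) hjhi hN0hi hBj⟩⟩
  have h : (N0:ℝ) * (2 * ((4 * j : ℕ) : ℝ) + 1) ≤ ((4 * j).choose j : ℝ) := by
    rw [show (2 * ((4 * j : ℕ):ℝ) + 1) = ((8 * j + 1 : ℕ) : ℝ) by push_cast; ring]
    exact_mod_cast hjlo
  rw [← le_div_iff₀ (by positivity)] at h
  linarith

/-- The lattice covering bound. -/
theorem lattice_cover_polylog :
    ∃ C : ℝ, 0 < C ∧ ∃ N : ℕ, ∀ n ≥ N, ∀ K : Set (Fin n → ℝ), Convex ℝ K → IsCompact K →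
      (interior K).Nonempty → ∃ A : Matrix (Fin n) (Fin n) ℝ, A.det ≠ 0 ∧
        (∀ x, ∃ z : Fin n → ℤ, x - A *ᵥ (fun i => (z i : ℝ)) ∈ K) ∧
        (volume K).toReal ≤ C * n * Real.log n ^ (4/3 : ℝ) * |A.det| := by
  obtain ⟨C, hC, hev⟩ := exists_params
  obtain ⟨Nmin, hN⟩ := eventually_atTop.1 hev
  have hτ := tauC_pos
  refine ⟨512 * Real.exp 18 * C, by positivity, Nmin, fun n hn K hK hKc hKi => ?_⟩
  obtain ⟨⟨j, d, m, N0, hjd, hj, hn2, hd, hd', hkd, hm, hm', hN0, hη, hbig, hk2, hpoly, hloss⟩⟩ :=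
    hN n hn
  obtain ⟨k, hk⟩ : ∃ k, k = 4 * j := ⟨_, rfl⟩
  rw [← hk] at hjd hkd hN0 hη hbig hk2 hpoly hloss
  subst hjd
  have hk4 : 4 ≤ k := by omega
  obtain ⟨M, b, hMd, hI, hMv⟩ := exists_iso hKc hK hKi
  set K1 := (fun x => M *ᵥ x + b) '' K with hK1
  obtain ⟨R, hR, hmass⟩ := hI.exists_shell hn2 hm hm' (show 1 ≤ k by omega)
  set B := ⌈2 * (k:ℝ) * Real.log (40 * m)⌉₊ with hB
  have hmR : (1:ℝ) ≤ m := by exact_mod_cast hm
  have hBpos : 0 < B := by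
    refine Nat.ceil_pos.2 (mul_pos ?_ (Real.log_pos (by linarith)))
    have : (0:ℝ) < k := by exact_mod_cast (show 0 < k by omega)
    positivity
  have hR0 : 0 < R := by
    refine lt_of_lt_of_le ?_ hR
    have : (0:ℝ) < ((d + k : ℕ) : ℝ) := by exact_mod_cast (show 0 < d + k by omega)
    positivity
  set S := K1 ∩ {x | R ^ 2 ≤ ∑ i, x i ^ 2 ∧ ∑ i, x i ^ 2 ≤ ((1 + 1 / (k:ℝ)) * R) ^ 2} with hS
  have hSm : MeasurableSet S := by
    rw [hS, Set.ofPred_and]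
    exact hI.compact.measurableSet.inter
      ((measurableSet_le measurable_const (by fun_prop)).inter
        (measurableSet_le (by fun_prop) measurable_const))
  have hSp : 0 < volume.real S := lt_of_lt_of_le (by
    have := hI.pos
    have : (0:ℝ) < B := by exact_mod_cast hBpos
    positivity) hmass
  obtain ⟨N, hNd, hsec⟩ := exists_large_sections hk4 hI inter_subset_left hSm hR0
    (fun x hx => hx.2) hSp (variance_condition hn2 hk4 hm hBpos hI.pos hmass hR hk2 hpoly)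
  set V0 := |N.det| * (mu0 k * volume.real S) / (4 * etaB k ^ k) with hV0
  have hη0 := etaB_pos (k := k) (by omega)
  have hμ0 := mu0_pos (k := k) (by omega)
  have hV0p : 0 < V0 := by
    have := abs_pos.2 hNd
    positivity
  set K2 := (fun x => N *ᵥ x) '' K1 with hK2
  obtain ⟨A1, hA1, hA1v, hA1c⟩ := core_cover hk hj hd hd' hkd hN0 hη hbig
    (splitM_compact (hI.compact.image (by fun_prop)))
    (splitM_convex (hI.convex.linear_image N.mulVecLin)) hV0p hsec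
  set Amat := A1.submatrix finSumFinEquiv.symm finSumFinEquiv.symm with hAm
  set NM := N * M with hNM
  have hNMd : NM.det ≠ 0 := by rw [hNM, det_mul]; exact mul_ne_zero hNd hMd
  have hu : IsUnit NM.det := isUnit_iff_ne_zero.2 hNMd
  refine ⟨NM⁻¹ * Amat, ?_, fun x => ?_, ?_⟩
  · rw [det_mul, det_nonsing_inv, Ring.inverse_eq_inv', hAm, det_submatrix_equiv_self]
    exact mul_ne_zero (inv_ne_zero hNMd) hA1
  · set p := N *ᵥ (M *ᵥ x + b) with hp
    obtain ⟨xi, hxi⟩ := hA1c (fun i => p (Fin.castAdd k i)) (fun l => p (Fin.natAdd d l))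
    set z : Fin (d + k) → ℤ := fun i => xi (finSumFinEquiv.symm i)
    have hAz : ∀ i, (Amat *ᵥ fun i => (z i : ℝ)) i =
        (A1 *ᵥ fun i => (xi i : ℝ)) (finSumFinEquiv.symm i) := by
      intro i
      simp only [hAm, z, mulVec, dotProduct, submatrix_apply]
      exact Fintype.sum_equiv finSumFinEquiv.symm _ _ fun _ => rfl
    refine ⟨z, ?_⟩
    obtain ⟨_, ⟨_, ⟨u, hu1, rfl⟩, rfl⟩, hv⟩ := hxi
    have hv' : N *ᵥ (M *ᵥ u + b) = p - Amat *ᵥ fun i => (z i : ℝ) := by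
      refine (splitM d k).injective (hv.trans ?_)
      rw [splitM_apply]
      refine Prod.ext (funext fun i => ?_) (funext fun l => ?_)
      · simp [hAz]
      · simp [hAz]
    have hux : x - (NM⁻¹ * Amat) *ᵥ (fun i => (z i : ℝ)) = u := by
      have e : NM *ᵥ (x - u) = Amat *ᵥ fun i => (z i : ℝ) := by
        rw [mulVec_sub, hNM, ← mulVec_mulVec, ← mulVec_mulVec]
        rw [mulVec_add, hp, mulVec_add] at hv'
        funext i
        have := congrFun hv' i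
        simp only [Pi.add_apply, Pi.sub_apply] at this ⊢
        linarith
      rw [← mulVec_mulVec, ← e, mulVec_mulVec, nonsing_inv_mul _ hu, one_mulVec, sub_sub_cancel]
    rw [hux]
    exact hu1
  · have hA1p := abs_pos.2 hA1
    have hMp := abs_pos.2 hMd
    have hNp := abs_pos.2 hNd
    rw [det_mul, det_nonsing_inv, Ring.inverse_eq_inv', hAm, det_submatrix_equiv_self, abs_mul,
      abs_inv, hNM, det_mul, abs_mul, ← measureReal_def]
    have hV : volume.real K = volume.real K1 / |M.det| := by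
      rw [hMv]; field_simp
    rw [hV]
    have hg := gauss_loss hk (show 1 ≤ k by omega)
    rw [div_le_iff₀ (by positivity)] at hg
    set V1 := volume.real K1
    have hBR : (0:ℝ) < B := by exact_mod_cast hBpos
    set L := Real.log ((d + k : ℕ) : ℝ) ^ (4/3:ℝ)
    have hdn : (d:ℝ) ≤ ((d + k : ℕ) : ℝ) := by push_cast; linarith [(Nat.cast_nonneg k : (0:ℝ) ≤ k)]
    -- |det N| V1 ≤ const · n · L · |det A1|
    have key : |N.det| * V1 ≤ 512 * Real.exp 18 * C * ((d + k : ℕ) : ℝ) * L * |A1.det| := by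
      have h1 : V1 / (8 * B) ≤ volume.real S := hmass
      rw [div_le_iff₀ (by positivity)] at h1
      have h2 : (2:ℝ) ^ k * (|N.det| * (mu0 k * volume.real S)) ≤
          16 * tauC * d * |A1.det| * (4 * etaB k ^ k) := by
        have := hA1v
        rw [hV0, mul_div_assoc', div_le_iff₀ (by positivity)] at this
        exact this
      have h4 : ((2:ℝ) ^ k * mu0 k) * (|N.det| * V1) ≤
          ((2:ℝ) ^ k * mu0 k) * (512 * Real.exp 18 * ((73/4:ℝ) ^ j * B) * d * |A1.det|) := by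
        calc ((2:ℝ) ^ k * mu0 k) * (|N.det| * V1)
            ≤ ((2:ℝ) ^ k * mu0 k) * (|N.det| * (volume.real S * (8 * B))) := by gcongr
          _ = ((2:ℝ) ^ k * (|N.det| * (mu0 k * volume.real S))) * (8 * B) := by ring
          _ ≤ (16 * tauC * d * |A1.det| * (4 * etaB k ^ k)) * (8 * B) := by gcongr
          _ = 512 * tauC * (etaB k ^ k) * B * d * |A1.det| := by ring
          _ ≤ 512 * 1 * (Real.exp 18 * (73/4:ℝ) ^ j * (2 ^ k * mu0 k)) * B * d * |A1.det| := by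
              gcongr
              exact tauC_le_one
          _ = _ := by ring
      calc |N.det| * V1 ≤ 512 * Real.exp 18 * ((73/4:ℝ) ^ j * B) * d * |A1.det| :=
            le_of_mul_le_mul_left h4 (by positivity)
        _ ≤ 512 * Real.exp 18 * (C * L) * ((d + k : ℕ) : ℝ) * |A1.det| := by
            have : 0 ≤ C * L := le_trans (by positivity) hloss
            gcongr
        _ = _ := by ring
    calc V1 / |M.det| = |N.det| * V1 * (|N.det| * |M.det|)⁻¹ := by field_simp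
      _ ≤ (512 * Real.exp 18 * C * ((d + k : ℕ) : ℝ) * L * |A1.det|) * (|N.det| * |M.det|)⁻¹ :=
          mul_le_mul_of_nonneg_right key (by positivity)
      _ = _ := by ring

end Vale.Agent.P230
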